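import Vale.Agent.P045.Final

set_option linter.unusedSectionVars false

/-! The hypergraph of the construction, and sizes for which the parameters are admissible. -/

namespace Vale.Agent.P045

open Finset

variable {Q q : ℕ} [Fact Q.Prime] [Fact q.Prime] {D : Small q}

open Classical in
/-- From good positions to an intersecting hypergraph with covering number `r`. -/
theorem hypergraph (f : Pos Q D) (hS : Sizes Q q) (hf : Good f) :
    ∃ (n : ℕ) (part : Fin n → Fin (Q + q + 1)) (H : Finset (Finset (Fin n))),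
      H.Nonempty ∧ (∀ e ∈ H, ∀ i, ∃! v, v ∈ e ∧ part v = i) ∧ (∀ e ∈ H, e.card = Q + q + 1) ∧
      (∀ e ∈ H, ∀ e' ∈ H, ∃ v, v ∈ e ∧ v ∈ e') ∧
      ∀ T : Finset (Fin n), (∀ e ∈ H, ∃ v ∈ T, v ∈ e) → Q + q + 1 ≤ T.card := by
  have hQ := hQ1000 hS
  have hP : Fintype.card (Option (ZMod Q) ⊕ ZMod q) = Q + q + 1 := by
    rw [Fintype.card_sum, Fintype.card_option, ZMod.card, ZMod.card]; ring
  let ep : Option (ZMod Q) ⊕ ZMod q ≃ Fin (Q + q + 1) := Fintype.equivFinOfCardEq hP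
  let en : Cls Q q ≃ Fin (Fintype.card (Cls Q q)) := Fintype.equivFin _
  let edge : Point Q D → Finset (Fin (Fintype.card (Cls Q q))) := fun x =>
    univ.image fun i => en (cls f i x)
  refine ⟨Fintype.card (Cls Q q), fun v => ep (partOf (en.symm v)), univ.image edge,
    ?_, ?_, ?_, ?_, ?_⟩
  · have h : 0 < D.S.card := N_pos f hQ hS hf
    obtain ⟨l, hl⟩ := card_pos.1 h
    exact ⟨edge (Sum.inl (none, ⟨l, hl⟩)), mem_image_of_mem _ (mem_univ _)⟩
  · intro e he i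
    obtain ⟨x, -, rfl⟩ := mem_image.1 he
    refine ⟨en (cls f (ep.symm i) x), ⟨mem_image_of_mem _ (mem_univ _), ?_⟩, ?_⟩
    · simp [partOf_cls]
    · rintro v ⟨hv, hvi⟩
      obtain ⟨j, -, rfl⟩ := mem_image.1 hv
      simp only [Equiv.symm_apply_apply, partOf_cls] at hvi
      rw [← hvi, Equiv.symm_apply_apply]
  · intro e he
    obtain ⟨x, -, rfl⟩ := mem_image.1 he
    rw [card_image_of_injective _ fun a b h => by
      have := congrArg partOf (en.injective h)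
      rwa [partOf_cls, partOf_cls] at this, card_univ, hP]
  · intro e he e' he'
    obtain ⟨x, -, rfl⟩ := mem_image.1 he
    obtain ⟨y, -, rfl⟩ := mem_image.1 he'
    obtain ⟨i, hi⟩ := share f hQ x y
    exact ⟨en (cls f i x), mem_image_of_mem _ (mem_univ _),
      mem_image.2 ⟨i, mem_univ _, by rw [hi]⟩⟩
  · intro T hT
    have h := cover_lb f hQ hS hf (C := T.image en.symm) ?_
    · exact h.trans card_image_le
    intro x
    obtain ⟨v, hv, hvx⟩ := hT (edge x) (mem_image_of_mem _ (mem_univ _))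
    obtain ⟨i, -, rfl⟩ := mem_image.1 hvx
    refine ⟨cls f i x, mem_image.2 ⟨_, hv, en.symm_apply_apply _⟩, ?_⟩
    show cls f (partOf (cls f i x)) x = cls f i x
    rw [partOf_cls]

omit [Fact Q.Prime] [Fact q.Prime] in
lemma poly_le_two_pow {t : ℕ} (ht : 200 ≤ t) : 2 ^ 104 * t ^ 2 ≤ 2 ^ t := by
  induction t, ht using Nat.le_induction with
  | base =>
    calc 2 ^ 104 * 200 ^ 2 ≤ 2 ^ 104 * 2 ^ 16 := Nat.mul_le_mul_left _ (by norm_num)
      _ = 2 ^ 120 := by rw [← pow_add]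
      _ ≤ 2 ^ 200 := Nat.pow_le_pow_right (by norm_num) (by norm_num)
  | succ t ht ih =>
    have : (t + 1) ^ 2 ≤ 2 * t ^ 2 := by nlinarith
    calc 2 ^ 104 * (t + 1) ^ 2 ≤ 2 ^ 104 * (2 * t ^ 2) := Nat.mul_le_mul_left _ this
      _ = 2 * (2 ^ 104 * t ^ 2) := by ring
      _ ≤ 2 * 2 ^ t := Nat.mul_le_mul_left _ ih
      _ = 2 ^ (t + 1) := by rw [pow_succ]; ring

omit [Fact Q.Prime] [Fact q.Prime] in
lemma sizes_of_large (hq : 2 ^ 200 ≤ q) (hlo : q ^ 3 ≤ Q) (hhi : Q ≤ 2 * q ^ 3) : Sizes Q q := by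
  refine ⟨le_trans (Nat.pow_le_pow_right (by norm_num) (by norm_num)) hq, hlo, hhi, ?_⟩
  set t := Nat.log 2 q with ht
  have hq0 : q ≠ 0 := fun h => by rw [h] at hq; exact absurd hq (by norm_num)
  have h1 : 2 ^ t ≤ q := Nat.pow_log_le_self 2 hq0
  have h2 : q < 2 ^ (t + 1) := Nat.lt_pow_succ_log_self (by norm_num) q
  have ht200 : 200 ≤ t := Nat.le_log_of_pow_le (by norm_num) hq
  have h3 : Q < 2 ^ (3 * t + 4) := by
    refine lt_of_le_of_lt hhi ?_
    calc 2 * q ^ 3 < 2 * (2 ^ (t + 1)) ^ 3 :=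
          Nat.mul_lt_mul_of_pos_left (Nat.pow_lt_pow_left h2 (by norm_num)) (by norm_num)
      _ = 2 ^ (3 * t + 4) := by rw [← pow_mul, ← pow_succ']; ring_nf
  have h4 : Nat.log 2 Q < 3 * t + 4 := by
    rcases Nat.eq_zero_or_pos Q with h | h
    · simp [h]
    · exact Nat.log_lt_of_lt_pow (by omega) h3
  have h5 : lg Q ^ 2 ≤ (4 * t) ^ 2 := Nat.pow_le_pow_left (by simp only [lg]; omega) 2
  calc 2 ^ 100 * lg Q ^ 2 ≤ 2 ^ 100 * (4 * t) ^ 2 := Nat.mul_le_mul_left _ h5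
    _ = 2 ^ 104 * t ^ 2 := by ring
    _ ≤ 2 ^ t := poly_le_two_pow ht200
    _ ≤ q := h1

end Vale.Agent.P045
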