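import Vale.Agent.P045.SmallDef

set_option linter.unusedSectionVars false

/-! The hypergraph: points, the classes of the parts, and the proof that every two points
share a class. -/

namespace Vale.Agent.P045

open Finset

variable {Q q : ℕ} [Fact Q.Prime] [Fact q.Prime]

lemma cast_small (hQ : 1000 ≤ Q) {a b : ℕ} (ha : a < 1000) (hb : b < 1000)
    (h : (a : ZMod Q) = b) : a = b := by
  have := congrArg ZMod.val h
  rwa [ZMod.val_cast_of_lt (by omega), ZMod.val_cast_of_lt (by omega)] at this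

lemma line_unique {L L' : Option (ZMod Q) × ZMod Q} {p p' : ZMod Q × ZMod Q} (hp : p ≠ p')
    (h1 : On L p) (h2 : On L p') (h3 : On L' p) (h4 : On L' p') : L = L' := by
  obtain ⟨σ, c⟩ := L
  obtain ⟨τ, d⟩ := L'
  simp only [On] at h1 h2 h3 h4
  by_cases h : σ = τ
  · subst h; rw [← h1, ← h3]
  · exact absurd (meet_unique h (h1.trans h2.symm) (h3.trans h4.symm)) hp

lemma point_unique {L L' : Option (ZMod Q) × ZMod Q} {p p' : ZMod Q × ZMod Q} (hL : L ≠ L')
    (h1 : On L p) (h2 : On L p') (h3 : On L' p) (h4 : On L' p') : p = p' := by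
  by_contra h
  exact hL (line_unique h h1 h2 h3 h4)

/-- The direction of a point seen from the origin. -/
def dir (p : ZMod Q × ZMod Q) : Option (ZMod Q) := if p.1 = 0 then none else some (p.2 / p.1)

lemma ic_dir (p : ZMod Q × ZMod Q) : ic (dir p) p = 0 := by
  unfold dir
  split_ifs with h
  · exact h
  · simp only [ic]
    field_simp
    ring

lemma dir_unique {p : ZMod Q × ZMod Q} (hp : p ≠ (0, 0)) {σ : Option (ZMod Q)}
    (h : ic σ p = 0) : dir p = σ := by
  by_contra hne
  exact hp (meet_unique hne ((ic_dir p).trans (ic_origin _).symm) (h.trans (ic_origin _).symm))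

/-- The centre of a role. -/
def ctr (j : Fin 4) : ZMod Q × ZMod Q :=
  (((j.val + 1 : ℕ) : ZMod Q), (((j.val + 1) ^ 2 : ℕ) : ZMod Q))

/-- The slope of an auxiliary line. -/
def auxS (n : Fin 10) : ZMod Q := ((n.val + 5 : ℕ) : ZMod Q)

/-- An auxiliary line. -/
def aux (n : Fin 10) : Option (ZMod Q) × ZMod Q := (some (auxS n), auxS n ^ 2)

lemma auxS_inj (hQ : 1000 ≤ Q) {n m : Fin 10} (h : auxS (Q := Q) n = auxS m) : n = m := by
  have := cast_small hQ (by omega) (by omega) h
  exact Fin.ext (by omega)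

lemma aux_origin (hQ : 1000 ≤ Q) (n : Fin 10) : ¬ On (aux n) ((0, 0) : ZMod Q × ZMod Q) := by
  intro h
  simp only [On, aux, ic, auxS, mul_zero, sub_zero] at h
  have h' : ((0 : ℕ) : ZMod Q) = (((n.val + 5) ^ 2 : ℕ) : ZMod Q) := by push_cast; simpa using h
  have hle : (n.val + 5) ^ 2 ≤ 14 ^ 2 := Nat.pow_le_pow_left (by omega) 2
  have hpos : 5 ^ 2 ≤ (n.val + 5) ^ 2 := Nat.pow_le_pow_left (by omega) 2
  have := cast_small hQ (by omega) (by omega) h'
  omega

lemma aux_ctr (hQ : 1000 ≤ Q) (n : Fin 10) (j : Fin 4) : ¬ On (aux (Q := Q) n) (ctr j) := by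
  intro h
  simp only [On, aux, ic, auxS, ctr] at h
  have h' : (((j.val + 1) ^ 2 : ℕ) : ZMod Q)
      = (((n.val + 5) ^ 2 + (n.val + 5) * (j.val + 1) : ℕ) : ZMod Q) := by
    push_cast at h ⊢
    linear_combination h
  have h1 : (j.val + 1) ^ 2 ≤ 4 ^ 2 := Nat.pow_le_pow_left (by omega) 2
  have h2 : (n.val + 5) ^ 2 ≤ 14 ^ 2 := Nat.pow_le_pow_left (by omega) 2
  have h3 : 5 ^ 2 ≤ (n.val + 5) ^ 2 := Nat.pow_le_pow_left (by omega) 2
  have h4 : (n.val + 5) * (j.val + 1) ≤ 14 * 4 := Nat.mul_le_mul (by omega) (by omega)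
  have := cast_small hQ (by omega) (by omega) h'
  omega

lemma aux_three (hQ : 1000 ≤ Q) {a b c : Fin 10} {p : ZMod Q × ZMod Q} (hab : a ≠ b)
    (hac : a ≠ c) (hbc : b ≠ c) (ha : On (aux a) p) (hb : On (aux b) p) (hc : On (aux c) p) :
    False := by
  simp only [On, aux, ic] at ha hb hc
  have h1 : (auxS (Q := Q) a - auxS b) * (auxS a + auxS b + p.1) = 0 := by
    linear_combination hb - ha
  have h2 : (auxS (Q := Q) a - auxS c) * (auxS a + auxS c + p.1) = 0 := by
    linear_combination hc - ha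
  rcases mul_eq_zero.1 h1 with h | h
  · exact hab (auxS_inj hQ (sub_eq_zero.1 h))
  rcases mul_eq_zero.1 h2 with h' | h'
  · exact hac (auxS_inj hQ (sub_eq_zero.1 h'))
  exact hbc (auxS_inj hQ (by linear_combination h - h'))

lemma ctr_inj (hQ : 1000 ≤ Q) : Function.Injective (ctr (Q := Q)) := by
  intro i j h
  have := cast_small hQ (by omega) (by omega) (Prod.ext_iff.1 h).1
  exact Fin.ext (by omega)

lemma ctr_ne (hQ : 1000 ≤ Q) (j : Fin 4) : ctr (Q := Q) j ≠ (0, 0) := by
  intro h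
  have h' : ((j.val + 1 : ℕ) : ZMod Q) = ((0 : ℕ) : ZMod Q) := by
    rw [Nat.cast_zero]; exact (Prod.ext_iff.1 h).1
  have := cast_small hQ (by omega) (by omega) h'
  omega

/-- The role of a gadget line. -/
def role (L : Option (ZMod Q) × ZMod Q) : Fin 4 :=
  if h : (univ.filter fun j => On L (ctr j)).Nonempty then
    (univ.filter fun j => On L (ctr j)).min' h else 0

lemma on_role {L : Option (ZMod Q) × ZMod Q} (h : ∃ j, On L (ctr j)) : On L (ctr (role L)) := by
  have hne : (univ.filter fun j => On L (ctr j)).Nonempty := by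
    obtain ⟨j, hj⟩ := h; exact ⟨j, mem_filter.2 ⟨mem_univ _, hj⟩⟩
  rw [role, dif_pos hne]
  exact (mem_filter.1 (min'_mem _ hne)).2

/-- The canonical auxiliary index of a position. -/
def idx (p : ZMod Q × ZMod Q) : Fin 10 :=
  if h : (univ.filter fun n => On (aux n) p).Nonempty then
    (univ.filter fun n => On (aux n) p).min' h else 0

lemma on_idx {p : ZMod Q × ZMod Q} (h : ∃ n, On (aux n) p) : On (aux (idx p)) p := by
  have hne : (univ.filter fun n => On (aux n) p).Nonempty := by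
    obtain ⟨j, hj⟩ := h; exact ⟨j, mem_filter.2 ⟨mem_univ _, hj⟩⟩
  rw [idx, dif_pos hne]
  exact (mem_filter.1 (min'_mem _ hne)).2

/-- The admissible parameters on the line of slope `σ` through the origin. -/
def dom (Q : ℕ) [Fact Q.Prime] (σ : Option (ZMod Q)) : Finset (ZMod Q) :=
  univ.filter fun t => t ≠ 0 ∧ (∀ j, ptOn σ t ≠ ctr j) ∧ ∀ n, ¬ On (aux n) (ptOn σ t)

/-- A choice of positions: on each line through the origin an injection of the labels. -/
abbrev Pos (Q : ℕ) [Fact Q.Prime] (D : Small q) : Type :=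
  ∀ σ : Option (ZMod Q), ↥D.S ↪ ↥(dom Q σ)

/-- Gadget points: a gadget line and a position on it and on an auxiliary line. -/
abbrev Gad (Q : ℕ) [Fact Q.Prime] : Type :=
  {g : (Option (ZMod Q) × ZMod Q) × (ZMod Q × ZMod Q) //
    g.1.2 ≠ 0 ∧ (∃ j, On g.1 (ctr j)) ∧ On g.1 g.2 ∧ ∃ n, On (aux n) g.2}

/-- The kind of a gadget point. -/
def kind (g : Gad Q) : Kind := (role g.1.1, idx g.1.2)

/-- The points of the construction. -/
abbrev Point (Q : ℕ) [Fact Q.Prime] (D : Small q) : Type :=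
  (Option (ZMod Q) × ↥D.S) ⊕ Gad Q

/-- The classes in a part of the first kind: a line, a piece, or a gadget piece. -/
abbrev SCls (Q q : ℕ) : Type := ZMod Q ⊕ ZMod q ⊕ ZMod Q

/-- A component: a line through the origin and a block. -/
abbrev Comp (Q q : ℕ) : Type := Option (ZMod Q) × ZMod q

/-- All classes of all parts. -/
abbrev Cls (Q q : ℕ) : Type := (Option (ZMod Q) × SCls Q q) ⊕ (ZMod q × Comp Q q)

variable {D : Small q} (f : Pos Q D)

/-- The position of a point. -/
def posn : Point Q D → ZMod Q × ZMod Q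
  | Sum.inl (σ, l) => ptOn σ (f σ l).1
  | Sum.inr g => g.1.2

/-- The label of a point. -/
def lab : Point Q D → ZMod q × ZMod q
  | Sum.inl (_, l) => l.1
  | Sum.inr g => lam (kind g)

/-- The slope of the gadget line of a gadget point. -/
def ownSlope : Point Q D → Option (Option (ZMod Q))
  | Sum.inl _ => none
  | Sum.inr g => some g.1.1.1

/-- The component of a point in the part `k`. -/
def compOf (k : ZMod q) (x : Point Q D) : Comp Q q := (dir (posn f x), blk k (lab x))

/-- The component of a gadget point. -/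
def compG (k : ZMod q) (g : Gad Q) : Comp Q q := (dir g.1.2, blk k (lam (kind g)))

/-- A leaf component and the centre it is merged into. -/
def Link (k : ZMod q) (x y : Comp Q q) : Prop :=
  (∃ (a : Gad Q) (l : ↥D.S), D.group k = some (kind a) ∧ D.claim (kind a) l.1 = k ∧
      x.2 = blk k l.1 ∧ On a.1.1 (ptOn x.1 (f x.1 l).1) ∧ y = compG k a) ∨
  (∃ a b : Gad Q, k = D.spec (kind a, kind b) ∧ On a.1.1 b.1.2 ∧ a.1.1 ≠ b.1.1 ∧
      dir a.1.2 ≠ dir b.1.2 ∧ x = compG k b ∧ y = compG k a)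

open Classical in
/-- The representative of a component. -/
noncomputable def rep (k : ZMod q) (x : Comp Q q) : Comp Q q :=
  if h : ∃ y, Link f k x y then h.choose else x

open Classical in
/-- The class of a point in a part. -/
noncomputable def cls : Option (ZMod Q) ⊕ ZMod q → Point Q D → Cls Q q
  | Sum.inl σ, x => Sum.inl (σ,
      if dir (posn f x) = σ then Sum.inr (Sum.inl (lab x).1)
      else if ownSlope x = some σ then Sum.inr (Sum.inr (ic σ (posn f x)))
      else Sum.inl (ic σ (posn f x)))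
  | Sum.inr k, x => Sum.inr (k, rep f k (compOf f k x))

section Facts

variable (hQ : 1000 ≤ Q)
include hQ

lemma gad_pos_ne (g : Gad Q) : g.1.2 ≠ (0, 0) := fun h => by
  obtain ⟨n, hn⟩ := g.2.2.2.2
  exact aux_origin hQ n (h ▸ hn)

lemma gad_ne_ctr (g : Gad Q) (j : Fin 4) : g.1.2 ≠ ctr j := fun h => by
  obtain ⟨n, hn⟩ := g.2.2.2.2
  exact aux_ctr hQ n j (h ▸ hn)

lemma gad_line_ne_aux (g : Gad Q) (n : Fin 10) : g.1.1 ≠ aux n := fun h => by
  obtain ⟨j, hj⟩ := g.2.2.1
  exact aux_ctr hQ n j (h ▸ hj)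

lemma ptOn_ne (σ : Option (ZMod Q)) (l : ↥D.S) : ptOn σ (f σ l).1 ≠ (0, 0) := fun h => by
  have h0 : ptOn σ (0 : ZMod Q) = (0, 0) := by cases σ <;> simp [ptOn]
  exact (mem_filter.1 (f σ l).2).2.1 (ptOn_injective σ (h.trans h0.symm))

lemma inl_not_aux (σ : Option (ZMod Q)) (l : ↥D.S) (n : Fin 10) :
    ¬ On (aux n) (ptOn σ (f σ l).1) := (mem_filter.1 (f σ l).2).2.2.2 n

lemma inl_ne_ctr (σ : Option (ZMod Q)) (l : ↥D.S) (j : Fin 4) :
    ptOn σ (f σ l).1 ≠ ctr j := (mem_filter.1 (f σ l).2).2.2.1 j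

lemma dir_inl (σ : Option (ZMod Q)) (l : ↥D.S) : dir (ptOn σ (f σ l).1) = σ :=
  dir_unique (ptOn_ne f hQ σ l) (ic_ptOn _ _)

lemma posn_ne (x : Point Q D) : posn f x ≠ (0, 0) := by
  rcases x with ⟨σ, l⟩ | g
  · exact ptOn_ne f hQ σ l
  · exact gad_pos_ne hQ g

/-- A gadget point is determined by its kind and the direction of its position. -/
lemma gad_eq_of_dir {a b : Gad Q} (hk : kind a = kind b) (hd : dir a.1.2 = dir b.1.2) : a = b := by
  have hr : role a.1.1 = role b.1.1 := (Prod.ext_iff.1 hk).1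
  have hi : idx a.1.2 = idx b.1.2 := (Prod.ext_iff.1 hk).2
  have ha := on_idx a.2.2.2.2
  have hb := on_idx b.2.2.2.2
  rw [hi] at ha
  have hp : a.1.2 = b.1.2 := by
    refine point_unique (L := aux (idx b.1.2)) (L' := (dir a.1.2, 0)) ?_ ha hb
      (ic_dir _) (by show ic _ _ = 0; rw [hd]; exact ic_dir _)
    intro h
    exact aux_origin hQ (idx b.1.2) (h ▸ (ic_origin _))
  refine Subtype.ext (Prod.ext ?_ hp)
  refine line_unique (p := a.1.2) (p' := ctr (role b.1.1)) (gad_ne_ctr hQ a _) a.2.2.2.1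
    (hr ▸ on_role a.2.2.1) (hp ▸ b.2.2.2.1) (on_role b.2.2.1)

/-- A gadget point is determined by its kind and any point of its line off the centres. -/
lemma gad_eq_of_line {a b : Gad Q} (hk : kind a = kind b) {p : ZMod Q × ZMod Q}
    (hp : ∀ j, p ≠ ctr j) (ha : On a.1.1 p) (hb : On b.1.1 p) : a = b := by
  have hr : role a.1.1 = role b.1.1 := (Prod.ext_iff.1 hk).1
  have hi : idx a.1.2 = idx b.1.2 := (Prod.ext_iff.1 hk).2
  have hL : a.1.1 = b.1.1 :=
    line_unique (hp _) ha (hr ▸ on_role a.2.2.1) hb (on_role b.2.2.1)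
  refine Subtype.ext (Prod.ext hL ?_)
  exact point_unique (gad_line_ne_aux hQ a (idx b.1.2)) a.2.2.2.1 (hL ▸ b.2.2.2.1)
    (hi ▸ on_idx a.2.2.2.2) (on_idx b.2.2.2.2)

lemma role_ne {a b : Gad Q} (h : On a.1.1 b.1.2) (hne : a.1.1 ≠ b.1.1) :
    role a.1.1 ≠ role b.1.1 := fun e =>
  hne (line_unique (gad_ne_ctr hQ b _) h (on_role a.2.2.1) b.2.2.2.1 (e ▸ on_role b.2.2.1))

lemma link_functional {k : ZMod q} {x y y' : Comp Q q} (h : Link f k x y) (h' : Link f k x y') :
    y = y' := by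
  rcases h with ⟨a, l, hg, hc, hx, ha, rfl⟩ | ⟨a, b, hk, hab, hne, -, hx, rfl⟩ <;>
    rcases h' with ⟨a', l', hg', hc', hx', ha', rfl⟩ | ⟨a', b', hk', hab', hne', -, hx', rfl⟩
  · have hka : kind a = kind a' := Option.some.inj (hg.symm.trans hg')
    have hl : l = l' := by
      refine Subtype.ext (D.claim_inj (kind a) l.1 l.2 l'.1 l'.2 ?_ ?_)
      · rw [hc, hka, hc']
      · rw [hc, ← hx, hx']
    subst hl
    rw [gad_eq_of_line hQ hka (inl_ne_ctr f hQ _ _) ha ha']
  · rw [hk', D.spec_group] at hg; exact absurd hg (by simp)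
  · rw [hk, D.spec_group] at hg'; exact absurd hg' (by simp)
  · have ht := D.spec_inj (hk.symm.trans hk')
    obtain ⟨hka, hkb⟩ := Prod.ext_iff.1 ht
    have hb : b = b' := gad_eq_of_dir hQ hkb (Prod.ext_iff.1 (hx.symm.trans hx')).1
    subst hb
    rw [gad_eq_of_line hQ hka (gad_ne_ctr hQ b) hab hab']

lemma link_not_chain {k : ZMod q} {x y z : Comp Q q} (h : Link f k x y) : ¬ Link f k y z := by
  intro h'
  rcases h with ⟨a, l, hg, hc, hx, ha, rfl⟩ | ⟨a, b, hk, hab, hne, -, hx, rfl⟩ <;>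
    rcases h' with ⟨a', l', hg', hc', hx', ha', rfl⟩ | ⟨a', b', hk', hab', hne', -, hx', rfl⟩
  · have hx'' : blk k (lam (kind a)) = blk k l'.1 := hx'
    rw [← hc'] at hx''
    exact D.claim_avoid _ _ l'.1 l'.2 hx''.symm
  · rw [hk', D.spec_group] at hg; exact absurd hg (by simp)
  · rw [hk, D.spec_group] at hg'; exact absurd hg' (by simp)
  · obtain ⟨hka, hkb⟩ := Prod.ext_iff.1 (D.spec_inj (hk.symm.trans hk'))
    have h2 : blk k (lam (kind a)) = blk k (lam (kind b')) := (Prod.ext_iff.1 hx').2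
    rw [hk] at h2
    have := D.spec_sep _ _ _ h2
    have hkb' : kind b = kind b' := hkb
    rw [← hkb'] at this
    exact role_ne hQ hab hne (congrArg Prod.fst this)

lemma rep_of_link {k : ZMod q} {x y : Comp Q q} (h : Link f k x y) : rep f k x = y := by
  rw [rep, dif_pos ⟨y, h⟩]
  exact link_functional f hQ (Exists.choose_spec (⟨y, h⟩ : ∃ y, Link f k x y)) h

lemma rep_centre {k : ZMod q} {x y : Comp Q q} (h : Link f k x y) : rep f k y = y := by
  rw [rep, dif_neg]
  rintro ⟨z, hz⟩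
  exact link_not_chain f hQ h hz

omit hQ in
lemma rep_cases (k : ZMod q) (x : Comp Q q) :
    rep f k x = x ∨ Link f k x (rep f k x) := by
  rw [rep]
  split_ifs with h
  · exact Or.inr h.choose_spec
  · exact Or.inl rfl

omit hQ in
lemma blk_share (l l' : ZMod q × ZMod q) : l.1 = l'.1 ∨ ∃ k : ZMod q, blk k l = blk k l' := by
  by_cases h : l.1 = l'.1
  · exact Or.inl h
  · refine Or.inr ⟨(l.2 - l'.2) / (l.1 - l'.1), ?_⟩
    have : l.1 - l'.1 ≠ 0 := sub_ne_zero.2 h
    simp only [blk, ic]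
    field_simp
    ring

/-- Every two points share a class. -/
theorem share (x y : Point Q D) : ∃ i, cls f i x = cls f i y := by
  classical
  by_cases hd : dir (posn f x) = dir (posn f y)
  · rcases blk_share (lab x) (lab y) with h | ⟨k, hk⟩
    · exact ⟨Sum.inl (dir (posn f x)), by simp [cls, hd, h]⟩
    · exact ⟨Sum.inr k, by simp [cls, compOf, hd, hk]⟩
  have hp : posn f x ≠ posn f y := fun h => hd (by rw [h])
  obtain ⟨σ, hσ⟩ := line_exists hp
  have hx : dir (posn f x) ≠ σ := by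
    rintro rfl
    exact hd (dir_unique (posn_ne f hQ y) (hσ ▸ ic_dir _)).symm
  have hy : dir (posn f y) ≠ σ := by
    rintro rfl
    exact hd (dir_unique (posn_ne f hQ x) (hσ.trans (ic_dir _)))
  have key : ∀ (a : Gad Q) (y : Point Q D), a.1.1.1 = σ → ic σ a.1.2 = ic σ (posn f y) →
      dir a.1.2 ≠ dir (posn f y) → ownSlope y ≠ some σ →
      ∃ i, cls f i (Sum.inr a) = cls f i y := by
    intro a y hs hic hne hown
    have hon : On a.1.1 (posn f y) := by
      show ic a.1.1.1 (posn f y) = a.1.1.2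
      rw [hs, ← hic, ← hs]
      exact a.2.2.2.1
    rcases y with ⟨τ, l⟩ | b
    · refine ⟨Sum.inr (D.claim (kind a) l.1), ?_⟩
      have hlk : Link f (D.claim (kind a) l.1)
          (compOf f (D.claim (kind a) l.1) (Sum.inl (τ, l)))
          (compG (D.claim (kind a) l.1) a) := by
        refine Or.inl ⟨a, l, D.group_claim _ _ l.2, rfl, rfl, ?_, rfl⟩
        show On a.1.1 (ptOn (dir (ptOn τ (f τ l).1)) (f (dir (ptOn τ (f τ l).1)) l).1)
        rw [dir_inl f hQ]
        exact hon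
      simp only [cls]
      rw [rep_of_link f hQ hlk,
        show compOf f _ (Sum.inr a) = compG (D.claim (kind a) l.1) a from rfl,
        rep_centre f hQ hlk]
    · refine ⟨Sum.inr (D.spec (kind a, kind b)), ?_⟩
      have hlk : Link f (D.spec (kind a, kind b)) (compG (D.spec (kind a, kind b)) b)
          (compG (D.spec (kind a, kind b)) a) :=
        Or.inr ⟨a, b, rfl, hon, fun e => hown (by simp [ownSlope, ← e, hs]), hne, rfl, rfl⟩
      simp only [cls]
      rw [show compOf f _ (Sum.inr a) = compG (D.spec (kind a, kind b)) a from rfl,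
        show compOf f _ (Sum.inr b) = compG (D.spec (kind a, kind b)) b from rfl,
        rep_of_link f hQ hlk, rep_centre f hQ hlk]
  by_cases h1 : ownSlope x = some σ <;> by_cases h2 : ownSlope y = some σ
  · exact ⟨Sum.inl σ, by simp [cls, hx, hy, h1, h2, hσ]⟩
  · rcases x with ⟨τ, l⟩ | a
    · simp [ownSlope] at h1
    exact key a y (Option.some.inj h1) hσ hd h2
  · rcases y with ⟨τ, l⟩ | a
    · simp [ownSlope] at h2
    obtain ⟨i, hi⟩ := key a x (Option.some.inj h2) hσ.symm (Ne.symm hd) h1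
    exact ⟨i, hi.symm⟩
  · exact ⟨Sum.inl σ, by simp [cls, hx, hy, h1, h2, hσ]⟩

end Facts

end Vale.Agent.P045
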