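import Mathlib

set_option linter.unusedSectionVars false

/-! Counting lemmas for uniformly chosen functions and injections. -/

namespace Vale.Agent.P045

open Finset

/-- Markov's inequality for a product weight on a finite product of finite types. -/
theorem tail {ι : Type} [Fintype ι] [DecidableEq ι] {A : ι → Type} [∀ i, Fintype (A i)]
    (Bad : (∀ i, A i) → Prop) [DecidablePred Bad] (g : ∀ i, A i → ℝ) (b : ι → ℝ) (T : ℝ)
    (hg : ∀ i a, 0 ≤ g i a) (hb : ∀ i, ∑ a, g i a ≤ b i * Fintype.card (A i))
    (hT : ∀ ω : (∀ i, A i), Bad ω → T ≤ ∏ i, g i (ω i)) :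
    ((univ.filter Bad).card : ℝ) * T ≤ Fintype.card (∀ i, A i) * ∏ i, b i := by
  calc ((univ.filter Bad).card : ℝ) * T = ∑ ω ∈ univ.filter Bad, T := by
        rw [sum_const, nsmul_eq_mul]
    _ ≤ ∑ ω ∈ univ.filter Bad, ∏ i, g i (ω i) :=
        sum_le_sum fun ω hω => hT ω (mem_filter.1 hω).2
    _ ≤ ∑ ω : (∀ i, A i), ∏ i, g i (ω i) :=
        sum_le_sum_of_subset_of_nonneg (subset_univ _) fun ω _ _ => prod_nonneg fun i _ => hg i _
    _ = ∏ i, ∑ a, g i a := (Fintype.prod_sum g).symm
    _ ≤ ∏ i, (b i * Fintype.card (A i)) :=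
        prod_le_prod (fun i _ => sum_nonneg fun a _ => hg i a) fun i _ => hb i
    _ = Fintype.card (∀ i, A i) * ∏ i, b i := by
        rw [Fintype.card_pi, prod_mul_distrib]
        push_cast
        ring

/-- Upper tail for the number of coordinates in which an event happens. -/
theorem upper_tail {ι : Type} [Fintype ι] [DecidableEq ι] {A : ι → Type} [∀ i, Fintype (A i)]
    (E : ∀ i, A i → Prop) [∀ i, DecidablePred (E i)] (p : ι → ℝ) (x : ℝ) (hx : 1 ≤ x) (m : ℕ)
    (hp : ∀ i, ((univ.filter (E i)).card : ℝ) ≤ p i * Fintype.card (A i)) :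
    ((univ.filter fun ω : ∀ i, A i =>
        m ≤ (univ.filter fun i => E i (ω i)).card).card : ℝ) * x ^ m
      ≤ Fintype.card (∀ i, A i) * Real.exp ((x - 1) * ∑ i, p i) := by
  have h := tail (fun ω : ∀ i, A i => m ≤ (univ.filter fun i => E i (ω i)).card)
    (fun i a => if E i a then x else 1) (fun i => Real.exp ((x - 1) * p i)) (x ^ m) ?_ ?_ ?_
  · rwa [← Real.exp_sum, ← mul_sum] at h
  · intro i a
    split_ifs <;> linarith
  · intro i
    have e : (∑ a, if E i a then x else (1 : ℝ))
        = (Fintype.card (A i) : ℝ) + (x - 1) * (univ.filter (E i)).card := by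
      have : ∀ a, (if E i a then x else (1 : ℝ)) = 1 + (if E i a then x - 1 else 0) := fun a => by
        split_ifs <;> ring
      simp only [this, sum_add_distrib, sum_const, nsmul_eq_mul, mul_one, card_univ, ← sum_filter]
      ring
    rw [e]
    calc (Fintype.card (A i) : ℝ) + (x - 1) * (univ.filter (E i)).card
        ≤ Fintype.card (A i) + (x - 1) * (p i * Fintype.card (A i)) :=
          add_le_add le_rfl (mul_le_mul_of_nonneg_left (hp i) (by linarith))
      _ = ((x - 1) * p i + 1) * Fintype.card (A i) := by ring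
      _ ≤ _ := mul_le_mul_of_nonneg_right (Real.add_one_le_exp _) (Nat.cast_nonneg _)
  · intro ω hω
    rw [prod_ite, prod_const, prod_const_one, mul_one]
    exact pow_le_pow_right₀ hx hω

section Injection

variable {S Y : Type} [Fintype S] [DecidableEq S] [Fintype Y] [DecidableEq Y]

/-- Injections avoiding a set are rare. -/
theorem avoid_le (R : Finset Y) :
    ((univ.filter fun f : S ↪ Y => ∀ s, f s ∉ R).card : ℝ)
      ≤ Real.exp (-(Fintype.card S : ℝ) * R.card / Fintype.card Y) * Fintype.card (S ↪ Y) := by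
  have hle : (univ.filter fun f : S ↪ Y => ∀ s, f s ∉ R).card
      ≤ Fintype.card (S ↪ {y : Y // y ∉ R}) := by
    rw [← Fintype.card_subtype]
    exact Fintype.card_le_of_injective
      (fun f => ⟨fun s => ⟨f.1 s, f.2 s⟩, fun a b h => f.1.injective (congrArg Subtype.val h)⟩)
      (fun f g h => Subtype.ext (Function.Embedding.ext fun s =>
        congrArg Subtype.val (DFunLike.congr_fun h s)))
  refine (Nat.cast_le.2 hle).trans ?_
  rw [Fintype.card_embedding_eq, Fintype.card_embedding_eq, Fintype.card_subtype_compl,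
    Fintype.card_coe]
  generalize hn : Fintype.card S = n
  generalize hM : Fintype.card Y = M
  have hr : R.card ≤ M := hM ▸ card_le_univ R
  generalize R.card = r at hr
  clear hn
  induction n with
  | zero => simp
  | succ n ih =>
    rw [Nat.descFactorial_succ, Nat.descFactorial_succ, Nat.cast_mul, Nat.cast_mul]
    have hsplit : Real.exp (-((n + 1 : ℕ) : ℝ) * r / M)
        = Real.exp (-(r : ℝ) / M) * Real.exp (-(n : ℝ) * r / M) := by
      rw [← Real.exp_add]
      congr 1
      push_cast
      ring
    rw [hsplit]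
    have hstep : ((M - r - n : ℕ) : ℝ) ≤ Real.exp (-(r : ℝ) / M) * ((M - n : ℕ) : ℝ) := by
      rcases le_or_gt (M - n) r with h | h
      · rw [show M - r - n = 0 by omega]
        simp only [Nat.cast_zero]
        positivity
      · have hM0 : 0 < M := by omega
        rw [show M - r - n = (M - n) - r by omega, Nat.cast_sub h.le]
        have h1 := Real.add_one_le_exp (-(r : ℝ) / M)
        have hMn : ((M - n : ℕ) : ℝ) ≤ M := Nat.cast_le.2 (Nat.sub_le _ _)
        have h2 : (-(r : ℝ) / M) * ((M - n : ℕ) : ℝ) ≥ -(r : ℝ) := by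
          rw [ge_iff_le, div_mul_eq_mul_div, le_div_iff₀ (Nat.cast_pos.2 hM0)]
          nlinarith [(Nat.cast_nonneg r : (0 : ℝ) ≤ r)]
        nlinarith [(Nat.cast_nonneg (M - n) : (0 : ℝ) ≤ ((M - n : ℕ) : ℝ))]
    calc ((M - r - n : ℕ) : ℝ) * ((M - r).descFactorial n : ℝ)
        ≤ (Real.exp (-(r : ℝ) / M) * ((M - n : ℕ) : ℝ))
            * (Real.exp (-(n : ℝ) * r / M) * (M.descFactorial n : ℝ)) :=
          mul_le_mul hstep ih (Nat.cast_nonneg _) (by positivity)
      _ = _ := by ring

/-- The halving moment of the number of hits of a set under a uniform injection. -/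
theorem hit_moment (T : Finset Y) (hN : 2 * Fintype.card S ≤ Fintype.card Y) :
    ∑ f : S ↪ Y, (1 / 2 : ℝ) ^ (univ.filter fun s => f s ∈ T).card
      ≤ Real.exp (-(Fintype.card S : ℝ) * T.card / (3 * Fintype.card Y))
        * Fintype.card (S ↪ Y) := by
  set u : ℝ := (Fintype.card S : ℝ) / Fintype.card Y with hu
  have hid : ∀ f : S ↪ Y, (1 / 2 : ℝ) ^ (univ.filter fun s => f s ∈ T).card
      = (1 / 2 : ℝ) ^ T.card * ∑ R ∈ T.powerset, (if ∀ s, f s ∉ R then (1 : ℝ) else 0) := by
    intro f
    set K := (univ.filter fun s => f s ∈ T).map f with hK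
    have hKT : K ⊆ T := fun y hy => by
      obtain ⟨s, hs, rfl⟩ := mem_map.1 hy
      exact (mem_filter.1 hs).2
    have e : T.powerset.filter (fun R => ∀ s, f s ∉ R) = (T \ K).powerset := by
      ext R
      simp only [mem_filter, mem_powerset, subset_sdiff, hK]
      refine ⟨fun h => ⟨h.1, ?_⟩, fun h => ⟨h.1, ?_⟩⟩
      · rw [disjoint_left]
        intro y hy hy'
        obtain ⟨s, -, rfl⟩ := mem_map.1 hy'
        exact h.2 s hy
      · intro s hs
        exact disjoint_left.1 h.2 hs (mem_map.2 ⟨s, mem_filter.2 ⟨mem_univ _, h.1 hs⟩, rfl⟩)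
    rw [sum_boole, e, card_powerset, card_sdiff_of_subset hKT, hK, card_map]
    push_cast
    have hle : (univ.filter fun s => f s ∈ T).card ≤ T.card := by
      rw [← card_map f]; exact card_le_card hKT
    rw [div_pow, div_pow, one_pow, one_pow, one_div_mul_eq_div,
      eq_div_iff (by positivity), div_mul_eq_mul_div, one_mul, div_eq_iff (by positivity),
      ← pow_add, Nat.sub_add_cancel hle]
  have hb : ∀ R ∈ T.powerset, (∑ f : S ↪ Y, if ∀ s, f s ∉ R then (1 : ℝ) else 0)
      ≤ Real.exp (-u) ^ R.card * Fintype.card (S ↪ Y) := by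
    intro R _
    rw [sum_boole, ← Real.exp_nat_mul]
    refine (avoid_le R).trans (le_of_eq ?_)
    rw [hu]
    ring_nf
  calc ∑ f : S ↪ Y, (1 / 2 : ℝ) ^ (univ.filter fun s => f s ∈ T).card
      = (1 / 2 : ℝ) ^ T.card
        * ∑ R ∈ T.powerset, ∑ f : S ↪ Y, if ∀ s, f s ∉ R then (1 : ℝ) else 0 := by
        simp only [hid, ← mul_sum]
        rw [sum_comm]
    _ ≤ (1 / 2 : ℝ) ^ T.card
        * ∑ R ∈ T.powerset, Real.exp (-u) ^ R.card * Fintype.card (S ↪ Y) :=
        mul_le_mul_of_nonneg_left (sum_le_sum hb) (by positivity)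
    _ = ((1 + Real.exp (-u)) / 2) ^ T.card * Fintype.card (S ↪ Y) := by
        have := (prod_one_add (f := fun _ => Real.exp (-u)) T).symm
        simp only [prod_const] at this
        rw [← sum_mul, this, div_pow, div_pow, one_pow]
        ring
    _ ≤ Real.exp (-u / 3) ^ T.card * Fintype.card (S ↪ Y) := by
        refine mul_le_mul_of_nonneg_right (pow_le_pow_left₀ (by positivity) ?_ _) (Nat.cast_nonneg _)
        have h0 : 0 ≤ u := by positivity
        have h1 : u ≤ 1 / 2 := by
          rcases Nat.eq_zero_or_pos (Fintype.card Y) with h | h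
          · simp [hu, h]
          · rw [hu, div_le_iff₀ (Nat.cast_pos.2 h)]
            have : (2 : ℝ) * Fintype.card S ≤ Fintype.card Y := by exact_mod_cast hN
            linarith
        have h2 : Real.exp (-u) * (1 + u) ≤ 1 := by
          have := mul_le_mul_of_nonneg_left (Real.add_one_le_exp u) (Real.exp_pos (-u)).le
          rw [← Real.exp_add, neg_add_cancel, Real.exp_zero] at this
          linarith
        nlinarith [Real.add_one_le_exp (-u / 3), Real.exp_pos (-u)]
    _ = _ := by
        rw [← Real.exp_nat_mul, hu]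
        ring_nf

/-- A prescribed value of a uniform injection. -/
theorem card_value (s : S) (y : Y) :
    (univ.filter fun f : S ↪ Y => f s = y).card * Fintype.card Y = Fintype.card (S ↪ Y) := by
  have key : ∀ z : Y, (univ.filter fun f : S ↪ Y => f s = z).card
      = (univ.filter fun f : S ↪ Y => f s = y).card := by
    intro z
    refine card_bij' (fun f _ => f.trans (Equiv.swap y z).toEmbedding)
      (fun f _ => f.trans (Equiv.swap y z).toEmbedding) ?_ ?_ ?_ ?_
    · intro f hf; simp at hf ⊢; simp [hf]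
    · intro f hf; simp at hf ⊢; simp [hf]
    · intro f _; ext a; simp
    · intro f _; ext a; simp
  have h := card_eq_sum_card_fiberwise (f := fun f : S ↪ Y => f s) (s := univ) (t := univ) (by simp)
  rw [sum_congr rfl (fun z _ => key z), sum_const, smul_eq_mul, card_univ, card_univ] at h
  rw [h, mul_comm]

/-- Two prescribed values of a uniform injection. -/
theorem card_two_values {s s' : S} (hs : s ≠ s') {y y' : Y} (hy : y ≠ y') :
    (univ.filter fun f : S ↪ Y => f s = y ∧ f s' = y').card
      * (Fintype.card Y * (Fintype.card Y - 1)) = Fintype.card (S ↪ Y) := by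
  have hc : Fintype.card Y * (Fintype.card Y - 1) = (univ : Finset Y).offDiag.card := by
    rw [offDiag_card, card_univ, Nat.mul_sub, mul_one]
  have key : ∀ z ∈ (univ : Finset Y).offDiag,
      (univ.filter fun f : S ↪ Y => (f s, f s') = z).card
        = (univ.filter fun f : S ↪ Y => f s = y ∧ f s' = y').card := by
    rintro ⟨z, z'⟩ hz
    have hz' : z ≠ z' := by simpa using hz
    obtain ⟨e, he, he'⟩ : ∃ e : Y ≃ Y, e y = z ∧ e y' = z' := by
      refine ⟨(Equiv.swap y z).trans (Equiv.swap (Equiv.swap y z y') z'), ?_, ?_⟩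
      · simp only [Equiv.trans_apply, Equiv.swap_apply_left]
        refine Equiv.swap_apply_of_ne_of_ne ?_ hz'
        intro h
        exact hy ((Equiv.swap y z).injective (by rw [Equiv.swap_apply_left]; exact h))
      · simp
    refine card_bij' (fun f _ => f.trans e.symm.toEmbedding) (fun f _ => f.trans e.toEmbedding)
      ?_ ?_ ?_ ?_
    · intro f hf
      simp at hf ⊢
      simp [hf, ← he, ← he']
    · intro f hf; simp at hf ⊢; simp [hf, he, he']
    · intro f _; ext a; simp
    · intro f _; ext a; simp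
  have h := card_eq_sum_card_fiberwise (f := fun f : S ↪ Y => (f s, f s')) (s := univ)
    (t := (univ : Finset Y).offDiag) (fun f _ => by simp [f.injective.ne hs])
  rw [sum_congr rfl key, sum_const, smul_eq_mul, card_univ, ← hc] at h
  rw [h, mul_comm]

end Injection

end Vale.Agent.P045
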