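import Vale.Agent.P045.BigDef
import Vale.Agent.P045.Count

set_option linter.unusedSectionVars false

/-! Random positions have the required properties. -/

namespace Vale.Agent.P045

open Finset

variable {Q q : ℕ} [Fact Q.Prime] [Fact q.Prime]

/-- A logarithmic parameter. -/
def lg (Q : ℕ) : ℕ := Nat.log 2 Q + 1

/-- The additive error in the union lemma. -/
def err (Q : ℕ) : ℕ := 16 * Q * lg Q

/-- Standing size assumptions. -/
structure Sizes (Q q : ℕ) : Prop where
  big : 2 ^ 64 ≤ q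
  lo : q ^ 3 ≤ Q
  hi : Q ≤ 2 * q ^ 3
  log_small : 2 ^ 100 * lg Q ^ 2 ≤ q

/-- The admissible uncovered positions of a family of lines. -/
def uncPos (Ls : Finset (Option (ZMod Q) × ZMod Q)) :
    Finset (Σ _ : Option (ZMod Q), ZMod Q) :=
  (univ.sigma fun σ => dom Q σ).filter fun z => ∀ L ∈ Ls, ¬ On L (ptOn z.1 z.2)

variable {D : Small q} (f : Pos Q D)

/-- The uncovered label points of a family of lines. -/
def uncInl (Ls : Finset (Option (ZMod Q) × ZMod Q)) : Finset (Option (ZMod Q) × ↥D.S) :=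
  univ.filter fun z => ∀ L ∈ Ls, ¬ On L (ptOn z.1 (f z.1 z.2).1)

/-- The properties of positions used in the cover argument. -/
structure Good : Prop where
  union : ∀ Ls : Finset (Option (ZMod Q) × ZMod Q), Ls.card ≤ 2 * Q →
    D.S.card * (uncPos Ls).card ≤ 6 * Q * ((uncInl f Ls).card + err Q)
  rich : ∀ L : Option (ZMod Q) × ZMod Q, L.2 ≠ 0 → (∀ n, L ≠ aux n) →
    D.S.card ≤ 8 * (univ.filter fun z : Option (ZMod Q) × ↥D.S =>
      On L (ptOn z.1 (f z.1 z.2).1)).card
  leaves : ∀ c k (L : Option (ZMod Q) × ZMod Q), L.2 ≠ 0 →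
    (univ.filter fun σ => ∃ l : ↥D.S, D.claim c l.1 = k ∧ On L (ptOn σ (f σ l).1)).card
      ≤ q / 2 ^ 11
  hits : ∀ c k (L M : Option (ZMod Q) × ZMod Q), L.2 ≠ 0 → M.2 ≠ 0 →
    (univ.filter fun σ => ∃ l l' : ↥D.S, l ≠ l' ∧ D.claim c l.1 = k ∧ blk k l'.1 = blk k l.1 ∧
      On L (ptOn σ (f σ l).1) ∧ On M (ptOn σ (f σ l').1)).card ≤ 40

lemma two_pow_le_exp (n : ℕ) : (2 : ℝ) ^ n ≤ Real.exp n := by
  rw [← Real.exp_one_pow]
  exact pow_le_pow_left₀ (by norm_num) (Real.exp_one_gt_d9.le.trans' (by norm_num)) n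

lemma half_pow_ge (n : ℕ) : Real.exp (-(n : ℝ)) ≤ (1 / 2 : ℝ) ^ n := by
  rw [Real.exp_neg, div_pow, one_pow, one_div]
  exact inv_anti₀ (by positivity) (two_pow_le_exp n)

section Prob

variable (D) (hS : Sizes Q q)
include hS

lemma hQ1000 : 1000 ≤ Q := by
  have := hS.lo
  have h := hS.big
  have : q ≤ q ^ 3 := Nat.le_self_pow (by norm_num) q
  omega

lemma card_S_lo : q * q ≤ 4 * dens * D.S.card := by
  have h : D.S.card = ∑ b : ZMod q,
      (D.S.filter (On ((none : Option (ZMod q)), b))).card := by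
    rw [card_eq_sum_card_fiberwise (f := fun l : ZMod q × ZMod q => l.1) (t := univ) (by simp)]
    exact sum_congr rfl fun b _ => congrArg card (filter_congr fun l _ => Iff.rfl)
  rw [h, mul_sum]
  calc q * q = ∑ _b : ZMod q, q := by simp
    _ ≤ _ := sum_le_sum fun b _ => D.line_lo _

lemma card_S_hi : dens * D.S.card ≤ 4 * (q * q) := by
  have h : D.S.card = ∑ b : ZMod q,
      (D.S.filter (On ((none : Option (ZMod q)), b))).card := by
    rw [card_eq_sum_card_fiberwise (f := fun l : ZMod q × ZMod q => l.1) (t := univ) (by simp)]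
    exact sum_congr rfl fun b _ => congrArg card (filter_congr fun l _ => Iff.rfl)
  rw [h, mul_sum]
  calc _ ≤ ∑ _b : ZMod q, 4 * q := sum_le_sum fun b _ => D.line_hi _
    _ = 4 * (q * q) := by simp; ring

lemma dom_card (σ : Option (ZMod Q)) : Q ≤ (dom Q σ).card + 15 ∧ (dom Q σ).card ≤ Q := by
  classical
  have hQ := hQ1000 hS
  refine ⟨?_, (card_le_univ _).trans (le_of_eq (ZMod.card Q))⟩
  have hc : ∀ j, (univ.filter fun t => ptOn σ t = ctr (Q := Q) j).card ≤ 1 := fun j =>
    card_le_one.2 fun a ha b hb => ptOn_injective σ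
      ((mem_filter.1 ha).2.trans (mem_filter.1 hb).2.symm)
  have ha : ∀ n, (univ.filter fun t => On (aux (Q := Q) n) (ptOn σ t)).card ≤ 1 := fun n =>
    card_le_one.2 fun a ha b hb => ptOn_injective σ (point_unique
      (L := (σ, 0)) (fun h : ((σ, 0) : Option (ZMod Q) × ZMod Q) = aux n =>
        aux_origin hQ n (h ▸ ic_origin σ))
      (ic_ptOn σ a) (ic_ptOn σ b) (mem_filter.1 ha).2 (mem_filter.1 hb).2)
  have hsub : (univ : Finset (ZMod Q)) ⊆ dom Q σ ∪ ({0}
      ∪ ((univ : Finset (Fin 4)).biUnion fun j => univ.filter fun t => ptOn σ t = ctr j)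
      ∪ ((univ : Finset (Fin 10)).biUnion fun n => univ.filter fun t => On (aux n) (ptOn σ t))) := by
    intro t _
    simp only [dom, mem_union, mem_filter, mem_univ, true_and, mem_singleton, mem_biUnion]
    by_cases h0 : t = 0
    · exact Or.inr (Or.inl (Or.inl h0))
    by_cases h1 : ∃ j, ptOn σ t = ctr j
    · exact Or.inr (Or.inl (Or.inr h1))
    by_cases h2 : ∃ n, On (aux n) (ptOn σ t)
    · exact Or.inr (Or.inr h2)
    push Not at h1 h2
    exact Or.inl ⟨h0, h1, h2⟩
  have := card_le_card hsub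
  rw [card_univ, ZMod.card] at this
  refine this.trans ((card_union_le _ _).trans (add_le_add le_rfl ?_))
  refine (card_union_le _ _).trans (add_le_add ((card_union_le _ _).trans
    (add_le_add (card_singleton _).le (card_biUnion_le.trans (sum_le_sum fun j _ => hc j))))
    (card_biUnion_le.trans (sum_le_sum fun n _ => ha n))) |>.trans ?_
  simp

lemma two_N_le (σ : Option (ZMod Q)) : 2 * Fintype.card ↥D.S ≤ Fintype.card ↥(dom Q σ) := by
  simp only [Fintype.card_coe]
  have h1 := card_S_hi D hS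
  have h2 := (dom_card hS σ).1
  have h3 := hS.lo
  have h4 := hS.big
  have h5 : 2 ^ 64 * (q * q) ≤ q ^ 3 := by
    rw [show q ^ 3 = q * (q * q) by ring]; exact Nat.mul_le_mul_right _ h4
  simp only [dens] at h1
  omega

/-- The halving tail bound for positions in a family of target sets. -/
lemma halving (T : ∀ σ, Finset (ZMod Q)) (hT : ∀ σ, T σ ⊆ dom Q σ)
    (Bad : Pos Q D → Prop) [DecidablePred Bad] (E : ℝ)
    (hBad : ∀ f : Pos Q D, Bad f → E +
      ((univ.filter fun z : Option (ZMod Q) × ↥D.S => (f z.1 z.2).1 ∈ T z.1).card : ℝ)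
        ≤ (D.S.card : ℝ) * (∑ σ, (T σ).card : ℕ) / (3 * Q)) :
    ((univ.filter Bad).card : ℝ) * Real.exp E ≤ Fintype.card (Pos Q D) := by
  classical
  set T' : ∀ σ, Finset ↥(dom Q σ) := fun σ => univ.filter fun t => t.1 ∈ T σ with hT'
  have hcard : ∀ σ, (T' σ).card = (T σ).card := by
    intro σ
    rw [← card_map (Function.Embedding.subtype _)]
    congr 1
    ext t
    simp only [hT', mem_map, mem_filter, mem_univ, true_and, Function.Embedding.coe_subtype]
    exact ⟨fun ⟨a, ha, e⟩ => e ▸ ha, fun h => ⟨⟨t, hT σ h⟩, h, rfl⟩⟩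
  set U : ℝ := (D.S.card : ℝ) * (∑ σ, (T σ).card : ℕ) / (3 * Q) with hU
  have h := tail (A := fun σ : Option (ZMod Q) => ↥D.S ↪ ↥(dom Q σ)) Bad
    (fun σ g => (1 / 2 : ℝ) ^ (univ.filter fun s => g s ∈ T' σ).card)
    (fun σ => Real.exp (-((D.S.card : ℝ) * (T σ).card / (3 * Q)))) (Real.exp (E - U))
    (fun _ g => by positivity) ?_ ?_
  · rw [← Real.exp_sum, show ∑ σ, -((D.S.card : ℝ) * (T σ).card / (3 * Q)) = -U by
      rw [hU, Nat.cast_sum, mul_sum, sum_div, sum_neg_distrib]] at h
    have hpos := Real.exp_pos U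
    calc ((univ.filter Bad).card : ℝ) * Real.exp E
        = (((univ.filter Bad).card : ℝ) * Real.exp (E - U)) * Real.exp U := by
          rw [mul_assoc, ← Real.exp_add, sub_add_cancel]
      _ ≤ (Fintype.card (Pos Q D) * Real.exp (-U)) * Real.exp U :=
          mul_le_mul_of_nonneg_right h hpos.le
      _ = _ := by rw [mul_assoc, ← Real.exp_add, neg_add_cancel, Real.exp_zero, mul_one]
  · intro σ
    refine (hit_moment (T' σ) (two_N_le D hS σ)).trans
      (mul_le_mul_of_nonneg_right (Real.exp_le_exp.2 ?_) (Nat.cast_nonneg _))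
    rw [hcard, Fintype.card_coe, Fintype.card_coe, neg_mul, neg_div, neg_le_neg_iff]
    have h0 : 0 < (dom Q σ).card := by
      have := (dom_card hS σ).1; have := hQ1000 hS; omega
    refine div_le_div_of_nonneg_left (by positivity) (by positivity) ?_
    have : ((dom Q σ).card : ℝ) ≤ Q := Nat.cast_le.2 (dom_card hS σ).2
    linarith
  · intro f hf
    rw [prod_pow_eq_pow_sum]
    refine le_trans ?_ (half_pow_ge _)
    refine Real.exp_le_exp.2 ?_
    have hh : ∑ σ, (univ.filter fun s => f σ s ∈ T' σ).card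
        = (univ.filter fun z : Option (ZMod Q) × ↥D.S => (f z.1 z.2).1 ∈ T z.1).card := by
      simp only [card_filter]
      rw [Fintype.sum_prod_type]
      simp [hT']
    rw [hh]
    have := hBad f hf
    linarith

open Classical in
lemma bad_union (Ls : Finset (Option (ZMod Q) × ZMod Q)) :
    (univ.filter fun f : Pos Q D =>
      6 * Q * ((uncInl f Ls).card + err Q) < D.S.card * (uncPos Ls).card).card * 2 ^ err Q
      ≤ Fintype.card (Pos Q D) := by
  have h := halving D hS (fun σ => (dom Q σ).filter fun t => ∀ L ∈ Ls, ¬ On L (ptOn σ t))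
    (fun σ => filter_subset _ _) (fun f : Pos Q D =>
      6 * Q * ((uncInl f Ls).card + err Q) < D.S.card * (uncPos Ls).card) (err Q) ?_
  · refine (Nat.cast_le (α := ℝ)).1 ?_
    push_cast
    refine le_trans (mul_le_mul_of_nonneg_left (two_pow_le_exp _) (Nat.cast_nonneg _)) ?_
    convert h
  · intro f hf
    have e1 : (univ.filter fun z : Option (ZMod Q) × ↥D.S =>
        (f z.1 z.2).1 ∈ (dom Q z.1).filter fun t => ∀ L ∈ Ls, ¬ On L (ptOn z.1 t))
        = uncInl f Ls := by
      refine filter_congr fun z _ => ?_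
      simp [(f z.1 z.2).2]
    have e2 : ∑ σ, ((dom Q σ).filter fun t => ∀ L ∈ Ls, ¬ On L (ptOn σ t)).card
        = (uncPos Ls).card := by
      rw [← card_sigma]
      congr 1
      ext z
      simp [uncPos]
    rw [e1, e2]
    have hq : (0 : ℝ) < Q := Nat.cast_pos.2 (by have := hQ1000 hS; omega)
    rw [le_div_iff₀ (by positivity)]
    have : ((6 * Q * ((uncInl f Ls).card + err Q) : ℕ) : ℝ)
        < ((D.S.card * (uncPos Ls).card : ℕ) : ℝ) := Nat.cast_lt.2 hf
    push_cast at this
    nlinarith [(Nat.cast_nonneg (uncInl f Ls).card : (0 : ℝ) ≤ _),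
      (Nat.cast_nonneg (err Q) : (0 : ℝ) ≤ _)]

open Classical in
lemma bad_rich (L : Option (ZMod Q) × ZMod Q) (hL : L.2 ≠ 0) (hLa : ∀ n, L ≠ aux n) :
    (univ.filter fun f : Pos Q D => 8 * (univ.filter fun z : Option (ZMod Q) × ↥D.S =>
      On L (ptOn z.1 (f z.1 z.2).1)).card < D.S.card).card * 2 ^ (D.S.card / 8)
      ≤ Fintype.card (Pos Q D) := by
  have h := halving D hS (fun σ => (dom Q σ).filter fun t => On L (ptOn σ t))
    (fun σ => filter_subset _ _) (fun f : Pos Q D => 8 * (univ.filter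
      fun z : Option (ZMod Q) × ↥D.S => On L (ptOn z.1 (f z.1 z.2).1)).card < D.S.card)
    ((D.S.card / 8 : ℕ) : ℝ) ?_
  · refine (Nat.cast_le (α := ℝ)).1 ?_
    push_cast
    refine le_trans (mul_le_mul_of_nonneg_left (two_pow_le_exp _) (Nat.cast_nonneg _)) ?_
    convert h
  · intro f hf
    have e1 : (univ.filter fun z : Option (ZMod Q) × ↥D.S =>
        (f z.1 z.2).1 ∈ (dom Q z.1).filter fun t => On L (ptOn z.1 t))
        = univ.filter fun z : Option (ZMod Q) × ↥D.S => On L (ptOn z.1 (f z.1 z.2).1) :=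
      filter_congr fun z _ => by simp [(f z.1 z.2).2]
    have e2 : Q ≤ ∑ σ, ((dom Q σ).filter fun t => On L (ptOn σ t)).card + 14 := by
      have hQ := hQ1000 hS
      rw [← card_sigma]
      have hex : ∀ σ, σ ≠ L.1 → ∃ t, On L (ptOn σ t) := by
        intro σ hσ
        obtain ⟨p, hp1, hp2⟩ := meet_exists hσ 0 L.2
        obtain ⟨t, rfl⟩ := eq_ptOn hp1
        exact ⟨t, hp2⟩
      choose! g hg using hex
      let W := (univ.filter fun σ => σ ≠ L.1 ∧ g σ ∈ dom Q σ)
      have hW : W.card ≤ _ := card_le_card_of_injOn (fun σ => (⟨σ, g σ⟩ : Σ _ : Option (ZMod Q),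
          ZMod Q)) (t := univ.sigma fun σ => (dom Q σ).filter fun t => On L (ptOn σ t))
        (fun σ hσ => by
          have hσ' := (mem_filter.1 hσ).2
          simp [hσ'.2, hg σ hσ'.1])
        (fun a _ b _ e => by simpa using congrArg Sigma.fst e)
      refine le_trans ?_ (Nat.add_le_add_right hW 14)
      let K : Finset (Option (ZMod Q)) := {L.1}
        ∪ (univ : Finset (Fin 4)).image (fun j => dir (ctr j))
        ∪ (univ : Finset (Fin 10)).biUnion
            (fun n => univ.filter fun σ => σ ≠ L.1 ∧ On (aux n) (ptOn σ (g σ)))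
      have hK : univ ⊆ W ∪ K := by
        intro σ _
        simp only [W, K, mem_union, mem_filter, mem_univ, true_and, mem_singleton, mem_image,
          mem_biUnion]
        by_cases h1 : σ = L.1
        · exact Or.inr (Or.inl (Or.inl h1))
        have hne : g σ ≠ 0 := by
          intro h0
          have := hg σ h1
          rw [h0] at this
          have e : ptOn σ (0 : ZMod Q) = (0, 0) := by cases σ <;> simp [ptOn]
          rw [e] at this
          exact hL (this.symm.trans (ic_origin _))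
        by_cases h2 : ∃ j, ptOn σ (g σ) = ctr j
        · obtain ⟨j, hj⟩ := h2
          exact Or.inr (Or.inl (Or.inr ⟨j, dir_unique (ctr_ne hQ j) (hj ▸ ic_ptOn σ _)⟩))
        by_cases h3 : ∃ n, On (aux n) (ptOn σ (g σ))
        · obtain ⟨n, hn⟩ := h3
          exact Or.inr (Or.inr ⟨n, h1, hn⟩)
        push Not at h2 h3
        exact Or.inl ⟨h1, by simp only [dom, mem_filter, mem_univ, true_and]; exact ⟨hne, h2, h3⟩⟩
      have ha : ∀ n, (univ.filter fun σ => σ ≠ L.1 ∧ On (aux n) (ptOn σ (g σ))).card ≤ 1 := by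
        intro n
        refine card_le_one.2 fun a ha b hb => ?_
        obtain ⟨-, ha1, ha2⟩ := mem_filter.1 ha
        obtain ⟨-, hb1, hb2⟩ := mem_filter.1 hb
        have e := point_unique (hLa n) (hg a ha1) (hg b hb1) ha2 hb2
        have h0 : ptOn a (g a) ≠ (0, 0) := fun h => aux_origin hQ n (h ▸ ha2)
        exact (dir_unique h0 (ic_ptOn a _)).symm.trans (dir_unique h0 (e ▸ ic_ptOn b _))
      have h := (card_le_card hK).trans (card_union_le _ _)
      rw [card_univ, Fintype.card_option, ZMod.card] at h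
      have hKc : K.card ≤ 1 + 4 + 10 := by
        refine (card_union_le _ _).trans (add_le_add ((card_union_le _ _).trans
          (add_le_add (card_singleton _).le (card_image_le.trans (by simp)))) ?_)
        exact card_biUnion_le.trans ((sum_le_sum fun n _ => ha n).trans (by simp))
      omega
    rw [e1]
    have hq : (1000 : ℝ) ≤ Q := by exact_mod_cast hQ1000 hS
    rw [le_div_iff₀ (by positivity)]
    have h8 : (8 : ℝ) * ((D.S.card / 8 : ℕ) : ℝ) ≤ D.S.card := by
      exact_mod_cast Nat.mul_div_le D.S.card 8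
    have h9 : (8 : ℝ) * ((univ.filter fun z : Option (ZMod Q) × ↥D.S =>
        On L (ptOn z.1 (f z.1 z.2).1)).card : ℝ) ≤ D.S.card := by exact_mod_cast hf.le
    have h10 : (Q : ℝ) ≤ ((∑ σ, ((dom Q σ).filter fun t => On L (ptOn σ t)).card : ℕ) : ℝ) + 14 := by
      exact_mod_cast e2
    nlinarith [(Nat.cast_nonneg D.S.card : (0 : ℝ) ≤ _)]

lemma load_le (c : Kind) (k : ZMod q) :
    2 ^ 14 * (univ.filter fun l : ↥D.S => D.claim c l.1 = k).card ≤ 2 * q := by
  have h := D.claim_load c k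
  simp only [loadInv] at h
  refine le_trans (Nat.mul_le_mul_left _ ?_) h
  refine card_le_card_of_injOn (fun l => l.1) (fun l hl => ?_) (fun a _ b _ => Subtype.ext)
  simp only [coe_filter, Set.mem_setOf_eq, mem_univ, true_and] at hl
  exact mem_filter.2 ⟨l.2, hl⟩

lemma line_value_unique {σ : Option (ZMod Q)} {L : Option (ZMod Q) × ZMod Q} (hL : L.2 ≠ 0)
    {a b : ZMod Q} (ha : On L (ptOn σ a)) (hb : On L (ptOn σ b)) : a = b :=
  ptOn_injective σ (point_unique (L := (σ, 0)) (fun h : ((σ, 0) : Option (ZMod Q) × ZMod Q) = L =>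
    hL (h ▸ rfl)) (ic_ptOn σ a) (ic_ptOn σ b) ha hb)

open Classical in
lemma bad_leaves (c : Kind) (k : ZMod q) (L : Option (ZMod Q) × ZMod Q) (hL : L.2 ≠ 0) :
    (univ.filter fun f : Pos Q D => q / 2 ^ 11 < (univ.filter fun σ =>
      ∃ l : ↥D.S, D.claim c l.1 = k ∧ On L (ptOn σ (f σ l).1)).card).card * 2 ^ (q / 2 ^ 13)
      ≤ Fintype.card (Pos Q D) := by
  set T := univ.filter fun l : ↥D.S => D.claim c l.1 = k with hT
  have hQ := hQ1000 hS
  have h := upper_tail (A := fun σ : Option (ZMod Q) => ↥D.S ↪ ↥(dom Q σ))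
    (fun σ g => ∃ l : ↥D.S, D.claim c l.1 = k ∧ On L (ptOn σ (g l).1))
    (fun σ => (T.card : ℝ) / (dom Q σ).card) 2 (by norm_num) (q / 2 ^ 11 + 1) ?_
  · have hsum : ∑ σ : Option (ZMod Q), (T.card : ℝ) / (dom Q σ).card ≤ 2 * T.card := by
      calc ∑ σ : Option (ZMod Q), (T.card : ℝ) / (dom Q σ).card
          ≤ ∑ σ : Option (ZMod Q), (T.card : ℝ) / ((Q : ℝ) - 15) := by
            refine sum_le_sum fun σ _ => div_le_div_of_nonneg_left (Nat.cast_nonneg _) ?_ ?_
            · have : (1000 : ℝ) ≤ Q := by exact_mod_cast hQ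
              linarith
            · have : (Q : ℝ) ≤ (dom Q σ).card + 15 := by exact_mod_cast (dom_card hS σ).1
              linarith
        _ ≤ _ := by
          simp only [sum_const, card_univ, Fintype.card_option, ZMod.card, nsmul_eq_mul]
          have : (1000 : ℝ) ≤ Q := by exact_mod_cast hQ
          rw [mul_div_assoc', div_le_iff₀ (by linarith)]
          push_cast
          nlinarith [(Nat.cast_nonneg T.card : (0 : ℝ) ≤ _)]
    have h2 : Real.exp ((2 - 1) * ∑ σ : Option (ZMod Q), (T.card : ℝ) / (dom Q σ).card)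
        ≤ (2 : ℝ) ^ (3 * T.card) := by
      rw [pow_mul]
      refine (Real.exp_le_exp.2 (show _ ≤ (T.card : ℝ) * 2 by linarith)).trans ?_
      rw [Real.exp_nat_mul]
      refine pow_le_pow_left₀ (Real.exp_pos _).le ?_ _
      have e : Real.exp (2 : ℝ) = Real.exp 1 ^ 2 := by
        rw [← Real.exp_nat_mul]; norm_num
      rw [e]
      nlinarith [Real.exp_one_lt_d9, Real.exp_pos 1]
    refine (Nat.cast_le (α := ℝ)).1 ?_
    push_cast
    have h3 : (2 : ℝ) ^ (3 * T.card) * 2 ^ (q / 2 ^ 13) ≤ 2 ^ (q / 2 ^ 11 + 1) := by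
      rw [← pow_add]
      refine pow_le_pow_right₀ (by norm_num) ?_
      have := load_le D hS c k
      rw [← hT] at this
      omega
    have h4 : (2 : ℝ) ^ (q / 2 ^ 13) * Real.exp ((2 - 1) * ∑ σ : Option (ZMod Q),
        (T.card : ℝ) / (dom Q σ).card) ≤ 2 ^ (q / 2 ^ 11 + 1) :=
      le_trans (by rw [mul_comm]; exact mul_le_mul_of_nonneg_right h2 (by positivity)) h3
    have hpos : (0 : ℝ) < 2 ^ (q / 2 ^ 11 + 1) := by positivity
    refine le_of_mul_le_mul_right ?_ hpos
    calc _ = ((univ.filter fun f : Pos Q D => q / 2 ^ 11 < (univ.filter fun σ =>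
          ∃ l : ↥D.S, D.claim c l.1 = k ∧ On L (ptOn σ (f σ l).1)).card).card : ℝ)
            * 2 ^ (q / 2 ^ 11 + 1) * 2 ^ (q / 2 ^ 13) := by ring
      _ ≤ (Fintype.card (Pos Q D) : ℝ) * Real.exp ((2 - 1) * ∑ σ : Option (ZMod Q),
          (T.card : ℝ) / (dom Q σ).card) * 2 ^ (q / 2 ^ 13) := by
        refine mul_le_mul_of_nonneg_right (le_trans (le_of_eq ?_) h) (by positivity)
        congr 3
      _ ≤ _ := by
        rw [mul_assoc]
        exact mul_le_mul_of_nonneg_left (by rw [mul_comm]; exact h4) (Nat.cast_nonneg _)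
  · intro σ
    have hsub : (univ.filter fun g : ↥D.S ↪ ↥(dom Q σ) =>
        ∃ l : ↥D.S, D.claim c l.1 = k ∧ On L (ptOn σ (g l).1))
        ⊆ T.biUnion fun l => univ.filter fun g => On L (ptOn σ (g l).1) := by
      intro g hg
      obtain ⟨l, hl, hg'⟩ := (mem_filter.1 hg).2
      exact mem_biUnion.2 ⟨l, mem_filter.2 ⟨mem_univ _, hl⟩, mem_filter.2 ⟨mem_univ _, hg'⟩⟩
    have h0 : 0 < (dom Q σ).card := by have := (dom_card hS σ).1; omega
    rw [div_mul_eq_mul_div, le_div_iff₀ (Nat.cast_pos.2 h0)]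
    have hl : ∀ l, (univ.filter fun g : ↥D.S ↪ ↥(dom Q σ) => On L (ptOn σ (g l).1)).card
        * (dom Q σ).card ≤ Fintype.card (↥D.S ↪ ↥(dom Q σ)) := by
      intro l
      by_cases h : ∃ t : ↥(dom Q σ), On L (ptOn σ t.1)
      · obtain ⟨t, ht⟩ := h
        rw [show (univ.filter fun g : ↥D.S ↪ ↥(dom Q σ) => On L (ptOn σ (g l).1))
            = univ.filter fun g => g l = t from filter_congr fun g _ =>
              ⟨fun hg => Subtype.ext (line_value_unique hS hL hg ht), fun e => e ▸ ht⟩]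
        exact le_of_eq (by rw [← card_value l t, Fintype.card_coe])
      · rw [filter_eq_empty_iff.2 fun g _ hg => h ⟨g l, hg⟩]
        simp
    have := (Nat.mul_le_mul_right (dom Q σ).card ((card_le_card hsub).trans card_biUnion_le)).trans
      ((sum_mul _ _ _).le.trans (sum_le_sum fun l _ => hl l))
    rw [sum_const, smul_eq_mul] at this
    exact_mod_cast this

open Classical in
lemma bad_hits (c : Kind) (k : ZMod q) (L M : Option (ZMod Q) × ZMod Q) (hL : L.2 ≠ 0)
    (hM : M.2 ≠ 0) :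
    (univ.filter fun f : Pos Q D => 40 < (univ.filter fun σ => ∃ l l' : ↥D.S, l ≠ l' ∧
      D.claim c l.1 = k ∧ blk k l'.1 = blk k l.1 ∧
      On L (ptOn σ (f σ l).1) ∧ On M (ptOn σ (f σ l').1)).card).card * q ^ 41
      ≤ 3 * Fintype.card (Pos Q D) := by
  set P := (univ : Finset (↥D.S × ↥D.S)).filter fun z =>
    z.1 ≠ z.2 ∧ D.claim c z.1.1 = k ∧ blk k z.2.1 = blk k z.1.1 with hP
  have hQ := hQ1000 hS
  have hPc : P.card * (2 ^ 14 * dens) ≤ 8 * (q * q) := by
    have hsub : P ⊆ (univ.filter fun l : ↥D.S => D.claim c l.1 = k).biUnion fun l =>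
        (univ.filter fun l' : ↥D.S => blk k l'.1 = blk k l.1).image fun l' => (l, l') := by
      intro z hz
      obtain ⟨-, -, h1, h2⟩ := mem_filter.1 hz
      exact mem_biUnion.2 ⟨z.1, mem_filter.2 ⟨mem_univ _, h1⟩,
        mem_image.2 ⟨z.2, mem_filter.2 ⟨mem_univ _, h2⟩, rfl⟩⟩
    have hb : ∀ l : ↥D.S, ((univ.filter fun l' : ↥D.S => blk k l'.1 = blk k l.1).image
        fun l' => (l, l')).card * dens ≤ 4 * q := by
      intro l
      refine le_trans (Nat.mul_le_mul_right _ (card_image_le.trans ?_))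
        ((mul_comm _ _).le.trans (D.line_hi (some k, blk k l.1)))
      refine card_le_card_of_injOn (fun l => l.1) (fun l' hl' => ?_) (fun a _ b _ => Subtype.ext)
      simp only [coe_filter, Set.mem_setOf_eq, mem_univ, true_and] at hl'
      exact mem_filter.2 ⟨l'.2, hl'⟩
    have h1 := Nat.mul_le_mul_right dens ((card_le_card hsub).trans card_biUnion_le)
    rw [sum_mul] at h1
    have h2 := h1.trans (sum_le_sum fun l _ => hb l)
    rw [sum_const, smul_eq_mul] at h2
    have h3 := load_le D hS c k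
    calc P.card * (2 ^ 14 * dens) = 2 ^ 14 * (P.card * dens) := by ring
      _ ≤ 2 ^ 14 * ((univ.filter fun l : ↥D.S => D.claim c l.1 = k).card * (4 * q)) :=
        Nat.mul_le_mul_left _ h2
      _ ≤ 2 * q * (4 * q) := by rw [← mul_assoc]; exact Nat.mul_le_mul_right _ h3
      _ = _ := by ring
  have hq1 : (1 : ℝ) ≤ q := by
    have : 1 ≤ q := by have := hS.big; omega
    exact_mod_cast this
  have h := upper_tail (A := fun σ : Option (ZMod Q) => ↥D.S ↪ ↥(dom Q σ))
    (fun σ g => ∃ l l' : ↥D.S, l ≠ l' ∧ D.claim c l.1 = k ∧ blk k l'.1 = blk k l.1 ∧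
      On L (ptOn σ (g l).1) ∧ On M (ptOn σ (g l').1))
    (fun σ => (P.card : ℝ) / (((dom Q σ).card : ℝ) * (((dom Q σ).card : ℝ) - 1))) q hq1 41 ?_
  · refine (Nat.cast_le (α := ℝ)).1 ?_
    push_cast
    refine le_trans (le_trans (le_of_eq ?_) h) ?_
    · congr 3
    
    rw [mul_comm]
    refine mul_le_mul_of_nonneg_right ((Real.exp_le_exp.2 (?_ : _ ≤ (1 : ℝ))).trans
      (Real.exp_one_lt_d9.le.trans (by norm_num))) (Nat.cast_nonneg _)
    have hQR : (1000 : ℝ) ≤ Q := by exact_mod_cast hQ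
    have hq3 : (q : ℝ) ^ 3 ≤ Q := by exact_mod_cast hS.lo
    have hP' : (P.card : ℝ) * 2 ^ 38 ≤ 8 * ((q : ℝ) * q) := by
      have : P.card * 2 ^ 38 ≤ 8 * (q * q) := by
        simpa [dens, ← pow_add] using hPc
      exact_mod_cast this
    calc ((q : ℝ) - 1) * ∑ σ : Option (ZMod Q),
          (P.card : ℝ) / (((dom Q σ).card : ℝ) * (((dom Q σ).card : ℝ) - 1))
        ≤ (q : ℝ) * ∑ _σ : Option (ZMod Q), (P.card : ℝ) / (((Q : ℝ) / 2) * ((Q : ℝ) / 2)) := by
          refine mul_le_mul (by linarith) (sum_le_sum fun σ _ => ?_) (sum_nonneg fun σ _ => ?_)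
            (by linarith)
          · have : (Q : ℝ) ≤ (dom Q σ).card + 15 := by exact_mod_cast (dom_card hS σ).1
            refine div_le_div_of_nonneg_left (Nat.cast_nonneg _) (by positivity) ?_
            refine mul_le_mul (by linarith) (by linarith) (by positivity) (by linarith)
          · have : (Q : ℝ) ≤ (dom Q σ).card + 15 := by exact_mod_cast (dom_card hS σ).1
            exact div_nonneg (Nat.cast_nonneg _) (mul_nonneg (Nat.cast_nonneg _) (by linarith))
      _ ≤ 1 := by
          simp only [sum_const, card_univ, Fintype.card_option, ZMod.card, nsmul_eq_mul]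
          push_cast
          rw [mul_div_assoc', mul_div_assoc', div_le_one (by positivity)]
          nlinarith [mul_le_mul_of_nonneg_left hP' (show (0 : ℝ) ≤ q * Q by positivity),
            mul_le_mul_of_nonneg_left hq3 (show (0 : ℝ) ≤ Q by positivity)]
  · intro σ
    have h0 := (dom_card hS σ).1
    have h0' : (0 : ℝ) < ((dom Q σ).card : ℝ) * (((dom Q σ).card : ℝ) - 1) := by
      have : (2 : ℝ) ≤ (dom Q σ).card := by
        have : 2 ≤ (dom Q σ).card := by omega
        exact_mod_cast this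
      nlinarith
    rw [div_mul_eq_mul_div, le_div_iff₀ h0']
    have hsub : (univ.filter fun g : ↥D.S ↪ ↥(dom Q σ) => ∃ l l' : ↥D.S, l ≠ l' ∧
        D.claim c l.1 = k ∧ blk k l'.1 = blk k l.1 ∧
        On L (ptOn σ (g l).1) ∧ On M (ptOn σ (g l').1))
        ⊆ P.biUnion fun z => univ.filter fun g =>
          On L (ptOn σ (g z.1).1) ∧ On M (ptOn σ (g z.2).1) := by
      intro g hg
      obtain ⟨l, l', h1, h2, h3, h4, h5⟩ := (mem_filter.1 hg).2
      exact mem_biUnion.2 ⟨(l, l'), mem_filter.2 ⟨mem_univ _, h1, h2, h3⟩,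
        mem_filter.2 ⟨mem_univ _, h4, h5⟩⟩
    have hl : ∀ z ∈ P, (univ.filter fun g : ↥D.S ↪ ↥(dom Q σ) =>
        On L (ptOn σ (g z.1).1) ∧ On M (ptOn σ (g z.2).1)).card
        * ((dom Q σ).card * ((dom Q σ).card - 1)) ≤ Fintype.card (↥D.S ↪ ↥(dom Q σ)) := by
      intro z hz
      by_cases h : ∃ g : ↥D.S ↪ ↥(dom Q σ), On L (ptOn σ (g z.1).1) ∧ On M (ptOn σ (g z.2).1)
      · obtain ⟨g₀, hg₀⟩ := h
        rw [show (univ.filter fun g : ↥D.S ↪ ↥(dom Q σ) =>
            On L (ptOn σ (g z.1).1) ∧ On M (ptOn σ (g z.2).1))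
            = univ.filter fun g => g z.1 = g₀ z.1 ∧ g z.2 = g₀ z.2 from filter_congr fun g _ =>
              ⟨fun hg => ⟨Subtype.ext (line_value_unique hS hL hg.1 hg₀.1),
                Subtype.ext (line_value_unique hS hM hg.2 hg₀.2)⟩,
              fun e => by rw [e.1, e.2]; exact hg₀⟩]
        have hne := (mem_filter.1 hz).2.1
        have h2 := card_two_values hne (g₀.injective.ne hne)
        rw [Fintype.card_coe] at h2
        exact h2.le
      · rw [filter_eq_empty_iff.2 fun g _ hg => h ⟨g, hg⟩]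
        simp
    have := (Nat.mul_le_mul_right ((dom Q σ).card * ((dom Q σ).card - 1))
      ((card_le_card hsub).trans card_biUnion_le)).trans
      ((sum_mul _ _ _).le.trans (sum_le_sum hl))
    rw [sum_const, smul_eq_mul] at this
    rw [← Nat.cast_one, ← Nat.cast_sub (by omega : 1 ≤ (dom Q σ).card)]
    exact_mod_cast this

end Prob

open Classical in
/-- Good positions exist. -/
theorem exists_good (D : Small q) (hS : Sizes Q q) : ∃ f : Pos Q D, Good f := by
  set W := Fintype.card (Pos Q D) with hW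
  have hW0 : 0 < W := by
    refine Fintype.card_pos_iff.2 ⟨fun σ => Classical.choice
      (Function.Embedding.nonempty_of_card_le ?_)⟩
    have := two_N_le D hS σ
    omega
  have hlg : Q < 2 ^ lg Q := Nat.lt_pow_succ_log_self (by norm_num) Q
  have hQ := hQ1000 hS
  have hQ3 : Q * Q + Q + 1 ≤ Q ^ 3 := by nlinarith
  let fam : Finset (Finset (Option (ZMod Q) × ZMod Q)) := univ.filter fun Ls => Ls.card ≤ 2 * Q
  let F1 : Finset (Pos Q D) := fam.biUnion fun Ls => univ.filter fun f : Pos Q D =>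
    6 * Q * ((uncInl f Ls).card + err Q) < D.S.card * (uncPos Ls).card
  let F2 : Finset (Pos Q D) :=
    ((univ : Finset (Option (ZMod Q) × ZMod Q)).filter fun L => L.2 ≠ 0 ∧ ∀ n, L ≠ aux n).biUnion
      fun L => univ.filter fun f : Pos Q D => 8 * (univ.filter
        fun z : Option (ZMod Q) × ↥D.S => On L (ptOn z.1 (f z.1 z.2).1)).card < D.S.card
  let F3 : Finset (Pos Q D) :=
    ((univ : Finset (Kind × ZMod q × (Option (ZMod Q) × ZMod Q))).filter
      fun z => z.2.2.2 ≠ 0).biUnion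
      fun z => univ.filter fun f : Pos Q D => q / 2 ^ 11 < (univ.filter fun σ =>
        ∃ l : ↥D.S, D.claim z.1 l.1 = z.2.1 ∧ On z.2.2 (ptOn σ (f σ l).1)).card
  let F4 : Finset (Pos Q D) :=
    ((univ : Finset (Kind × ZMod q × (Option (ZMod Q) × ZMod Q)
        × (Option (ZMod Q) × ZMod Q))).filter
      fun z => z.2.2.1.2 ≠ 0 ∧ z.2.2.2.2 ≠ 0).biUnion
      fun z => univ.filter fun f : Pos Q D => 40 < (univ.filter fun σ =>
        ∃ l l' : ↥D.S, l ≠ l' ∧ D.claim z.1 l.1 = z.2.1 ∧ blk z.2.1 l'.1 = blk z.2.1 l.1 ∧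
          On z.2.2.1 (ptOn σ (f σ l).1) ∧ On z.2.2.2 (ptOn σ (f σ l').1)).card
  have hlgpos : 0 < lg Q := Nat.succ_pos _
  have hqQ : q ≤ Q := (Nat.le_self_pow (by norm_num) q).trans hS.lo
  have hlines : Fintype.card (Option (ZMod Q) × ZMod Q) + 1 ≤ 2 ^ (3 * lg Q) := by
    rw [Fintype.card_prod, Fintype.card_option, ZMod.card, mul_comm 3, pow_mul,
      show (Q + 1) * Q + 1 = Q * Q + Q + 1 by ring]
    exact hQ3.trans (Nat.pow_le_pow_left hlg.le 3)
  have hq2 : q ≤ 2 ^ lg Q := hqQ.trans hlg.le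
  have hlog := hS.log_small
  have hlg1 : lg Q ≤ lg Q ^ 2 := Nat.le_self_pow (by norm_num) _
  have small : ∀ (A : Finset (Pos Q D)) (n E : ℕ),
      A.card * 2 ^ E ≤ 2 ^ n * W → n + 3 ≤ E → 8 * A.card ≤ W := by
    intro A n E h hn
    refine le_of_mul_le_mul_left (a := 2 ^ n) ?_ (by positivity)
    calc 2 ^ n * (8 * A.card) = A.card * 2 ^ (n + 3) := by rw [pow_add]; ring
      _ ≤ A.card * 2 ^ E := Nat.mul_le_mul_left _ (Nat.pow_le_pow_right (by norm_num) hn)
      _ ≤ _ := h
  have h1 : 8 * F1.card ≤ W := by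
    refine small F1 (6 * Q * lg Q) (err Q) ?_ (by simp only [err]; nlinarith)
    have hfam : fam.card ≤ 2 ^ (6 * Q * lg Q) := by
      have hsub : fam ⊆ (univ : Finset (Fin (2 * Q) → Option (Option (ZMod Q) × ZMod Q))).image
          fun g => univ.filter fun L => ∃ i, g i = some L := by
        intro Ls hLs
        have hc : Ls.toList.length ≤ 2 * Q := by
          rw [length_toList]; exact (mem_filter.1 hLs).2
        refine mem_image.2 ⟨fun i => Ls.toList[i.val]?, mem_univ _, ?_⟩
        ext L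
        simp only [mem_filter, mem_univ, true_and]
        rw [← mem_toList]
        constructor
        · rintro ⟨i, hi⟩; exact List.mem_of_getElem? hi
        · intro h
          obtain ⟨i, hi, rfl⟩ := List.mem_iff_getElem.1 h
          exact ⟨⟨i, lt_of_lt_of_le hi hc⟩, List.getElem?_eq_getElem hi⟩
      refine (card_le_card hsub).trans (card_image_le.trans ?_)
      rw [card_univ, Fintype.card_fun, Fintype.card_fin, Fintype.card_option]
      calc _ ≤ (2 ^ (3 * lg Q)) ^ (2 * Q) := Nat.pow_le_pow_left hlines _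
        _ = _ := by rw [← pow_mul]; ring_nf
    refine (Nat.mul_le_mul_right _ card_biUnion_le).trans ?_
    rw [sum_mul]
    refine (sum_le_sum fun Ls _ => bad_union D hS Ls).trans ?_
    rw [sum_const, smul_eq_mul]
    exact Nat.mul_le_mul_right _ hfam
  have h2 : 8 * F2.card ≤ W := by
    refine small F2 (3 * lg Q) (D.S.card / 8) ?_ ?_
    · refine (Nat.mul_le_mul_right _ card_biUnion_le).trans ?_
      rw [sum_mul]
      refine (sum_le_sum fun L hL => bad_rich D hS L (mem_filter.1 hL).2.1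
        (mem_filter.1 hL).2.2).trans ?_
      rw [sum_const, smul_eq_mul]
      exact Nat.mul_le_mul_right _ ((card_le_univ _).trans (by omega))
    · have h := card_S_lo D hS
      simp only [dens] at h
      have : q * 2 ^ 64 ≤ q * q := Nat.mul_le_mul_left _ hS.big
      omega
  have h3 : 8 * F3.card ≤ W := by
    refine small F3 (4 * lg Q + 6) (q / 2 ^ 13) ?_ (by omega)
    refine (Nat.mul_le_mul_right _ card_biUnion_le).trans ?_
    rw [sum_mul]
    refine (sum_le_sum fun z hz => bad_leaves D hS z.1 z.2.1 z.2.2 (mem_filter.1 hz).2).trans ?_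
    rw [sum_const, smul_eq_mul]
    refine Nat.mul_le_mul_right _ ((card_le_univ _).trans ?_)
    rw [Fintype.card_prod, Fintype.card_prod (ZMod q), ZMod.card,
      show Fintype.card Kind = 40 by simp [Kind]]
    calc 40 * (q * Fintype.card (Option (ZMod Q) × ZMod Q))
        ≤ 2 ^ 6 * (2 ^ lg Q * 2 ^ (3 * lg Q)) :=
          Nat.mul_le_mul (by norm_num) (Nat.mul_le_mul hq2 (by omega))
      _ = _ := by rw [← pow_add, ← pow_add]; ring_nf
  have h4 : 8 * F4.card ≤ W := by
    refine le_of_mul_le_mul_left (a := q ^ 41) ?_ (pow_pos (by have := hS.big; omega) _)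
    have hh : F4.card * q ^ 41 ≤ (40 * (q * (4 * (q ^ 6)) * (4 * (q ^ 6)) * 4)) * (3 * W) := by
      refine (Nat.mul_le_mul_right _ card_biUnion_le).trans ?_
      rw [sum_mul]
      refine (sum_le_sum fun z hz => bad_hits D hS z.1 z.2.1 z.2.2.1 z.2.2.2
        (mem_filter.1 hz).2.1 (mem_filter.1 hz).2.2).trans ?_
      rw [sum_const, smul_eq_mul]
      refine Nat.mul_le_mul_right _ ((card_le_univ _).trans ?_)
      rw [Fintype.card_prod, Fintype.card_prod (ZMod q), Fintype.card_prod (Option (ZMod Q) × _),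
        ZMod.card, show Fintype.card Kind = 40 by simp [Kind]]
      have hl : Fintype.card (Option (ZMod Q) × ZMod Q) ≤ 8 * q ^ 6 := by
        rw [Fintype.card_prod, Fintype.card_option, ZMod.card]
        calc (Q + 1) * Q ≤ (2 * (2 * q ^ 3)) * (2 * q ^ 3) :=
              Nat.mul_le_mul (by have := hS.hi; omega) hS.hi
          _ = _ := by ring
      calc _ ≤ 40 * (q * ((8 * q ^ 6) * (8 * q ^ 6))) :=
            Nat.mul_le_mul_left _ (Nat.mul_le_mul_left _ (Nat.mul_le_mul hl hl))
        _ = _ := by ring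
    calc q ^ 41 * (8 * F4.card) = 8 * (F4.card * q ^ 41) := by ring
      _ ≤ 8 * ((40 * (q * (4 * (q ^ 6)) * (4 * (q ^ 6)) * 4)) * (3 * W)) :=
        Nat.mul_le_mul_left _ hh
      _ = (2 ^ 9 * 120) * q ^ 13 * W := by ring
      _ ≤ q ^ 28 * q ^ 13 * W := by
        refine Nat.mul_le_mul_right _ (Nat.mul_le_mul_right _ ?_)
        have : q ≤ q ^ 28 := Nat.le_self_pow (by norm_num) _
        have := hS.big
        omega
      _ = _ := by ring
  have hlt : (F1 ∪ F2 ∪ F3 ∪ F4).card < W := by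
    have a := card_union_le (F1 ∪ F2 ∪ F3) F4
    have b := card_union_le (F1 ∪ F2) F3
    have c := card_union_le F1 F2
    omega
  obtain ⟨f, -, hf⟩ := exists_mem_notMem_of_card_lt_card
    (show (F1 ∪ F2 ∪ F3 ∪ F4).card < (univ : Finset (Pos Q D)).card by rw [card_univ]; exact hlt)
  simp only [mem_union, not_or, F1, F2, F3, F4, mem_biUnion, mem_filter, mem_univ, true_and,
    not_exists, not_and, not_lt, fam] at hf
  obtain ⟨⟨⟨g1, g2⟩, g3⟩, g4⟩ := hf
  exact ⟨f, g1, fun L a b => g2 L ⟨a, b⟩, fun c k L a => g3 (c, k, L) a,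
    fun c k L M a b => g4 (c, k, L, M) ⟨a, b⟩⟩

end Vale.Agent.P045
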