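import Vale.Agent.P045.BigExists

set_option linter.unusedSectionVars false

/-! The contents of single classes: how many points of a line, and of the whole label part,
a class can hold. -/

namespace Vale.Agent.P045

open Finset

variable {Q q : ℕ} [Fact Q.Prime] [Fact q.Prime] {D : Small q} (f : Pos Q D)

/-- The part of a class. -/
def partOf : Cls Q q → Option (ZMod Q) ⊕ ZMod q
  | Sum.inl v => Sum.inl v.1
  | Sum.inr v => Sum.inr v.1

/-- A point lies in a class. -/
def InC (x : Point Q D) (v : Cls Q q) : Prop := cls f (partOf v) x = v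

lemma partOf_cls (i : Option (ZMod Q) ⊕ ZMod q) (x : Point Q D) : partOf (cls f i x) = i := by
  cases i <;> simp [cls, partOf]

/-- The class of a line. -/
def lineCls (L : Option (ZMod Q) × ZMod Q) : Cls Q q := Sum.inl (L.1, Sum.inl L.2)

lemma lineCls_inj : Function.Injective (lineCls (Q := Q) (q := q)) := by
  intro a b h
  simp only [lineCls, Sum.inl.injEq, Prod.mk.injEq] at h
  exact Prod.ext h.1 h.2

/-- The class of a piece. -/
def pieceCls (σ : Option (ZMod Q)) (u : ZMod q) : Cls Q q := Sum.inl (σ, Sum.inr (Sum.inl u))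

/-- The class of a gadget piece. -/
def gadCls (σ : Option (ZMod Q)) (c : ZMod Q) : Cls Q q := Sum.inl (σ, Sum.inr (Sum.inr c))

lemma cls_types (v : Cls Q q) :
    (∃ L, v = lineCls L) ∨ (∃ σ u, v = pieceCls σ u) ∨ (∃ σ c, v = gadCls σ c) ∨
      ∃ k y, v = Sum.inr (k, y) := by
  rcases v with ⟨σ, c | u | c⟩ | ⟨k, y⟩
  · exact Or.inl ⟨(σ, c), rfl⟩
  · exact Or.inr (Or.inl ⟨σ, u, rfl⟩)
  · exact Or.inr (Or.inr (Or.inl ⟨σ, c, rfl⟩))
  · exact Or.inr (Or.inr (Or.inr ⟨k, y, rfl⟩))

lemma inC_line {x : Point Q D} {L : Option (ZMod Q) × ZMod Q} :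
    InC f x (lineCls L) ↔
      On L (posn f x) ∧ dir (posn f x) ≠ L.1 ∧ ownSlope x ≠ some L.1 := by
  obtain ⟨σ, c⟩ := L
  simp only [InC, lineCls, partOf, cls, On, Sum.inl.injEq, Prod.mk.injEq, true_and]
  split_ifs with h1 h2 <;> simp_all

lemma inC_piece {x : Point Q D} {σ : Option (ZMod Q)} {u : ZMod q} :
    InC f x (pieceCls σ u) ↔ dir (posn f x) = σ ∧ (lab x).1 = u := by
  simp only [InC, pieceCls, partOf, cls, Sum.inl.injEq, Prod.mk.injEq, true_and]
  split_ifs with h1 h2 <;> simp_all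

lemma inC_gad {x : Point Q D} {σ : Option (ZMod Q)} {c : ZMod Q} :
    InC f x (gadCls σ c) → ∃ g, x = Sum.inr g ∧ g.1.1 = (σ, c) := by
  intro h
  simp only [InC, gadCls, partOf, cls, Sum.inl.injEq, Prod.mk.injEq, true_and] at h
  split_ifs at h with h1 h2
  · simp at h
  · rcases x with ⟨τ, l⟩ | g
    · simp [ownSlope] at h2
    have hs : g.1.1.1 = σ := Option.some.inj h2
    have hc : ic σ g.1.2 = c := Sum.inr.inj (Sum.inr.inj h)
    refine ⟨g, rfl, Prod.ext hs ?_⟩
    have := g.2.2.2.1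
    rw [On, hs] at this
    exact this.symm.trans hc

lemma inC_blk {x : Point Q D} {k : ZMod q} {y : Comp Q q} :
    InC f x (Sum.inr (k, y)) ↔ rep f k (compOf f k x) = y := by
  simp [InC, partOf, cls]

section Facts

variable (hQ : 1000 ≤ Q)
include hQ

lemma inl_line {z : Option (ZMod Q) × ↥D.S} {L : Option (ZMod Q) × ZMod Q} (hL : L.2 ≠ 0) :
    InC f (Sum.inl z) (lineCls L) ↔ On L (ptOn z.1 (f z.1 z.2).1) := by
  rw [inC_line f]
  refine ⟨fun h => h.1, fun h => ⟨h, ?_, by simp [ownSlope]⟩⟩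
  intro e
  have h0 := ic_dir (posn f (Sum.inl z : Point Q D))
  rw [e] at h0
  exact hL (h.symm.trans h0)

lemma no_line_zero {x : Point Q D} {σ : Option (ZMod Q)} : ¬ InC f x (lineCls (σ, 0)) := by
  rw [inC_line f]
  rintro ⟨h1, h2, -⟩
  exact h2 (dir_unique (posn_ne f hQ x) h1)

/-- Two label points of one line through the origin on one further line coincide. -/
lemma inl_on_unique {L : Option (ZMod Q) × ZMod Q} (hL : L.2 ≠ 0)
    {z w : Option (ZMod Q) × ↥D.S} (h : z.1 = w.1) (hz : On L (ptOn z.1 (f z.1 z.2).1))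
    (hw : On L (ptOn w.1 (f w.1 w.2).1)) : z = w := by
  obtain ⟨σ, l⟩ := z
  obtain ⟨τ, l'⟩ := w
  obtain rfl : σ = τ := h
  have e := point_unique (L := (σ, 0)) (fun e : ((σ, 0) : Option (ZMod Q) × ZMod Q) = L =>
    hL (e ▸ rfl)) (ic_ptOn σ _) (ic_ptOn σ _) hz hw
  exact congrArg (Prod.mk σ) ((f σ).injective (Subtype.ext (ptOn_injective σ e)))

/-- A special member is determined by its centre component. -/
lemma link_spec_unique {k : ZMod q} {a b a' b' : Gad Q} (hk : k = D.spec (kind a, kind b))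
    (hab : On a.1.1 b.1.2) (hk' : k = D.spec (kind a', kind b')) (hab' : On a'.1.1 b'.1.2)
    (hy : compG k a = compG k a') : a = a' ∧ b = b' := by
  obtain ⟨hka, hkb⟩ := Prod.ext_iff.1 (D.spec_inj (hk.symm.trans hk'))
  have ha : a = a' := gad_eq_of_dir hQ hka (Prod.ext_iff.1 hy).1
  subst ha
  have hi : idx b.1.2 = idx b'.1.2 := (Prod.ext_iff.1 hkb).2
  have hp : b.1.2 = b'.1.2 := point_unique (gad_line_ne_aux hQ a (idx b'.1.2)) hab hab'
    (hi ▸ on_idx b.2.2.2.2) (on_idx b'.2.2.2.2)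
  exact ⟨rfl, gad_eq_of_dir hQ hkb (by rw [hp])⟩

/-- Leaves of one centre lie on different lines through the origin. -/
lemma link_inj_dir {k : ZMod q} {x x' y : Comp Q q} (h : Link f k x y) (h' : Link f k x' y)
    (hd : x.1 = x'.1) : x = x' := by
  refine Prod.ext hd ?_
  rcases h with ⟨a, l, hg, hc, hx, ha, rfl⟩ | ⟨a, b, hk, hab, hne, hdd, rfl, rfl⟩ <;>
    rcases h' with ⟨a', l', hg', hc', hx', ha', hy⟩ | ⟨a', b', hk', hab', hne', -, hx', hy⟩
  · have hka : kind a = kind a' := Option.some.inj (hg.symm.trans hg')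
    have hA : a = a' := gad_eq_of_dir hQ hka (Prod.ext_iff.1 hy).1
    subst hA
    have := inl_on_unique f hQ a.2.1 (z := (x.1, l)) (w := (x'.1, l')) hd ha ha'
    have hl : l = l' := (Prod.ext_iff.1 this).2
    rw [hx, hx', hl]
  · rw [hk', D.spec_group] at hg; exact absurd hg (by simp)
  · rw [hk, D.spec_group] at hg'; exact absurd hg' (by simp)
  · rw [hx', (link_spec_unique hQ hk hab hk' hab' hy).2]

lemma link_dir_ne {k : ZMod q} {x y : Comp Q q} (h : Link f k x y) : x.1 ≠ y.1 := by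
  rcases h with ⟨a, l, hg, hc, hx, ha, rfl⟩ | ⟨a, b, hk, hab, hne, hdd, rfl, rfl⟩
  · intro e
    have e' : x.1 = dir a.1.2 := e
    have hp := point_unique (L := (x.1, 0))
      (fun e : ((x.1, 0) : Option (ZMod Q) × ZMod Q) = a.1.1 => a.2.1 (e ▸ rfl))
      (ic_ptOn x.1 (f x.1 l).1)
      (show ic x.1 a.1.2 = 0 by rw [e']; exact ic_dir _) ha a.2.2.2.1
    obtain ⟨n, hn⟩ := a.2.2.2.2
    exact inl_not_aux f hQ x.1 l n (hp ▸ hn)
  · exact fun e => hdd e.symm

/-- A class has at most one component on each line through the origin. -/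
lemma rep_inj_dir {k : ZMod q} {σ : Option (ZMod Q)} {b b' : ZMod q}
    (h : rep f k (σ, b) = rep f k (σ, b')) : b = b' := by
  rcases rep_cases f k (σ, b) with h1 | h1 <;> rcases rep_cases f k (σ, b') with h2 | h2
  · rw [h1, h2] at h; exact (Prod.ext_iff.1 h).2
  · rw [← h, h1] at h2; exact (link_dir_ne f hQ h2 rfl).elim
  · rw [h, h2] at h1; exact (link_dir_ne f hQ h1 rfl).elim
  · rw [h] at h1; exact (Prod.ext_iff.1 (link_inj_dir f hQ h1 h2 rfl)).2

variable (hS : Sizes Q q) (hf : Good f)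
include hS hf

open Classical in
/-- The lines through the origin met by a class of the second kind. -/
noncomputable def sigmas (k : ZMod q) (y : Comp Q q) : Finset (Option (ZMod Q)) :=
  univ.filter fun σ => ∃ b, rep f k (σ, b) = y

lemma sigmas_link {k : ZMod q} {y : Comp Q q} {σ : Option (ZMod Q)}
    (h : σ ∈ sigmas f k y) : σ = y.1 ∨ ∃ b, Link f k (σ, b) y := by
  classical
  obtain ⟨b, hb⟩ := (mem_filter.1 h).2
  rcases rep_cases f k (σ, b) with h1 | h1
  · exact Or.inl (by rw [← hb, h1])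
  · exact Or.inr ⟨b, hb ▸ h1⟩

lemma sigmas_card (k : ZMod q) (y : Comp Q q) : (sigmas f k y).card ≤ q / 2 ^ 11 + 2 := by
  classical
  have hsub : sigmas f k y ⊆ insert y.1 (univ.filter fun σ => ∃ b, Link f k (σ, b) y) := by
    intro σ hσ
    rcases sigmas_link f hQ hS hf hσ with h | h
    · exact mem_insert.2 (Or.inl h)
    · exact mem_insert_of_mem (mem_filter.2 ⟨mem_univ _, h⟩)
  refine ((card_le_card hsub).trans (card_insert_le _ _)).trans (Nat.succ_le_succ ?_)
  by_cases hs : ∃ a, D.group k = some (kind a) ∧ y = compG k a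
  · obtain ⟨a, hg, hy⟩ := hs
    refine le_trans (card_le_card ?_) ((hf.leaves (kind a) k a.1.1 a.2.1).trans (Nat.le_succ _))
    intro σ hσ
    obtain ⟨b, hb⟩ := (mem_filter.1 hσ).2
    rcases hb with ⟨a', l, hg', hc, hx, ha, hy'⟩ | ⟨a', b', hk, -⟩
    · have hka : kind a = kind a' := Option.some.inj (hg.symm.trans hg')
      have hA : a = a' := gad_eq_of_dir hQ hka (Prod.ext_iff.1 (hy.symm.trans hy')).1
      subst hA
      exact mem_filter.2 ⟨mem_univ _, l, hc, ha⟩
    · rw [hk, D.spec_group] at hg; exact absurd hg (by simp)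
  · refine le_trans (card_le_one.2 ?_) (Nat.le_add_left 1 _)
    intro σ hσ τ hτ
    obtain ⟨b, hb⟩ := (mem_filter.1 hσ).2
    obtain ⟨c, hc⟩ := (mem_filter.1 hτ).2
    rcases hb with ⟨a, l, hg, -, -, -, hy⟩ | ⟨a, g, hk, hab, -, -, hx, hy⟩
    · exact absurd ⟨a, hg, hy⟩ hs
    rcases hc with ⟨a', l, hg', -, -, -, hy'⟩ | ⟨a', g', hk', hab', -, -, hx', hy'⟩
    · exact absurd ⟨a', hg', hy'⟩ hs
    obtain ⟨-, rfl⟩ := link_spec_unique hQ hk hab hk' hab' (hy.symm.trans hy')
    exact congrArg Prod.fst (hx.trans hx'.symm)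

lemma inl_mem_sigmas {k : ZMod q} {y : Comp Q q} {z : Option (ZMod Q) × ↥D.S}
    (h : InC f (Sum.inl z) (Sum.inr (k, y))) :
    z.1 ∈ sigmas f k y ∧ rep f k (z.1, blk k z.2.1) = y := by
  classical
  rw [inC_blk f] at h
  have e : compOf f k (Sum.inl z : Point Q D) = (z.1, blk k z.2.1) := by
    obtain ⟨σ, l⟩ := z
    simp [compOf, posn, lab, dir_inl f hQ]
  rw [e] at h
  exact ⟨mem_filter.2 ⟨mem_univ _, _, h⟩, h⟩

open Classical in
/-- The label points in a class that are not on lines. -/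
noncomputable def inlIn (v : Cls Q q) : Finset (Option (ZMod Q) × ↥D.S) :=
  univ.filter fun z => InC f (Sum.inl z) v

lemma inlIn_small {v : Cls Q q} (hv : ∀ L : Option (ZMod Q) × ZMod Q, L.2 ≠ 0 → v ≠ lineCls L) :
    64 * (inlIn f v).card ≤ D.S.card := by
  classical
  have hN := card_S_lo D hS
  have hq := hS.big
  have hline : ∀ L : Option (ZMod q) × ZMod q,
      (univ.filter fun l : ↥D.S => On L l.1).card * dens ≤ 4 * q := fun L => by
    refine le_trans (Nat.mul_le_mul_right _ ?_) ((mul_comm _ _).le.trans (D.line_hi L))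
    refine card_le_card_of_injOn (fun l => l.1) (fun l hl => ?_) (fun a _ b _ => Subtype.ext)
    exact mem_filter.2 ⟨l.2, (mem_filter.1 hl).2⟩
  suffices h : (inlIn f v).card * dens ≤ (q / 2 ^ 11 + 2) * (4 * q) by
    have h1 : (q / 2 ^ 11 + 2) * 2 ^ 11 ≤ 2 * q := by
      have := Nat.div_mul_le_self q (2 ^ 11)
      have h' : 2 * 2 ^ 11 ≤ q := le_trans (by norm_num) hq
      linarith
    have h2 : 64 * ((inlIn f v).card * dens) * 2 ^ 11 ≤ 2 ^ 9 * (4 * dens * D.S.card) := by
      calc _ ≤ 64 * ((q / 2 ^ 11 + 2) * (4 * q)) * 2 ^ 11 :=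
            Nat.mul_le_mul_right _ (Nat.mul_le_mul_left _ h)
        _ = 256 * q * ((q / 2 ^ 11 + 2) * 2 ^ 11) := by ring
        _ ≤ 256 * q * (2 * q) := Nat.mul_le_mul_left _ h1
        _ = 2 ^ 9 * (q * q) := by ring
        _ ≤ _ := Nat.mul_le_mul_left _ hN
    refine le_of_mul_le_mul_right (a := dens * 2 ^ 11) ?_
      (Nat.mul_pos (Nat.pow_pos (by norm_num)) (Nat.pow_pos (by norm_num)))
    calc 64 * (inlIn f v).card * (dens * 2 ^ 11)
        = 64 * ((inlIn f v).card * dens) * 2 ^ 11 := by ring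
      _ ≤ 2 ^ 9 * (4 * dens * D.S.card) := h2
      _ = D.S.card * (dens * 2 ^ 11) := by ring
  rcases cls_types v with ⟨L, rfl⟩ | ⟨σ, u, rfl⟩ | ⟨σ, c, rfl⟩ | ⟨k, y, rfl⟩
  · have h0 : L.2 = 0 := by
      by_contra h
      exact hv L h rfl
    rw [show (inlIn f (lineCls L)) = ∅ from filter_eq_empty_iff.2 fun z _ hz =>
      no_line_zero f hQ (σ := L.1) (by rwa [← h0])]
    simp
  · refine le_trans ?_ ((hline (none, u)).trans (Nat.le_mul_of_pos_left _ (by omega)))
    refine Nat.mul_le_mul_right _ (card_le_card_of_injOn (fun z => z.2) ?_ ?_)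
    · intro z hz
      exact mem_filter.2 ⟨mem_univ _, ((inC_piece f).1 (mem_filter.1 hz).2).2⟩
    · intro z hz w hw e
      have h1 := ((inC_piece f).1 (mem_filter.1 hz).2).1
      have h2 := ((inC_piece f).1 (mem_filter.1 hw).2).1
      rw [show dir (posn f (Sum.inl z : Point Q D)) = z.1 from dir_inl f hQ _ _] at h1
      rw [show dir (posn f (Sum.inl w : Point Q D)) = w.1 from dir_inl f hQ _ _] at h2
      exact Prod.ext (h1.trans h2.symm) e
  · rw [show (inlIn f (gadCls σ c : Cls Q q)) = ∅ from filter_eq_empty_iff.2 fun z _ hz => by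
      obtain ⟨g, h, -⟩ := inC_gad f hz
      exact Sum.inl_ne_inr h]
    simp
  · have hsub : inlIn f (Sum.inr (k, y)) ⊆ (sigmas f k y).biUnion fun σ =>
        (inlIn f (Sum.inr (k, y))).filter fun z => z.1 = σ := fun z hz =>
      mem_biUnion.2 ⟨z.1, (inl_mem_sigmas f hQ hS hf (mem_filter.1 hz).2).1,
        mem_filter.2 ⟨hz, rfl⟩⟩
    refine (Nat.mul_le_mul_right _ ((card_le_card hsub).trans card_biUnion_le)).trans ?_
    rw [sum_mul]
    refine le_trans (sum_le_sum (g := fun _ => 4 * q) fun σ hσ => ?_) ?_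
    · obtain ⟨b, hb⟩ := (mem_filter.1 hσ).2
      refine le_trans ?_ (hline (some k, b))
      refine Nat.mul_le_mul_right _ (card_le_card_of_injOn (fun z => z.2) ?_ ?_)
      · intro z hz
        simp only [coe_filter, Set.mem_setOf_eq] at hz
        have h := (inl_mem_sigmas f hQ hS hf (mem_filter.1 hz.1).2).2
        rw [hz.2] at h
        exact mem_filter.2 ⟨mem_univ _, rep_inj_dir f hQ (h.trans hb.symm)⟩
      · intro z hz w hw e
        simp only [coe_filter, Set.mem_setOf_eq] at hz hw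
        exact Prod.ext (hz.2.trans hw.2.symm) e
    · rw [sum_const, smul_eq_mul]
      exact Nat.mul_le_mul_right _ (sigmas_card f hQ hS hf k y)

/-- The class is the star class centred on the line. -/
def IsStar (v : Cls Q q) (L : Option (ZMod Q) × ZMod Q) : Prop :=
  ∃ k a, D.group k = some (kind a) ∧ a.1.1 = L ∧ v = Sum.inr (k, compG k a)

omit hS hf in
lemma star_unique {v : Cls Q q} {L L' : Option (ZMod Q) × ZMod Q}
    (h : IsStar (D := D) v L) (h' : IsStar (D := D) v L') : L = L' := by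
  obtain ⟨k, a, hg, rfl, rfl⟩ := h
  obtain ⟨k', a', hg', rfl, hv⟩ := h'
  simp only [Sum.inr.injEq, Prod.mk.injEq] at hv
  obtain ⟨rfl, hy⟩ := hv
  rw [gad_eq_of_dir hQ (Option.some.inj (hg.symm.trans hg')) (Prod.ext_iff.1 hy).1]

open Classical in
/-- The label points of a class on a line. -/
noncomputable def hitSet (v : Cls Q q) (L : Option (ZMod Q) × ZMod Q) :
    Finset (Option (ZMod Q) × ↥D.S) :=
  univ.filter fun z => InC f (Sum.inl z) v ∧ On L (ptOn z.1 (f z.1 z.2).1)

lemma hit_any {v : Cls Q q} {L : Option (ZMod Q) × ZMod Q} (hL : L.2 ≠ 0)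
    (hv : v ≠ lineCls L) : (hitSet f v L).card ≤ q / 2 ^ 11 + 2 := by
  classical
  rcases cls_types v with ⟨M, rfl⟩ | ⟨σ, u, rfl⟩ | ⟨σ, c, rfl⟩ | ⟨k, y, rfl⟩
  · refine le_trans (card_le_one.2 fun z hz w hw => ?_) (by omega)
    obtain ⟨-, hz1, hz2⟩ := mem_filter.1 hz
    obtain ⟨-, hw1, hw2⟩ := mem_filter.1 hw
    have hne : M ≠ L := fun e => hv (by rw [e])
    have e := point_unique hne ((inC_line f).1 hz1).1 ((inC_line f).1 hw1).1 hz2 hw2
    have hd : z.1 = w.1 := by
      rw [← dir_inl f hQ z.1 z.2, ← dir_inl f hQ w.1 w.2]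
      exact congrArg dir e
    exact inl_on_unique f hQ hL hd hz2 hw2
  · refine le_trans (card_le_one.2 fun z hz w hw => ?_) (by omega)
    obtain ⟨-, hz1, hz2⟩ := mem_filter.1 hz
    obtain ⟨-, hw1, hw2⟩ := mem_filter.1 hw
    refine inl_on_unique f hQ hL ?_ hz2 hw2
    rw [← dir_inl f hQ z.1 z.2, ← dir_inl f hQ w.1 w.2]
    exact ((inC_piece f).1 hz1).1.trans ((inC_piece f).1 hw1).1.symm
  · rw [show hitSet f (gadCls σ c : Cls Q q) L = ∅ from filter_eq_empty_iff.2 fun z _ hz => by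
      obtain ⟨g, h, -⟩ := inC_gad f hz.1
      exact Sum.inl_ne_inr h]
    simp
  · refine le_trans ?_ (sigmas_card f hQ hS hf k y)
    refine card_le_card_of_injOn (fun z => z.1) (fun z hz => ?_) ?_
    · exact (inl_mem_sigmas f hQ hS hf (mem_filter.1 hz).2.1).1
    · intro z hz w hw e
      exact inl_on_unique f hQ hL e (mem_filter.1 hz).2.2 (mem_filter.1 hw).2.2

lemma hit_nonstar {v : Cls Q q} {L : Option (ZMod Q) × ZMod Q} (hL : L.2 ≠ 0)
    (hv : v ≠ lineCls L) (hns : ¬ IsStar (D := D) v L) : (hitSet f v L).card ≤ 43 := by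
  classical
  by_cases hb : ∃ k a, D.group k = some (kind a) ∧ v = Sum.inr (k, compG k a)
  · obtain ⟨k, a, hg, rfl⟩ := hb
    have hne : a.1.1 ≠ L := fun e => hns ⟨k, a, hg, e, rfl⟩
    let W : Finset (Option (ZMod Q)) := insert (dir a.1.2)
      ((univ.filter fun σ => ∃ l : ↥D.S, On a.1.1 (ptOn σ (f σ l).1) ∧ On L (ptOn σ (f σ l).1))
      ∪ univ.filter fun σ => ∃ l l' : ↥D.S, l ≠ l' ∧ D.claim (kind a) l.1 = k ∧
          blk k l'.1 = blk k l.1 ∧
          On a.1.1 (ptOn σ (f σ l).1) ∧ On L (ptOn σ (f σ l').1))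
    have hW : W.card ≤ 43 := by
      refine (card_insert_le _ _).trans (Nat.succ_le_succ ((card_union_le _ _).trans
        (le_trans (add_le_add (card_le_one.2 ?_) (hf.hits _ _ _ _ a.2.1 hL)) (by norm_num))))
      intro σ hσ τ hτ
      obtain ⟨l, h1, h2⟩ := (mem_filter.1 hσ).2
      obtain ⟨l', h1', h2'⟩ := (mem_filter.1 hτ).2
      have e := congrArg dir (point_unique hne h1 h1' h2 h2')
      rwa [dir_inl f hQ, dir_inl f hQ] at e
    refine le_trans (card_le_card_of_injOn (fun z => z.1) (fun z hz => ?_) ?_) hW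
    · obtain ⟨-, hz1, hz2⟩ := mem_filter.1 hz
      obtain ⟨hz3, hz4⟩ := inl_mem_sigmas f hQ hS hf hz1
      rcases rep_cases f k (z.1, blk k z.2.1) with h | h
      · rw [hz4] at h
        exact mem_insert.2 (Or.inl (Prod.ext_iff.1 h).1.symm)
      · rw [hz4] at h
        rcases h with ⟨a', l, hg', hc, hx, ha, hy⟩ | ⟨a', b, hk, -⟩
        · have hA : a = a' :=
            gad_eq_of_dir hQ (Option.some.inj (hg.symm.trans hg')) (Prod.ext_iff.1 hy).1
          subst hA
          refine mem_insert_of_mem ?_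
          by_cases hl : l = z.2
          · subst hl
            exact mem_union_left _ (mem_filter.2 ⟨mem_univ _, z.2, ha, hz2⟩)
          · exact mem_union_right _ (mem_filter.2 ⟨mem_univ _, l, z.2, hl, hc, hx, ha, hz2⟩)
        · rw [hk, D.spec_group] at hg; exact absurd hg (by simp)
    · intro z hz w hw e
      exact inl_on_unique f hQ hL e (mem_filter.1 hz).2.2 (mem_filter.1 hw).2.2
  · rcases cls_types v with ⟨M, rfl⟩ | ⟨σ, u, rfl⟩ | ⟨σ, c, rfl⟩ | ⟨k, y, rfl⟩
    · refine le_trans (card_le_one.2 fun z hz w hw => ?_) (by norm_num)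
      obtain ⟨-, hz1, hz2⟩ := mem_filter.1 hz
      obtain ⟨-, hw1, hw2⟩ := mem_filter.1 hw
      have hne : M ≠ L := fun e => hv (by rw [e])
      have e := congrArg dir
        (point_unique hne ((inC_line f).1 hz1).1 ((inC_line f).1 hw1).1 hz2 hw2)
      simp only [posn, dir_inl f hQ] at e
      exact inl_on_unique f hQ hL e hz2 hw2
    · refine le_trans (card_le_one.2 fun z hz w hw => ?_) (by norm_num)
      obtain ⟨-, hz1, hz2⟩ := mem_filter.1 hz
      obtain ⟨-, hw1, hw2⟩ := mem_filter.1 hw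
      refine inl_on_unique f hQ hL ?_ hz2 hw2
      rw [← dir_inl f hQ z.1 z.2, ← dir_inl f hQ w.1 w.2]
      exact ((inC_piece f).1 hz1).1.trans ((inC_piece f).1 hw1).1.symm
    · rw [show hitSet f (gadCls σ c : Cls Q q) L = ∅ from filter_eq_empty_iff.2 fun z _ hz => by
        obtain ⟨g, h, -⟩ := inC_gad f hz.1
        exact Sum.inl_ne_inr h]
      simp
    · have hs : (sigmas f k y).card ≤ 2 := by
        have hsub : sigmas f k y ⊆ insert y.1 (univ.filter fun σ => ∃ b, Link f k (σ, b) y) := by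
          intro σ hσ
          rcases sigmas_link f hQ hS hf hσ with h | h
          · exact mem_insert.2 (Or.inl h)
          · exact mem_insert_of_mem (mem_filter.2 ⟨mem_univ _, h⟩)
        refine ((card_le_card hsub).trans (card_insert_le _ _)).trans
          (Nat.succ_le_succ (card_le_one.2 ?_))
        intro σ hσ τ hτ
        obtain ⟨b, hb'⟩ := (mem_filter.1 hσ).2
        obtain ⟨c, hc⟩ := (mem_filter.1 hτ).2
        rcases hb' with ⟨a, l, hg, -, -, -, hy⟩ | ⟨a, g, hk, hab, -, -, hx, hy⟩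
        · exact absurd ⟨k, a, hg, by rw [hy]⟩ hb
        rcases hc with ⟨a', l, hg', -, -, -, hy'⟩ | ⟨a', g', hk', hab', -, -, hx', hy'⟩
        · exact absurd ⟨k, a', hg', by rw [hy']⟩ hb
        obtain ⟨-, rfl⟩ := link_spec_unique hQ hk hab hk' hab' (hy.symm.trans hy')
        exact congrArg Prod.fst (hx.trans hx'.symm)
      refine le_trans (le_trans ?_ hs) (by norm_num)
      refine card_le_card_of_injOn (fun z => z.1) (fun z hz => ?_) ?_
      · exact (inl_mem_sigmas f hQ hS hf (mem_filter.1 hz).2.1).1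
      · intro z hz w hw e
        exact inl_on_unique f hQ hL e (mem_filter.1 hz).2.2 (mem_filter.1 hw).2.2

end Facts

end Vale.Agent.P045
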