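import Vale.Agent.P045.Classes

set_option linter.unusedSectionVars false

/-! A cover of size at most `Q + q` consists of almost all lines through one point. -/

namespace Vale.Agent.P045

open Finset

variable {Q q : ℕ} [Fact Q.Prime] [Fact q.Prime] {D : Small q} (f : Pos Q D)

/-- The lines through a point of the projective closure, other than the one through the origin. -/
def pencil (P : (ZMod Q × ZMod Q) ⊕ Option (ZMod Q)) : Finset (Option (ZMod Q) × ZMod Q) :=
  univ.filter fun L => Thru P L ∧ L.2 ≠ 0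

open Classical in
/-- The lines of the pencil that are missing from the cover. -/
noncomputable def missing (C : Finset (Cls Q q)) (P : (ZMod Q × ZMod Q) ⊕ Option (ZMod Q)) :
    Finset (Option (ZMod Q) × ZMod Q) :=
  (pencil P).filter fun L : Option (ZMod Q) × ZMod Q => (lineCls L : Cls Q q) ∉ C

/-- The classes of the cover other than the lines of the pencil. -/
def others (C : Finset (Cls Q q)) (P : (ZMod Q × ZMod Q) ⊕ Option (ZMod Q)) : Finset (Cls Q q) :=
  C \ (pencil P).image lineCls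

lemma others_card (C : Finset (Cls Q q)) (P : (ZMod Q × ZMod Q) ⊕ Option (ZMod Q)) :
    (others C P).card + (pencil P).card = C.card + (missing C P).card := by
  classical
  have h1 : (others C P).card + (C ∩ (pencil P).image lineCls).card = C.card :=
    card_sdiff_add_card_inter _ _
  have h2 : C ∩ (pencil P).image lineCls
      = ((pencil P).filter fun L => lineCls L ∈ C).image lineCls := by
    ext v
    simp only [mem_inter, mem_image, mem_filter]
    constructor
    · rintro ⟨hv, L, hL, rfl⟩; exact ⟨L, ⟨hL, hv⟩, rfl⟩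
    · rintro ⟨L, ⟨hL, hv⟩, rfl⟩; exact ⟨hv, L, hL, rfl⟩
  rw [h2, card_image_of_injective _ lineCls_inj] at h1
  have h3 := card_filter_add_card_filter_not (s := pencil P) (fun L => lineCls L ∈ C)
  simp only [missing]
  omega

section Facts

variable (hQ : 1000 ≤ Q)
include hQ

lemma pencil_card_inl {p : ZMod Q × ZMod Q} (hp : p ≠ (0, 0)) :
    (pencil (Sum.inl p)).card = Q := by
  classical
  have h : pencil (Sum.inl p) = (univ.erase (dir p)).image fun σ => (σ, ic σ p) := by
    ext ⟨σ, c⟩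
    rw [pencil, mem_filter]
    simp only [mem_univ, true_and, mem_image, mem_erase, and_true, ne_eq,
      Prod.mk.injEq, Thru, On]
    constructor
    · rintro ⟨h1, h2⟩
      exact ⟨σ, fun e => h2 (h1.symm.trans (e ▸ ic_dir p)), rfl, h1⟩
    · rintro ⟨τ, h1, rfl, rfl⟩
      exact ⟨rfl, fun e => h1 (dir_unique hp e).symm⟩
  rw [h, card_image_of_injective _ fun a b e => (Prod.ext_iff.1 e).1,
    card_erase_of_mem (mem_univ _)]
  simp

lemma pencil_card_inr (σ : Option (ZMod Q)) :
    (pencil (Sum.inr σ)).card + 1 = Q := by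
  classical
  have h : pencil (Sum.inr σ) = (univ.erase (0 : ZMod Q)).image fun c => (σ, c) := by
    ext ⟨τ, c⟩
    rw [pencil, mem_filter]
    simp only [mem_univ, true_and, mem_image, mem_erase, and_true, ne_eq,
      Prod.mk.injEq, Thru]
    constructor
    · rintro ⟨rfl, h2⟩
      exact ⟨c, h2, rfl, rfl⟩
    · rintro ⟨d, h1, rfl, rfl⟩
      exact ⟨rfl, h1⟩
  rw [h, card_image_of_injective _ fun a b e => (Prod.ext_iff.1 e).2,
    card_erase_of_mem (mem_univ _), card_univ, ZMod.card]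
  omega

/-- A covering class of a point on a missing line is not a line of the pencil. -/
lemma mem_others {C : Finset (Cls Q q)} {P : (ZMod Q × ZMod Q) ⊕ Option (ZMod Q)}
    {L : Option (ZMod Q) × ZMod Q} (hL : L ∈ missing C P) {x : Point Q D}
    (hx : On L (posn f x)) (hP : P ≠ Sum.inl (posn f x)) {v : Cls Q q} (hv : v ∈ C)
    (hxv : InC f x v) : v ∈ others C P := by
  classical
  refine mem_sdiff.2 ⟨hv, fun h => ?_⟩
  obtain ⟨M, hM, rfl⟩ := mem_image.1 h
  have hne : M ≠ L := fun e => (mem_filter.1 hL).2 (e ▸ hv)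
  have hM' := (mem_filter.1 hM).2.1
  have hL' := (mem_filter.1 (mem_filter.1 hL).1).2.1
  exact hP (card_le_one.1 (pair_unique hne).le P (mem_filter.2 ⟨mem_univ _, hM', hL'⟩)
    (Sum.inl (posn f x)) (mem_filter.2 ⟨mem_univ _, ((inC_line f).1 hxv).1, hx⟩))

/-- The component of a gadget point is either a representative or a special member. -/
lemma rep_gad {k : ZMod q} {g : Gad Q} {y : Comp Q q} (h : rep f k (compG k g) = y) :
    compG k g = y ∨ ∃ a : Gad Q, k = D.spec (kind a, kind g) ∧ On a.1.1 g.1.2 ∧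
      a.1.1 ≠ g.1.1 ∧ dir a.1.2 ≠ dir g.1.2 ∧ y = compG k a := by
  rcases rep_cases f k (compG k g) with h1 | h1
  · exact Or.inl (h1.symm.trans h)
  rw [h] at h1
  rcases h1 with ⟨a, l, hg, hc, hx, -⟩ | ⟨a, b, hk, hab, hne, hdd, hx, hy⟩
  · have hx' : blk k (lam (kind g)) = blk k l.1 := hx
    rw [← hc] at hx'
    exact absurd hx'.symm (D.claim_avoid _ _ l.1 l.2)
  · have hkk : kind g = kind b := by
      have := (Prod.ext_iff.1 hx).2
      rw [hk] at this
      exact D.spec_sep _ _ _ this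
    obtain rfl : g = b := gad_eq_of_dir hQ hkk (Prod.ext_iff.1 hx).1
    exact Or.inr ⟨a, hk, hab, hne, hdd, hy⟩

/-- A class holds gadget points at no more than two positions of a line outside it. -/
lemma gad_positions {v : Cls Q q} {L : Option (ZMod Q) × ZMod Q} (hv : v ≠ lineCls L)
    (hL : L.2 ≠ 0) (G : Finset (Gad Q)) (hG : ∀ g ∈ G, InC f (Sum.inr g) v ∧ On L g.1.2)
    (hne : ∀ σ c, v = gadCls σ c → ∀ g ∈ G, g.1.1 ≠ L) :
    (G.image fun g => g.1.2).card ≤ 2 := by
  classical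
  have key : ∀ g ∈ G, ∀ g' ∈ G, dir g.1.2 = dir g'.1.2 → g.1.2 = g'.1.2 := by
    intro g hg g' hg' e
    exact point_unique (L := (dir g.1.2, 0))
      (fun e' : ((dir g.1.2, 0) : Option (ZMod Q) × ZMod Q) = L => hL (e' ▸ rfl))
      (ic_dir _) (show ic _ _ = 0 by rw [e]; exact ic_dir _) (hG g hg).2 (hG g' hg').2
  have one : (∀ g ∈ G, ∀ g' ∈ G, g.1.2 = g'.1.2) → (G.image fun g => g.1.2).card ≤ 2 := by
    intro h
    refine le_trans (card_le_one.2 ?_) (by norm_num)
    intro a ha b hb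
    obtain ⟨g, hg, rfl⟩ := mem_image.1 ha
    obtain ⟨g', hg', rfl⟩ := mem_image.1 hb
    exact h g hg g' hg'
  rcases cls_types v with ⟨M, rfl⟩ | ⟨σ, u, rfl⟩ | ⟨σ, c, rfl⟩ | ⟨k, y, rfl⟩
  · refine one fun g hg g' hg' => ?_
    exact point_unique (fun e => hv (by rw [e]) : M ≠ L) ((inC_line f).1 (hG g hg).1).1
      ((inC_line f).1 (hG g' hg').1).1 (hG g hg).2 (hG g' hg').2
  · refine one fun g hg g' hg' => key g hg g' hg' ?_
    exact ((inC_piece f).1 (hG g hg).1).1.trans ((inC_piece f).1 (hG g' hg').1).1.symm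
  · refine one fun g hg g' hg' => ?_
    obtain ⟨g₁, e₁, h₁⟩ := inC_gad f (hG g hg).1
    obtain ⟨g₂, e₂, h₂⟩ := inC_gad f (hG g' hg').1
    obtain rfl := Sum.inr.inj e₁
    obtain rfl := Sum.inr.inj e₂
    exact point_unique (hne σ c rfl g hg) g.2.2.2.1 (h₁.trans h₂.symm ▸ g'.2.2.2.1)
      (hG g hg).2 (hG g' hg').2
  · let T : Finset (Option (ZMod Q)) := insert y.1
      (univ.filter fun σ => ∃ a b : Gad Q, k = D.spec (kind a, kind b) ∧ On a.1.1 b.1.2 ∧
        y = compG k a ∧ σ = dir b.1.2)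
    have hT : T.card ≤ 2 := by
      refine (card_insert_le _ _).trans (Nat.succ_le_succ (card_le_one.2 ?_))
      intro σ hσ τ hτ
      obtain ⟨a, b, hk, hab, hy, rfl⟩ := (mem_filter.1 hσ).2
      obtain ⟨a', b', hk', hab', hy', rfl⟩ := (mem_filter.1 hτ).2
      rw [(link_spec_unique hQ hk hab hk' hab' (hy.symm.trans hy')).2]
    have himg : ((G.image fun g => g.1.2).image dir) ⊆ T := by
      intro σ hσ
      simp only [mem_image, exists_exists_and_eq_and] at hσ
      obtain ⟨g, hg, rfl⟩ := hσ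
      rcases rep_gad f hQ ((inC_blk f).1 (hG g hg).1) with h | ⟨a, hk, hab, -, -, hy⟩
      · exact mem_insert.2 (Or.inl (congrArg Prod.fst h))
      · exact mem_insert_of_mem (mem_filter.2 ⟨mem_univ _, a, g, hk, hab, hy, rfl⟩)
    refine le_trans (le_of_eq (card_image_of_injOn ?_).symm) ((card_le_card himg).trans hT)
    intro a ha b hb e
    obtain ⟨g, hg, rfl⟩ := mem_image.1 ha
    obtain ⟨g', hg', rfl⟩ := mem_image.1 hb
    exact key g hg g' hg' e

variable (hS : Sizes Q q) (hf : Good f)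
include hS hf

lemma N_ge : q * q ≤ 2 ^ 26 * D.S.card := by
  refine (card_S_lo D hS).trans (le_of_eq ?_)
  rw [show 4 * dens = 2 ^ 26 by simp [dens]]

lemma N_pos : 0 < D.S.card := by
  by_contra h
  have h0 := N_ge f hQ hS hf
  rw [show D.S.card = 0 by omega] at h0
  have := hS.big
  nlinarith

/-- The error scale of the cover analysis. -/
def scale (Q q : ℕ) : ℕ := 2 ^ 37 * (q * lg Q)

omit f hQ hf in
lemma scale_bounds : 2 ^ 37 ≤ scale Q q ∧ scale Q q * scale Q q * 2 ^ 24 ≤ Q ∧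
    2 ^ 40 * scale Q q ≤ q * q ∧ 2 ^ 24 * scale Q q ≤ Q := by
  have hq := hS.big
  have hlo := hS.lo
  have hlog := hS.log_small
  have hlg : 1 ≤ lg Q := Nat.succ_pos _
  have hlg2 : lg Q ≤ lg Q ^ 2 := Nat.le_self_pow (by norm_num) _
  have h2 : scale Q q * scale Q q * 2 ^ 24 ≤ Q := by
    calc scale Q q * scale Q q * 2 ^ 24 = q * q * (2 ^ 98 * lg Q ^ 2) := by rw [scale]; ring
      _ ≤ q * q * q := Nat.mul_le_mul_left _
          (le_trans (Nat.mul_le_mul_right _ (by norm_num)) hlog)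
      _ = q ^ 3 := by ring
      _ ≤ Q := hlo
  refine ⟨Nat.le_mul_of_pos_right _ (Nat.mul_pos (by omega) hlg), h2, ?_, ?_⟩
  · calc 2 ^ 40 * scale Q q = q * (2 ^ 77 * lg Q) := by rw [scale]; ring
      _ ≤ q * (2 ^ 100 * lg Q ^ 2) :=
          Nat.mul_le_mul_left _ (Nat.mul_le_mul (by norm_num) hlg2)
      _ ≤ q * q := Nat.mul_le_mul_left _ hlog
  · exact le_trans (by rw [mul_comm]; exact Nat.mul_le_mul_right _ (Nat.le_mul_self _)) h2

/-- All but few classes of a small cover are lines through one point. -/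
theorem cover_stable {C : Finset (Cls Q q)} (hC : ∀ x : Point Q D, ∃ v ∈ C, InC f x v)
    (hsmall : C.card ≤ Q + q) :
    ∃ P, P ≠ Sum.inl ((0, 0) : ZMod Q × ZMod Q) ∧ (others C P).card ≤ 4 * scale Q q := by
  classical
  set N := D.S.card with hN
  set a := q * lg Q with ha
  set K := scale Q q with hKd
  have hK : K = 2 ^ 37 * a := rfl
  obtain ⟨hK1, hKsq, -, hKQ⟩ : 2 ^ 37 ≤ K ∧ K * K * 2 ^ 24 ≤ Q ∧ 2 ^ 40 * K ≤ q * q ∧
    2 ^ 24 * K ≤ Q := scale_bounds hS
  have hN26 : q * q ≤ 2 ^ 26 * N := N_ge f hQ hS hf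
  have hhi := hS.hi
  have hq := hS.big
  have hqa : q ≤ a := Nat.le_mul_of_pos_right _ (Nat.succ_pos _)
  have hA : err Q ≤ 2 ^ 31 * a * N := by
    calc err Q = 16 * Q * lg Q := rfl
      _ ≤ 16 * (2 * q ^ 3) * lg Q := Nat.mul_le_mul_right _ (Nat.mul_le_mul_left _ hhi)
      _ = 32 * a * (q * q) := by rw [ha]; ring
      _ ≤ 32 * a * (2 ^ 26 * N) := Nat.mul_le_mul_left _ hN26
      _ = _ := by ring
  set Ls := univ.filter (fun L : Option (ZMod Q) × ZMod Q => lineCls L ∈ C ∧ L.2 ≠ 0) with hLs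
  set E := C \ Ls.image lineCls with hE
  have hEl : E.card + Ls.card ≤ Q + q := by
    have hsub : Ls.image lineCls ⊆ C := image_subset_iff.2 fun L hL => (mem_filter.1 hL).2.1
    have := card_sdiff_add_card_eq_card hsub
    rw [card_image_of_injective _ lineCls_inj, ← hE] at this
    omega
  have hl2 : Ls.card ≤ 2 * Q := by omega
  have hunc : 64 * (uncInl f Ls).card ≤ E.card * N := by
    have hsub : uncInl f Ls ⊆ E.biUnion fun v => inlIn f v := by
      intro z hz
      obtain ⟨v, hv, hzv⟩ := hC (Sum.inl z)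
      refine mem_biUnion.2 ⟨v, mem_sdiff.2 ⟨hv, fun h => ?_⟩, mem_filter.2 ⟨mem_univ _, hzv⟩⟩
      obtain ⟨L, hL, rfl⟩ := mem_image.1 h
      exact (mem_filter.1 hz).2 L hL ((inC_line f).1 hzv).1
    refine (Nat.mul_le_mul_left _ ((card_le_card hsub).trans card_biUnion_le)).trans ?_
    rw [mul_sum]
    refine (sum_le_sum fun v hv => inlIn_small f hQ hS hf fun L hL e => ?_).trans
      (by rw [sum_const, smul_eq_mul])
    exact (mem_sdiff.1 hv).2 (mem_image.2 ⟨L, mem_filter.2 ⟨mem_univ _,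
      e ▸ (mem_sdiff.1 hv).1, hL⟩, e.symm⟩)
  have hcov : Q * Q ≤ (univ.filter fun p => ∃ L ∈ Ls, On L p).card
      + (uncPos Ls).card + 11 * Q := by
    have hsub : (univ : Finset (ZMod Q × ZMod Q)) ⊆ (univ.filter fun p => ∃ L ∈ Ls, On L p)
        ∪ (uncPos Ls).image (fun z => ptOn z.1 z.2)
        ∪ (insert (0, 0) ((univ : Finset (Fin 4)).image ctr)
          ∪ (univ : Finset (Fin 10)).biUnion fun n => univ.filter fun p => On (aux n) p) := by
      intro p _
      simp only [mem_union, mem_insert, mem_image, mem_biUnion, mem_filter, mem_univ, true_and]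
      by_cases h1 : ∃ L ∈ Ls, On L p
      · exact Or.inl (Or.inl h1)
      by_cases h0 : p = (0, 0)
      · exact Or.inr (Or.inl (Or.inl h0))
      by_cases h2 : ∃ j, ctr j = p
      · exact Or.inr (Or.inl (Or.inr h2))
      by_cases h3 : ∃ n, On (aux n) p
      · exact Or.inr (Or.inr h3)
      push Not at h1 h2 h3
      obtain ⟨t, ht⟩ := eq_ptOn (ic_dir p)
      refine Or.inl (Or.inr ⟨⟨dir p, t⟩, ?_, ht.symm⟩)
      simp only [uncPos, dom, mem_filter, mem_sigma, mem_univ, true_and]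
      refine ⟨⟨?_, fun j => ht ▸ (h2 j).symm, fun n => ht ▸ h3 n⟩, fun L hL => ht ▸ h1 L hL⟩
      rintro rfl
      apply h0
      rw [ht]
      cases dir p <;> simp [ptOn]
    have h := card_le_card hsub
    rw [card_univ, Fintype.card_prod, ZMod.card] at h
    refine h.trans ((card_union_le _ _).trans (add_le_add ((card_union_le _ _).trans
      (add_le_add le_rfl card_image_le)) ?_))
    refine (card_union_le _ _).trans (le_trans (add_le_add
      ((card_insert_le _ _).trans (Nat.succ_le_succ card_image_le))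
      (card_biUnion_le.trans (sum_le_sum fun n _ => (card_line (aux n)).le))) ?_)
    simp only [card_univ, Fintype.card_fin, sum_const, smul_eq_mul, ZMod.card]
    omega
  have hex := excess_add Ls
  rw [ZMod.card] at hex
  set U := (uncPos Ls).card with hU
  set cov := (univ.filter fun p => ∃ L ∈ Ls, On L p).card with hcovdef
  have hU1 : 64 * U ≤ 6 * Q * (E.card + 2 ^ 37 * a) := by
    have h1 := hf.union Ls hl2
    have hN1 : 0 < N := N_pos f hQ hS hf
    refine le_of_mul_le_mul_left (a := N) ?_ hN1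
    calc N * (64 * U) = 64 * (N * U) := by ring
      _ ≤ 64 * (6 * Q * ((uncInl f Ls).card + err Q)) := Nat.mul_le_mul_left _ h1
      _ = 6 * Q * (64 * (uncInl f Ls).card + 64 * err Q) := by ring
      _ ≤ 6 * Q * (E.card * N + 64 * (2 ^ 31 * a * N)) :=
          Nat.mul_le_mul_left _ (add_le_add hunc (Nat.mul_le_mul_left _ hA))
      _ = _ := by ring
  have hlQ : Ls.card * Q + E.card * Q ≤ Q * Q + q * Q := by
    rw [← add_mul, ← add_mul, add_comm]; exact Nat.mul_le_mul_right _ hEl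
  have hEa : E.card ≤ 2 ^ 36 * a := by
    by_contra h
    have h1 : E.card * Q ≤ q * Q + U + 11 * Q := by omega
    have h2 : 64 * E.card ≤ 64 * q + 704 + 6 * (E.card + 2 ^ 37 * a) := by
      refine le_of_mul_le_mul_right (a := Q) ?_ (by omega)
      linarith
    omega
  have hUa : U ≤ 2 ^ 35 * a * Q := by
    have : 6 * Q * (E.card + 2 ^ 37 * a) ≤ 6 * Q * (2 ^ 36 * a + 2 ^ 37 * a) :=
      Nat.mul_le_mul_left _ (Nat.add_le_add_right hEa _)
    linarith [Nat.zero_le (a * Q)]
  have hX : excess Ls ≤ K * Q := by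
    have : (q + 2 ^ 35 * a + 11) * Q ≤ K * Q := Nat.mul_le_mul_right _ (by omega)
    linarith [Nat.zero_le (E.card * Q)]
  have hlK : Q ≤ Ls.card + K := by
    refine le_of_mul_le_mul_right (a := Q) ?_ (by omega)
    have : (2 ^ 35 * a + 11) * Q ≤ K * Q := Nat.mul_le_mul_right _ (by omega)
    linarith [Nat.zero_le (excess Ls)]
  obtain ⟨P, hP1, hP2⟩ := stability Ls
  set H := deg Ls P with hH
  set n' := Ls.card - H with hn'
  have hHl : H ≤ Ls.card := card_filter_le _ _
  have hl1 : 1 ≤ Ls.card := by omega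
  obtain ⟨l', hl'⟩ : ∃ l', Ls.card = l' + 1 := ⟨Ls.card - 1, by omega⟩
  have hsub1 : Ls.card - 1 = l' := by omega
  rw [hsub1] at hP1
  have hH4 : Q ≤ 4 * K * H := by
    refine le_of_mul_le_mul_right (a := Q) ?_ (by omega)
    have h1 : H * (excess Ls + Ls.card) ≤ H * (2 * (K * Q)) := by
      refine Nat.mul_le_mul_left _ ?_
      have : 2 * Q ≤ K * Q := Nat.mul_le_mul_right _ (by omega)
      omega
    have h2 : (3 * Q) * (3 * Q) ≤ (4 * Ls.card) * (4 * l') :=
      Nat.mul_le_mul (by omega) (by omega)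
    have h3 := hP1.trans h1
    linarith [Nat.zero_le (Q * Q)]
  have hn8 : n' ≤ 8 * (K * K) := by
    refine le_of_mul_le_mul_right (a := Q) ?_ (by omega)
    obtain ⟨H', hH'⟩ : ∃ H', H = H' + 1 := ⟨H - 1, by
      rcases Nat.eq_zero_or_pos H with h | h
      · simp [h] at hH4; omega
      · omega⟩
    rw [show deg Ls P - 1 = H' by omega] at hP2
    have h1 : Q ≤ 8 * K * H' := by
      rw [hH'] at hH4
      linarith
    calc n' * Q ≤ n' * (8 * K * H') := Nat.mul_le_mul_left _ h1
      _ = 8 * K * (n' * H') := by ring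
      _ ≤ 8 * K * (K * Q) := Nat.mul_le_mul_left _ (hP2.trans hX)
      _ = _ := by ring
  have hn2 : n' ≤ 2 * K + 2 := by
    have hH2 : Q ≤ 2 * (H - 1) := by omega
    refine le_trans ?_ (Nat.le_add_right _ _)
    refine le_of_mul_le_mul_right (a := Q) ?_ (by omega)
    calc n' * Q ≤ n' * (2 * (H - 1)) := Nat.mul_le_mul_left _ hH2
      _ = 2 * (n' * (H - 1)) := by ring
      _ ≤ 2 * (K * Q) := Nat.mul_le_mul_left _ (hP2.trans hX)
      _ = _ := by ring
  have hO : (others C P).card ≤ 4 * K := by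
    have hsub : others C P ⊆ E ∪ (Ls.filter fun L => ¬ Thru P L).image lineCls := by
      intro v hv
      obtain ⟨hvC, hvP⟩ := mem_sdiff.1 hv
      by_cases h : v ∈ Ls.image lineCls
      · obtain ⟨L, hL, rfl⟩ := mem_image.1 h
        exact mem_union_right _ (mem_image.2 ⟨L, mem_filter.2 ⟨hL, fun hT => hvP (mem_image.2
          ⟨L, mem_filter.2 ⟨mem_univ _, hT, (mem_filter.1 hL).2.2⟩, rfl⟩)⟩, rfl⟩)
      · exact mem_union_left _ (mem_sdiff.2 ⟨hvC, h⟩)
    have hoff := card_filter_add_card_filter_not (s := Ls) (Thru P)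
    have h := (card_le_card hsub).trans ((card_union_le _ _).trans
      (add_le_add le_rfl card_image_le))
    have : H = (Ls.filter (Thru P)).card := rfl
    omega
  have hPO : P ≠ Sum.inl ((0, 0) : ZMod Q × ZMod Q) := by
    rintro rfl
    have : H = 0 := by
      rw [hH, deg, card_eq_zero, filter_eq_empty_iff]
      intro L hL h
      exact (mem_filter.1 hL).2.2 (h.symm.trans (ic_origin _))
    simp [this] at hH4
    omega
  exact ⟨P, hPO, hO⟩

/-- An auxiliary line of the pencil belongs to the cover. -/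
theorem missing_not_aux {C : Finset (Cls Q q)} (hC : ∀ x : Point Q D, ∃ v ∈ C, InC f x v)
    {P : (ZMod Q × ZMod Q) ⊕ Option (ZMod Q)} (hO : (others C P).card ≤ 4 * scale Q q) :
    ∀ L ∈ missing C P, ∀ n, L ≠ aux n := by
  classical
  obtain ⟨hK1, -, -, hKQ⟩ := scale_bounds (Q := Q) hS
  intro L hL n hn
  subst hn
  have hL2 : (aux (Q := Q) n).2 ≠ 0 := (mem_filter.1 (mem_filter.1 hL).1).2.2
  let Ys := univ.filter fun y : ZMod Q × ZMod Q => On (aux n) y ∧ P ≠ Sum.inl y ∧
    dir y ≠ dir (ctr (0 : Fin 4))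
  have hY : Q ≤ Ys.card + 2 := by
    have hsub : (univ.filter fun y => On (aux (Q := Q) n) y) ⊆ Ys
        ∪ ((univ.filter fun y => On (aux n) y ∧ P = Sum.inl y)
          ∪ univ.filter fun y => On (aux n) y ∧ dir y = dir (ctr (0 : Fin 4))) := by
      intro y hy
      simp only [Ys, mem_union, mem_filter, mem_univ, true_and] at hy ⊢
      tauto
    have h := card_le_card hsub
    rw [card_line, ZMod.card] at h
    refine h.trans ((card_union_le _ _).trans (add_le_add le_rfl
      ((card_union_le _ _).trans (add_le_add (card_le_one.2 ?_) (card_le_one.2 ?_)))))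
    · intro a ha b hb
      exact Sum.inl.inj ((mem_filter.1 ha).2.2.symm.trans (mem_filter.1 hb).2.2)
    · intro a ha b hb
      obtain ⟨ha1, ha2⟩ := (mem_filter.1 ha).2
      obtain ⟨hb1, hb2⟩ := (mem_filter.1 hb).2
      exact point_unique (L := (dir a, 0)) (fun e : ((dir a, 0) : Option (ZMod Q) × ZMod Q)
        = aux n => hL2 (e ▸ rfl)) (ic_dir _)
        (show ic _ _ = 0 by rw [ha2, ← hb2]; exact ic_dir _) ha1 hb1
  have hg : ∀ y ∈ Ys, ∃ g : Gad Q, g.1.2 = y ∧ g.1.1 ≠ aux n := by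
    intro y hy
    obtain ⟨hy1, -, hy3⟩ := (mem_filter.1 hy).2
    obtain ⟨σ, hσ⟩ := line_exists (p := y) (p' := ctr (0 : Fin 4))
      (fun e => aux_ctr hQ n 0 (e ▸ hy1))
    refine ⟨⟨((σ, ic σ y), y), ?_, ⟨0, hσ.symm⟩, rfl, n, hy1⟩, rfl, ?_⟩
    · intro e
      have h1 := dir_unique (fun h => aux_origin hQ n (h ▸ hy1)) (show ic σ y = 0 from e)
      have h2 := dir_unique (ctr_ne hQ 0) (show ic σ (ctr (0 : Fin 4)) = 0 by rw [← hσ]; exact e)
      exact hy3 (h1.trans h2.symm)
    · intro e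
      exact aux_ctr hQ n 0 (e ▸ (hσ.symm : ic σ (ctr (0 : Fin 4)) = ic σ y))
  have hcount : Ys.card ≤ (others C P).card * 2 := by
    let G : Cls Q q → Finset (Gad Q) := fun v => univ.filter fun g =>
      g.1.2 ∈ Ys ∧ g.1.1 ≠ aux n ∧ InC f (Sum.inr g) v
    have hsub : Ys ⊆ (others C P).biUnion fun v => (G v).image fun g => g.1.2 := by
      intro y hy
      obtain ⟨g, hg1, hg2⟩ := hg y hy
      obtain ⟨v, hv, hgv⟩ := hC (Sum.inr g)
      obtain ⟨hy1, hy2, -⟩ := (mem_filter.1 hy).2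
      refine mem_biUnion.2 ⟨v, ?_, mem_image.2
        ⟨g, mem_filter.2 ⟨mem_univ _, hg1 ▸ hy, hg2, hgv⟩, hg1⟩⟩
      exact mem_others f hQ hL (x := Sum.inr g) (show On (aux n) g.1.2 from hg1 ▸ hy1)
        (show P ≠ Sum.inl g.1.2 from hg1 ▸ hy2) hv hgv
    refine ((card_le_card hsub).trans card_biUnion_le).trans ?_
    refine (sum_le_sum fun v hv => gad_positions f hQ (v := v) (L := aux n) ?_ hL2 (G v) ?_ ?_).trans
      (by rw [sum_const, smul_eq_mul])
    · intro e
      exact (mem_filter.1 hL).2 (e ▸ (mem_sdiff.1 hv).1)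
    · intro g hg'
      obtain ⟨-, h1, h2, h3⟩ := mem_filter.1 hg'
      exact ⟨h3, (mem_filter.1 h1).2.1⟩
    · exact fun σ c _ g hg' => (mem_filter.1 hg').2.2.1
  omega

/-- The structure of a small cover. -/
theorem core {C : Finset (Cls Q q)} (hC : ∀ x : Point Q D, ∃ v ∈ C, InC f x v)
    (hsmall : C.card ≤ Q + q) :
    ∃ P, P ≠ Sum.inl ((0, 0) : ZMod Q × ZMod Q) ∧
      (∀ L ∈ missing C P, ∀ n, L ≠ aux n) ∧ (missing C P).card ≤ 2 ^ 22 ∧
      (others C P).card + (pencil P).card ≤ Q + q + (missing C P).card := by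
  classical
  obtain ⟨P, hPO, hO⟩ := cover_stable f hQ hS hf hC hsmall
  have haux := missing_not_aux f hQ hS hf hC hO
  have hq := hS.big
  set N := D.S.card with hN
  set K := scale Q q with hKd
  obtain ⟨hK1, -, hKN', -⟩ : 2 ^ 37 ≤ K ∧ K * K * 2 ^ 24 ≤ Q ∧ 2 ^ 40 * K ≤ q * q ∧
    2 ^ 24 * K ≤ Q := scale_bounds hS
  have hN26 : q * q ≤ 2 ^ 26 * N := N_ge f hQ hS hf
  have hKN : 2 ^ 40 * K ≤ 2 ^ 26 * N := hKN'.trans hN26
  have hsum := others_card C P
  have hμ0 : (others C P).card + (pencil P).card ≤ Q + q + (missing C P).card := by omega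
  have hpen : Q ≤ (pencil P).card + 1 := by
    rcases P with p | σ
    · rw [pencil_card_inl hQ (fun e => hPO (by rw [e]))]; omega
    · rw [pencil_card_inr hQ σ]
  have hO2 : (others C P).card ≤ q + 1 + (missing C P).card := by omega
  refine ⟨P, hPO, haux, ?_, hμ0⟩
  -- the number of missing lines
  set μ := (missing C P).card with hμ
  let Z := fun L : Option (ZMod Q) × ZMod Q => univ.filter fun z : Option (ZMod Q) × ↥D.S =>
    On L (ptOn z.1 (f z.1 z.2).1) ∧ P ≠ Sum.inl (ptOn z.1 (f z.1 z.2).1)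
  let W := fun (v : Cls Q q) L => (Z L).filter fun z => InC f (Sum.inl z) v
  have hrich : ∀ L ∈ missing C P, N ≤ 8 * (Z L).card + 8 := by
    intro L hL
    have hL2 := (mem_filter.1 (mem_filter.1 hL).1).2.2
    refine (hf.rich L hL2 (haux L hL)).trans ?_
    have hsub : (univ.filter fun z : Option (ZMod Q) × ↥D.S => On L (ptOn z.1 (f z.1 z.2).1))
        ⊆ Z L ∪ univ.filter (fun z => On L (ptOn z.1 (f z.1 z.2).1) ∧
          P = Sum.inl (ptOn z.1 (f z.1 z.2).1)) := by
      intro z hz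
      simp only [Z, mem_union, mem_filter, mem_univ, true_and] at hz ⊢
      tauto
    have h1 : (univ.filter fun z : Option (ZMod Q) × ↥D.S => On L (ptOn z.1 (f z.1 z.2).1) ∧
        P = Sum.inl (ptOn z.1 (f z.1 z.2).1)).card ≤ 1 := by
      refine card_le_one.2 fun z hz w hw => ?_
      obtain ⟨hz1, hz2⟩ := (mem_filter.1 hz).2
      obtain ⟨hw1, hw2⟩ := (mem_filter.1 hw).2
      refine inl_on_unique f hQ hL2 ?_ hz1 hw1
      have := congrArg dir (Sum.inl.inj (hz2.symm.trans hw2))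
      rwa [dir_inl f hQ, dir_inl f hQ] at this
    have := (card_le_card hsub).trans (card_union_le _ _)
    omega
  have hcover : ∀ L ∈ missing C P, (Z L).card ≤ ∑ v ∈ others C P, (W v L).card := by
    intro L hL
    refine le_trans (card_le_card ?_) card_biUnion_le
    intro z hz
    obtain ⟨v, hv, hzv⟩ := hC (Sum.inl z)
    obtain ⟨hz1, hz2⟩ := (mem_filter.1 hz).2
    exact mem_biUnion.2 ⟨v, mem_others f hQ hL (x := Sum.inl z) hz1 hz2 hv hzv,
      mem_filter.2 ⟨hz, hzv⟩⟩
  have htotal : μ * N ≤ 8 * ∑ v ∈ others C P, ∑ L ∈ missing C P, (W v L).card + 8 * μ := by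
    rw [sum_comm, mul_sum, hμ, ← smul_eq_mul, ← sum_const]
    refine (sum_le_sum (g := fun L => 8 * (∑ v ∈ others C P, (W v L).card) + 8) fun L hL =>
      (hrich L hL).trans (by have := hcover L hL; omega)).trans (le_of_eq ?_)
    rw [sum_add_distrib, sum_const, smul_eq_mul]
    ring
  have hWle : ∀ v L, W v L ⊆ hitSet f v L := by
    intro v L z hz
    obtain ⟨h1, h2⟩ := mem_filter.1 hz
    exact mem_filter.2 ⟨mem_univ _, h2, (mem_filter.1 h1).2.1⟩
  have hnl : ∀ v ∈ others C P, ∀ L ∈ missing C P, v ≠ lineCls L := fun v hv L hL e =>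
    (mem_filter.1 hL).2 (e ▸ (mem_sdiff.1 hv).1)
  have hμq : μ ≤ q := by
    have hper : ∀ v ∈ others C P, 64 * ∑ L ∈ missing C P, (W v L).card ≤ N + 64 * μ := by
      intro v hv
      by_cases hline : ∀ L : Option (ZMod Q) × ZMod Q, L.2 ≠ 0 → v ≠ lineCls L
      · refine le_trans (Nat.mul_le_mul_left _ ?_)
          ((inlIn_small f hQ hS hf hline).trans (Nat.le_add_right _ _))
        rw [← card_biUnion]
        · refine card_le_card fun z hz => ?_
          obtain ⟨L, -, hz'⟩ := mem_biUnion.1 hz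
          exact mem_filter.2 ⟨mem_univ _, (mem_filter.1 hz').2⟩
        · intro L hL M hM hne
          rw [Function.onFun, disjoint_left]
          intro z hz hz'
          obtain ⟨h1, h2⟩ := (mem_filter.1 (mem_filter.1 hz).1).2
          obtain ⟨h1', -⟩ := (mem_filter.1 (mem_filter.1 hz').1).2
          exact h2 (card_le_one.1 (pair_unique hne).le P
            (mem_filter.2 ⟨mem_univ _, (mem_filter.1 (mem_filter.1 hL).1).2.1,
              (mem_filter.1 (mem_filter.1 hM).1).2.1⟩)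
            (Sum.inl (ptOn z.1 (f z.1 z.2).1)) (mem_filter.2 ⟨mem_univ _, h1, h1'⟩))
      · push Not at hline
        obtain ⟨M, hM0, rfl⟩ := hline
        refine le_trans ?_ (Nat.le_add_left _ _)
        refine Nat.mul_le_mul_left _ ((sum_le_sum (g := fun _ => 1) fun L hL => ?_).trans (by simp [hμ]))
        have hne : M ≠ L := fun e => hnl _ hv L hL (by rw [e])
        refine (card_le_card (hWle _ _)).trans (card_le_one.2 fun z hz w hw => ?_)
        obtain ⟨-, hz1, hz2⟩ := mem_filter.1 hz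
        obtain ⟨-, hw1, hw2⟩ := mem_filter.1 hw
        have e := congrArg dir
          (point_unique hne ((inC_line f).1 hz1).1 ((inC_line f).1 hw1).1 hz2 hw2)
        simp only [posn, dir_inl f hQ] at e
        exact inl_on_unique f hQ (mem_filter.1 (mem_filter.1 hL).1).2.2 e hz2 hw2
    have h := sum_le_sum hper
    rw [← mul_sum, sum_const, smul_eq_mul, mul_add] at h
    have h2 : (others C P).card * N ≤ (q + 1 + μ) * N := Nat.mul_le_mul_right _ hO2
    have h3 : (others C P).card * (64 * μ) ≤ 4 * K * (64 * μ) := Nat.mul_le_mul_right _ hO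
    have h4 : μ * (2 ^ 40 * K) ≤ μ * (2 ^ 26 * N) := Nat.mul_le_mul_left _ hKN
    have h5 : μ * 2 ^ 37 ≤ μ * K := Nat.mul_le_mul_left _ hK1
    by_contra hcon
    have h6 : (q + 1) * N ≤ μ * N := Nat.mul_le_mul_right _ (by omega)
    have h7 : 0 < μ * N := Nat.mul_pos (by omega) (N_pos f hQ hS hf)
    linarith
  have hper : ∀ v ∈ others C P, ∑ L ∈ missing C P, (W v L).card ≤ 43 * μ + (q / 2 ^ 11 + 2) := by
    intro v hv
    have hb : ∀ L ∈ missing C P, (W v L).card
        ≤ 43 + if IsStar (D := D) v L then q / 2 ^ 11 + 2 else 0 := by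
      intro L hL
      have hL2 := (mem_filter.1 (mem_filter.1 hL).1).2.2
      refine (card_le_card (hWle v L)).trans ?_
      split_ifs with hs
      · exact (hit_any f hQ hS hf hL2 (hnl v hv L hL)).trans (Nat.le_add_left _ _)
      · exact hit_nonstar f hQ hS hf hL2 (hnl v hv L hL) hs
    refine (sum_le_sum hb).trans ?_
    rw [sum_add_distrib, sum_const, smul_eq_mul, ← sum_filter, sum_const, smul_eq_mul]
    refine add_le_add (by rw [mul_comm, hμ]) ?_
    calc _ ≤ 1 * (q / 2 ^ 11 + 2) := Nat.mul_le_mul_right _ (card_le_one.2 fun L hL M hM =>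
          star_unique hQ (mem_filter.1 hL).2 (mem_filter.1 hM).2)
      _ = _ := one_mul _
  have h := sum_le_sum hper
  rw [sum_const, smul_eq_mul] at h
  have hO3 : (others C P).card ≤ 3 * q := by omega
  have h2 : (others C P).card * (43 * μ + (q / 2 ^ 11 + 2))
      ≤ 3 * q * (43 * μ + (q / 2 ^ 11 + 2)) := Nat.mul_le_mul_right _ hO3
  have hdiv : (q / 2 ^ 11 + 2) * 2 ^ 11 ≤ 2 * q := by
    have := Nat.div_mul_le_self q (2 ^ 11)
    have h' : 2 * 2 ^ 11 ≤ q := le_trans (by norm_num) hq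
    linarith
  have h3 : q * ((q / 2 ^ 11 + 2) * 2 ^ 11) ≤ q * (2 * q) := Nat.mul_le_mul_left _ hdiv
  have h4 : μ * (q * 2 ^ 64) ≤ μ * (q * q) :=
    Nat.mul_le_mul_left _ (Nat.mul_le_mul_left _ hq)
  have h5 : μ * (q * q) ≤ μ * (2 ^ 26 * N) := Nat.mul_le_mul_left _ hN26
  have h6 : μ * 1 ≤ μ * q := Nat.mul_le_mul_left _ (by omega)
  by_contra hcon
  have h7 : (2 ^ 22 + 1) * (2 ^ 26 * N) ≤ μ * (2 ^ 26 * N) := Nat.mul_le_mul_right _ (by omega)
  have h8 : 0 < N := N_pos f hQ hS hf
  linarith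

end Facts

end Vale.Agent.P045
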