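import Vale.Agent.P045.Core

set_option linter.unusedSectionVars false

/-! No cover has at most `Q + q` classes. -/

namespace Vale.Agent.P045

open Finset

variable {Q q : ℕ} [Fact Q.Prime] [Fact q.Prime] {D : Small q} (f : Pos Q D)

/-- The direction attached to a point of the projective closure. -/
def baseDir : (ZMod Q × ZMod Q) ⊕ Option (ZMod Q) → Option (ZMod Q)
  | Sum.inl p => dir p
  | Sum.inr σ => σ

lemma thru_base (P : (ZMod Q × ZMod Q) ⊕ Option (ZMod Q)) :
    Thru P (baseDir P, (0 : ZMod Q)) := by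
  cases P with
  | inl p => exact ic_dir p
  | inr σ => rfl

lemma center_eq {P : (ZMod Q × ZMod Q) ⊕ Option (ZMod Q)} {L M : Option (ZMod Q) × ZMod Q}
    (hne : L ≠ M) (hL : Thru P L) (hM : Thru P M) {y : ZMod Q × ZMod Q} (hyL : On L y)
    (hyM : On M y) : P = Sum.inl y :=
  card_le_one.1 (pair_unique hne).le P (mem_filter.2 ⟨mem_univ _, hL, hM⟩) (Sum.inl y)
    (mem_filter.2 ⟨mem_univ _, hyL, hyM⟩)

lemma base_ne {σ : Option (ZMod Q)} {L : Option (ZMod Q) × ZMod Q} (hL : L.2 ≠ 0) :
    ((σ, 0) : Option (ZMod Q) × ZMod Q) ≠ L := fun e => hL (e ▸ rfl)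

open Classical in
/-- The class that covers a line of the small plane on the line through the origin. -/
noncomputable def sv (σ : Option (ZMod Q)) : Option (ZMod q) × ZMod q → Cls Q q
  | (none, u) => pieceCls σ u
  | (some k, b) => Sum.inr (k, rep f k (σ, b))

section Facts

variable (hQ : 1000 ≤ Q)
include hQ

lemma sv_inj (σ : Option (ZMod Q)) : Function.Injective (sv f σ) := by
  rintro ⟨_ | k, b⟩ ⟨_ | k', b'⟩ h
  · simp only [sv, pieceCls, Sum.inl.injEq, Prod.mk.injEq, Sum.inr.injEq, true_and] at h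
    rw [h]
  · simp [sv, pieceCls] at h
  · simp [sv, pieceCls] at h
  · simp only [sv, Sum.inr.injEq, Prod.mk.injEq] at h
    obtain ⟨rfl, h⟩ := h
    rw [rep_inj_dir f hQ h]

lemma gad_points (L : Option (ZMod Q) × ZMod Q) (hL : L.2 ≠ 0) (hj : ∃ j, On L (ctr j)) :
    5 ≤ (univ.filter fun g : Gad Q => g.1.1 = L).card := by
  classical
  obtain ⟨j, hj'⟩ := hj
  let I := univ.filter fun n : Fin 10 => (some (auxS n) : Option (ZMod Q)) ≠ L.1
  have hI : 9 ≤ I.card := by
    have h1 : (univ.filter fun n : Fin 10 => ¬ (some (auxS n) : Option (ZMod Q)) ≠ L.1).card ≤ 1 :=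
      card_le_one.2 fun a ha b hb => by
        simp only [mem_filter, not_not] at ha hb
        exact auxS_inj hQ (Option.some.inj (ha.2.trans hb.2.symm))
    have h2 := card_filter_add_card_filter_not (s := (univ : Finset (Fin 10)))
      (fun n => (some (auxS n) : Option (ZMod Q)) ≠ L.1)
    simp only [card_univ, Fintype.card_fin] at h2
    simp only [I]
    omega
  have hex : ∀ n ∈ I, ∃ y, On L y ∧ On (aux n) y := fun n hn =>
    meet_exists (Ne.symm (mem_filter.1 hn).2) L.2 (auxS n ^ 2)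
  choose! g hg using hex
  have himg : I.image g ⊆ (univ.filter fun g' : Gad Q => g'.1.1 = L).image fun g' => g'.1.2 := by
    intro y hy
    obtain ⟨n, hn, rfl⟩ := mem_image.1 hy
    exact mem_image.2 ⟨⟨(L, g n), hL, ⟨j, hj'⟩, (hg n hn).1, n, (hg n hn).2⟩,
      mem_filter.2 ⟨mem_univ _, rfl⟩, rfl⟩
  have hfib : I.card ≤ 2 * (I.image g).card := by
    refine card_le_mul_card_image _ _ fun y _ => ?_
    by_contra hlt
    obtain ⟨a, b, c, ha, hb, hc, hab, hac, hbc⟩ := two_lt_card_iff.1 (not_le.1 hlt)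
    simp only [mem_filter] at ha hb hc
    exact aux_three hQ hab hac hbc (ha.2 ▸ (hg a ha.1).2) (hb.2 ▸ (hg b hb.1).2)
      (hc.2 ▸ (hg c hc.1).2)
  have := (card_le_card himg).trans card_image_le
  omega

lemma gad_pos_inj {g g' : Gad Q} (h : g.1.1 = g'.1.1) (h' : g.1.2 = g'.1.2) : g = g' :=
  Subtype.ext (Prod.ext h h')

/-- How a class of the family on the base line can hold a gadget point. -/
lemma fam_hit {P : (ZMod Q × ZMod Q) ⊕ Option (ZMod Q)} {g : Gad Q} (hT : Thru P g.1.1)
    (hP : P ≠ Sum.inl g.1.2) {M : Option (ZMod q) × ZMod q}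
    (h : InC f (Sum.inr g : Point Q D) (sv f (baseDir P) M)) :
    ∃ k b, M = (some k, b) ∧
      ((D.group k = some (kind g) ∧ ∃ l : ↥D.S,
          P = Sum.inl (ptOn (baseDir P) (f (baseDir P) l).1)) ∨
        (∃ a : Gad Q, k = D.spec (kind a, kind g) ∧ On a.1.1 g.1.2 ∧ a.1.1 ≠ g.1.1 ∧
          dir a.1.2 = baseDir P ∧ b = blk k (lam (kind a))) ∨
        ∃ a : Gad Q, k = D.spec (kind g, kind a) ∧ On g.1.1 a.1.2 ∧ g.1.1 ≠ a.1.1 ∧
          P = Sum.inl a.1.2 ∧ b = blk k (lam (kind a))) := by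
  have hd : dir g.1.2 ≠ baseDir P := fun e =>
    hP (center_eq (base_ne g.2.1) (thru_base P) hT (show ic (baseDir P) g.1.2 = 0 from
      e ▸ ic_dir _) g.2.2.2.1)
  obtain ⟨_ | k, b⟩ := M
  · exact absurd ((inC_piece f).1 h).1 hd
  refine ⟨k, b, rfl, ?_⟩
  have h' : rep f k (compG k g) = rep f k (baseDir P, b) := (inC_blk f).1 h
  rcases rep_gad f hQ h' with hA | ⟨a, hk, hab, hne, hdd, hy⟩
  · rcases rep_cases f k (baseDir P, b) with h1 | h1
    · exact absurd (congrArg Prod.fst (hA.trans h1)) hd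
    · rw [← hA] at h1
      rcases h1 with ⟨a, l, hg, -, -, ha, hy⟩ | ⟨a, a', hk, hab, hne, -, hx, hy⟩
      · have hkg : kind g = kind a := by
          have e : blk k (lam (kind g)) = blk k (lam (kind a)) := (Prod.ext_iff.1 hy).2
          exact D.group_sep k _ hg _ _ e
        obtain rfl : g = a := gad_eq_of_dir hQ hkg (Prod.ext_iff.1 hy).1
        exact Or.inl ⟨hg, l, center_eq (base_ne g.2.1) (thru_base P) hT (ic_ptOn _ _) ha⟩
      · have hkg : kind g = kind a := by
          have e : blk k (lam (kind g)) = blk k (lam (kind a)) := (Prod.ext_iff.1 hy).2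
          rw [hk] at e
          exact D.spec_sep _ _ _ e
        obtain rfl : g = a := gad_eq_of_dir hQ hkg (Prod.ext_iff.1 hy).1
        have hx1 : baseDir P = dir a'.1.2 := (Prod.ext_iff.1 hx).1
        exact Or.inr (Or.inr ⟨a', hk, hab, hne, center_eq (base_ne g.2.1) (thru_base P) hT
          (show ic (baseDir P) a'.1.2 = 0 by rw [hx1]; exact ic_dir _) hab,
          (Prod.ext_iff.1 hx).2⟩)
  · rcases rep_cases f k (baseDir P, b) with h1 | h1
    · rw [h1] at hy
      exact Or.inr (Or.inl ⟨a, hk, hab, hne, (Prod.ext_iff.1 hy).1.symm, (Prod.ext_iff.1 hy).2⟩)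
    · rw [hy] at h1
      rcases h1 with ⟨a', l, hg, -⟩ | ⟨a', c, hk', hab', -, -, hx, hy'⟩
      · rw [hk, D.spec_group] at hg; exact absurd hg (by simp)
      · obtain ⟨-, rfl⟩ := link_spec_unique hQ hk hab hk' hab' hy'
        exact absurd (Prod.ext_iff.1 hx).1.symm hd

variable (hS : Sizes Q q) (hf : Good f)
include hS hf

open Classical in
/-- The classes of the small plane family inside the cover. -/
lemma family {C : Finset (Cls Q q)} (hC : ∀ x : Point Q D, ∃ v ∈ C, InC f x v)
    {P : (ZMod Q × ZMod Q) ⊕ Option (ZMod Q)} (hcard : (others C P).card + 1 ≤ q + slack) :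
    ∃ z, ∀ M, Thru z M → sv f (baseDir P) M ∈ others C P := by
  set σ := baseDir P with hσ
  let Ls := univ.filter fun M : Option (ZMod q) × ZMod q => sv f σ M ∈ others C P
  let Pts := D.S.filter fun l => ∀ M ∈ Ls, ¬ On M l
  have hcases : ∀ l : ↥D.S, l.1 ∈ Pts → P = Sum.inl (ptOn σ (f σ l).1) ∨
      ∃ M : Option (ZMod Q) × ZMod Q, (lineCls M : Cls Q q) ∈ others C P ∧ M.2 ≠ 0 ∧
        On M (ptOn σ (f σ l).1) := by
    intro l hl
    obtain ⟨-, hl2⟩ := mem_filter.1 hl
    by_cases hp : P = Sum.inl (ptOn σ (f σ l).1)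
    · exact Or.inl hp
    obtain ⟨v, hv, hlv⟩ := hC (Sum.inl (σ, l))
    have hvo : v ∈ others C P := by
      refine mem_sdiff.2 ⟨hv, fun h => ?_⟩
      obtain ⟨M, hM, rfl⟩ := mem_image.1 h
      exact hp (center_eq (base_ne (mem_filter.1 hM).2.2) (thru_base P) (mem_filter.1 hM).2.1
        (ic_ptOn σ _) ((inC_line f).1 hlv).1)
    rcases cls_types v with ⟨M, rfl⟩ | ⟨τ, u, rfl⟩ | ⟨τ, c, rfl⟩ | ⟨k, y, rfl⟩
    · refine Or.inr ⟨M, hvo, fun h0 => ?_, ((inC_line f).1 hlv).1⟩
      exact no_line_zero f hQ (σ := M.1) (by rwa [← h0])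
    · obtain ⟨h1, h2⟩ := (inC_piece f).1 hlv
      have hτ : τ = σ := h1.symm.trans (dir_inl f hQ σ l)
      subst hτ
      exact absurd h2 (hl2 (none, u) (mem_filter.2 ⟨mem_univ _, hvo⟩))
    · obtain ⟨g, h, -⟩ := inC_gad f hlv
      exact absurd h Sum.inl_ne_inr
    · obtain ⟨-, h⟩ := inl_mem_sigmas f hQ hS hf hlv
      exact absurd rfl (hl2 (some k, blk k l.1) (mem_filter.2 ⟨mem_univ _,
        show (Sum.inr (k, rep f k (σ, blk k l.1)) : Cls Q q) ∈ others C P by rw [h]; exact hvo⟩))
  have hcount : Ls.card + Pts.card ≤ (others C P).card + 1 := by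
    let P1 := (univ : Finset ↥D.S).filter fun l => l.1 ∈ Pts ∧ P = Sum.inl (ptOn σ (f σ l).1)
    let P2 := (univ : Finset ↥D.S).filter fun l => l.1 ∈ Pts ∧ P ≠ Sum.inl (ptOn σ (f σ l).1)
    have h0 : Pts.card ≤ P1.card + P2.card := by
      refine le_trans ?_ (card_union_le _ _)
      refine le_trans (card_le_card (t := (P1 ∪ P2).image fun l => l.1) ?_) card_image_le
      intro l hl
      refine mem_image.2 ⟨⟨l, (mem_filter.1 hl).1⟩, ?_, rfl⟩
      by_cases h : P = Sum.inl (ptOn σ (f σ ⟨l, (mem_filter.1 hl).1⟩).1)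
      · exact mem_union_left _ (mem_filter.2 ⟨mem_univ _, hl, h⟩)
      · exact mem_union_right _ (mem_filter.2 ⟨mem_univ _, hl, h⟩)
    have h1 : P1.card ≤ 1 := card_le_one.2 fun a ha b hb =>
      (f σ).injective (Subtype.ext (ptOn_injective σ (Sum.inl.inj
        ((mem_filter.1 ha).2.2.symm.trans (mem_filter.1 hb).2.2))))
    have hex : ∀ l ∈ P2, ∃ M : Option (ZMod Q) × ZMod Q,
        (lineCls M : Cls Q q) ∈ others C P ∧ M.2 ≠ 0 ∧ On M (ptOn σ (f σ l).1) := fun l hl =>
      (hcases l (mem_filter.1 hl).2.1).resolve_left (mem_filter.1 hl).2.2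
    choose! m hm using hex
    have h2 : P2.card + (Ls.image (sv f σ)).card ≤ (others C P).card := by
      have hsub : P2.image (fun l => (lineCls (m l) : Cls Q q)) ⊆ others C P \ Ls.image (sv f σ) := by
        intro v hv
        obtain ⟨l, hl, rfl⟩ := mem_image.1 hv
        refine mem_sdiff.2 ⟨(hm l hl).1, fun h => ?_⟩
        obtain ⟨⟨_ | k, b⟩, -, e⟩ := mem_image.1 h <;> simp [sv, pieceCls, lineCls] at e
      have hinj : Set.InjOn (fun l => (lineCls (m l) : Cls Q q)) (P2 : Set ↥D.S) := by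
        intro a ha b hb e
        have e' : m a = m b := lineCls_inj e
        have := point_unique (base_ne (σ := σ) (hm a ha).2.1) (ic_ptOn σ _) (ic_ptOn σ _)
          (hm a ha).2.2 (e' ▸ (hm b hb).2.2)
        exact (f σ).injective (Subtype.ext (ptOn_injective σ this))
      have := card_le_card hsub
      have hsub2 : Ls.image (sv f σ) ⊆ others C P :=
        image_subset_iff.2 fun M hM => (mem_filter.1 hM).2
      rw [card_image_of_injOn hinj, card_sdiff_of_subset hsub2] at this
      have hle := card_le_card hsub2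
      omega
    rw [card_image_of_injective _ (sv_inj f hQ σ)] at h2
    omega
  obtain ⟨z, hz⟩ := D.stable Ls Pts (hcount.trans hcard) fun l hl => by
    by_cases h : ∃ L ∈ Ls, On L l
    · exact Or.inl h
    · push Not at h
      exact Or.inr (mem_filter.2 ⟨hl, h⟩)
  exact ⟨z, fun M hM => (mem_filter.1 (hz M hM)).2⟩

open Classical in
/-- A missing line is the gadget line of the centre, whose label is the vertex of the family. -/
lemma exception {C : Finset (Cls Q q)} (hC : ∀ x : Point Q D, ∃ v ∈ C, InC f x v)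
    {P : (ZMod Q × ZMod Q) ⊕ Option (ZMod Q)} {z : (ZMod q × ZMod q) ⊕ Option (ZMod q)}
    (hz : ∀ M, Thru z M → sv f (baseDir P) M ∈ others C P)
    (hE : (others C P).card ≤ q + 2 ^ 22 + 1)
    {L : Option (ZMod Q) × ZMod Q} (hL : L ∈ missing C P) (hLa : ∀ n, L ≠ aux n) :
    ∃ a : Gad Q, a.1.1 = L ∧ P = Sum.inl a.1.2 ∧ z = Sum.inl (lam (kind a)) := by
  by_contra hno
  set σ := baseDir P with hσ
  have hLT := (mem_filter.1 (mem_filter.1 hL).1).2.1
  have hL2 := (mem_filter.1 (mem_filter.1 hL).1).2.2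
  let Fam := univ.filter fun M : Option (ZMod q) × ZMod q => Thru z M
  have hfam : Fam.image (sv f σ) ⊆ others C P :=
    image_subset_iff.2 fun M hM => hz M (mem_filter.1 hM).2
  have hFam : q ≤ Fam.card := by
    rcases z with zz | κ
    · simp only [Fam]; rw [card_thru_inl, ZMod.card]; omega
    · simp only [Fam]; rw [card_thru_inr, ZMod.card]
  let SF := Fam.filter fun M => IsStar (D := D) (sv f σ M) L
  have hSF : SF.card ≤ 11 := by
    let code : Option (ZMod q) × ZMod q → Option (Fin 10) := fun M =>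
      if h : ∃ a : Gad Q, ∃ k b, M = (some k, b) ∧ D.group k = some (kind a) ∧ a.1.1 = L ∧
          (σ, b) = compG k a then none
      else match M with
        | (some k, _) => (D.group k).map Prod.snd
        | (none, _) => none
    have hspec : ∀ M ∈ SF, ∃ a : Gad Q, ∃ k b, M = (some k, b) ∧ D.group k = some (kind a) ∧
        a.1.1 = L ∧ ((σ, b) = compG k a ∧ P = Sum.inl a.1.2 ∨
          ∃ l : ↥D.S, D.claim (kind a) l.1 = k ∧ b = blk k l.1 ∧
            P = Sum.inl (ptOn σ (f σ l).1)) := by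
      rintro ⟨_ | k, b⟩ hM <;> obtain ⟨k', a, hg, ha, e⟩ := (mem_filter.1 hM).2
      · simp [sv, pieceCls] at e
      simp only [sv, Sum.inr.injEq, Prod.mk.injEq] at e
      obtain ⟨rfl, e⟩ := e
      refine ⟨a, k, b, rfl, hg, ha, ?_⟩
      rcases rep_cases f k (σ, b) with h1 | h1
      · refine Or.inl ⟨h1.symm.trans e, ?_⟩
        have hd : σ = dir a.1.2 := congrArg Prod.fst (h1.symm.trans e)
        exact center_eq (base_ne hL2) (thru_base P) hLT
          (show ic σ a.1.2 = 0 by rw [hd]; exact ic_dir _) (ha ▸ a.2.2.2.1)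
      · rw [e] at h1
        rcases h1 with ⟨a', l, hg', hc, hx, hl, hy⟩ | ⟨a', a'', hk, -⟩
        · have hA : a = a' :=
            gad_eq_of_dir hQ (Option.some.inj (hg.symm.trans hg')) (Prod.ext_iff.1 hy).1
          subst hA
          exact Or.inr ⟨l, hc, hx,
            center_eq (base_ne hL2) (thru_base P) hLT (ic_ptOn σ _) (ha ▸ hl)⟩
        · rw [hk, D.spec_group] at hg; exact absurd hg (by simp)
    refine le_trans (card_le_card_of_injOn code (fun M _ => mem_univ _) ?_) (by simp)
    intro M hM M' hM' e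
    obtain ⟨a, k, b, rfl, hg, ha, hor⟩ := hspec M hM
    obtain ⟨a', k', b', rfl, hg', ha', hor'⟩ := hspec M' hM'
    simp only [code] at e
    split_ifs at e with h1 h2 h2
    · obtain ⟨c, k₁, b₁, he, hgc, hcL, hc⟩ := h1
      obtain ⟨c', k₂, b₂, he', hgc', hcL', hc'⟩ := h2
      simp only [Prod.mk.injEq, Option.some.injEq] at he he'
      obtain ⟨rfl, rfl⟩ := he
      obtain ⟨rfl, rfl⟩ := he'
      have hP : ∀ d : Gad Q, d.1.1 = L → σ = dir d.1.2 → P = Sum.inl d.1.2 := fun d hd hd' =>
        center_eq (base_ne hL2) (thru_base P) hLT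
          (show ic σ d.1.2 = 0 by rw [hd']; exact ic_dir _) (hd ▸ d.2.2.2.1)
      have hc1 := hP c hcL (Prod.ext_iff.1 hc).1
      have hc2 := hP c' hcL' (Prod.ext_iff.1 hc').1
      obtain rfl : c = c' := gad_pos_inj hQ (hcL.trans hcL'.symm) (Sum.inl.inj (hc1.symm.trans hc2))
      have hb : b = blk k (lam (kind c)) := (Prod.ext_iff.1 hc).2
      have hb' : b' = blk k' (lam (kind c)) := (Prod.ext_iff.1 hc').2
      have hT := (mem_filter.1 (mem_filter.1 hM).1).2
      have hT' := (mem_filter.1 (mem_filter.1 hM').1).2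
      rcases z with zz | κ
      · by_cases hk : k = k'
        · subst hk; rw [hb, hb']
        refine absurd ⟨c, hcL, hc1, congrArg Sum.inl ?_⟩ hno
        refine meet_unique (σ := some k) (τ := some k') (fun e => hk (Option.some.inj e)) ?_ ?_
        · exact hT.trans hb
        · exact hT'.trans hb'
      · have e1 : some k = κ := hT
        have e2 : some k' = κ := hT'
        obtain rfl : k = k' := Option.some.inj (e1.trans e2.symm)
        rw [hb, hb']
    · simp [hg'] at e
    · simp [hg] at e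
    · simp only [hg, hg', Option.map_some, Option.some.injEq] at e
      have hne : ∀ {a : Gad Q} {k b}, ¬ (∃ a : Gad Q, ∃ k' b', ((some k, b) :
          Option (ZMod q) × ZMod q) = (some k', b') ∧ D.group k' = some (kind a) ∧ a.1.1 = L ∧
          (σ, b') = compG k' a) → D.group k = some (kind a) → a.1.1 = L →
          ((σ, b) = compG k a ∧ P = Sum.inl a.1.2 ∨ ∃ l : ↥D.S, D.claim (kind a) l.1 = k ∧
            b = blk k l.1 ∧ P = Sum.inl (ptOn σ (f σ l).1)) →
          ∃ l : ↥D.S, D.claim (kind a) l.1 = k ∧ b = blk k l.1 ∧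
            P = Sum.inl (ptOn σ (f σ l).1) := fun hn hg ha ho =>
        ho.resolve_left fun h => hn ⟨_, _, _, rfl, hg, ha, h.1⟩
      obtain ⟨l, hc, hb, hP⟩ := hne h1 hg ha hor
      obtain ⟨l', hc', hb', hP'⟩ := hne h2 hg' ha' hor'
      obtain rfl : l = l' := (f σ).injective (Subtype.ext (ptOn_injective σ
        (Sum.inl.inj (hP.symm.trans hP'))))
      have hk : kind a = kind a' := Prod.ext (by show role a.1.1 = role a'.1.1; rw [ha, ha']) e
      rw [hb, hb', ← hc, ← hc', hk]
  let Z := univ.filter fun w : Option (ZMod Q) × ↥D.S =>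
    On L (ptOn w.1 (f w.1 w.2).1) ∧ P ≠ Sum.inl (ptOn w.1 (f w.1 w.2).1)
  have hrich : D.S.card ≤ 8 * Z.card + 8 := by
    refine (hf.rich L hL2 hLa).trans ?_
    have hsub : (univ.filter fun w : Option (ZMod Q) × ↥D.S => On L (ptOn w.1 (f w.1 w.2).1))
        ⊆ Z ∪ univ.filter (fun w => On L (ptOn w.1 (f w.1 w.2).1) ∧
          P = Sum.inl (ptOn w.1 (f w.1 w.2).1)) := by
      intro w hw
      simp only [Z, mem_union, mem_filter, mem_univ, true_and] at hw ⊢
      tauto
    have h1 : (univ.filter fun w : Option (ZMod Q) × ↥D.S => On L (ptOn w.1 (f w.1 w.2).1) ∧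
        P = Sum.inl (ptOn w.1 (f w.1 w.2).1)).card ≤ 1 := by
      refine card_le_one.2 fun w hw w' hw' => ?_
      obtain ⟨hw1, hw2⟩ := (mem_filter.1 hw).2
      obtain ⟨hw1', hw2'⟩ := (mem_filter.1 hw').2
      refine inl_on_unique f hQ hL2 ?_ hw1 hw1'
      have := congrArg dir (Sum.inl.inj (hw2.symm.trans hw2'))
      rwa [dir_inl f hQ, dir_inl f hQ] at this
    have := (card_le_card hsub).trans (card_union_le _ _)
    omega
  have hsum : Z.card ≤ ∑ v ∈ others C P, (hitSet f v L).card := by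
    refine le_trans (card_le_card ?_) card_biUnion_le
    intro w hw
    obtain ⟨v, hv, hwv⟩ := hC (Sum.inl w)
    obtain ⟨hw1, hw2⟩ := (mem_filter.1 hw).2
    exact mem_biUnion.2 ⟨v, mem_others f hQ hL (x := Sum.inl w) hw1 hw2 hv hwv,
      mem_filter.2 ⟨mem_univ _, hwv, hw1⟩⟩
  have hv : ∀ v ∈ others C P, (hitSet f v L).card
      ≤ 43 + if IsStar (D := D) v L then q / 2 ^ 11 + 2 else 0 := by
    intro v hv
    have hne : v ≠ lineCls L := fun e => (mem_filter.1 hL).2 (e ▸ (mem_sdiff.1 hv).1)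
    split_ifs with hs
    · exact (hit_any f hQ hS hf hL2 hne).trans (Nat.le_add_left _ _)
    · exact hit_nonstar f hQ hS hf hL2 hne hs
  have hstars : ((others C P).filter fun v => IsStar (D := D) v L).card ≤ 2 ^ 22 + 12 := by
    have hsub : ((others C P).filter fun v => IsStar (D := D) v L)
        ⊆ SF.image (sv f σ) ∪ (others C P \ Fam.image (sv f σ)) := by
      intro v hv
      obtain ⟨hv1, hv2⟩ := mem_filter.1 hv
      by_cases h : v ∈ Fam.image (sv f σ)
      · obtain ⟨M, hM, rfl⟩ := mem_image.1 h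
        exact mem_union_left _ (mem_image_of_mem _ (mem_filter.2 ⟨hM, hv2⟩))
      · exact mem_union_right _ (mem_sdiff.2 ⟨hv1, h⟩)
    have h := (card_le_card hsub).trans (card_union_le _ _)
    rw [card_sdiff_of_subset hfam, card_image_of_injective _ (sv_inj f hQ σ),
      card_image_of_injective _ (sv_inj f hQ σ)] at h
    omega
  have htot := hsum.trans (sum_le_sum hv)
  rw [sum_add_distrib, sum_const, smul_eq_mul, ← sum_filter, sum_const, smul_eq_mul] at htot
  have h1 := Nat.mul_le_mul_right 43 hE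
  have h2 := Nat.mul_le_mul_right (q / 2 ^ 11 + 2) hstars
  have hq := hS.big
  have h3 : (q / 2 ^ 11 + 2) * 2 ^ 11 ≤ 2 * q := by
    have := Nat.div_mul_le_self q (2 ^ 11)
    have h' : 2 * 2 ^ 11 ≤ q := le_trans (by norm_num) hq
    linarith
  have h4 := N_ge f hQ hS hf
  have h5 : q * 2 ^ 64 ≤ q * q := Nat.mul_le_mul_left _ hq
  have h6 : (2 ^ 22 + 12) * ((q / 2 ^ 11 + 2) * 2 ^ 11) ≤ (2 ^ 22 + 12) * (2 * q) :=
    Nat.mul_le_mul_left _ h3
  linarith

open Classical in
/-- Every cover has at least `Q + q + 1` classes. -/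
theorem cover_lb {C : Finset (Cls Q q)} (hC : ∀ x : Point Q D, ∃ v ∈ C, InC f x v) :
    Q + q + 1 ≤ C.card := by
  by_contra hsmall
  obtain ⟨P, hPO, haux, hμ, hbudget⟩ := core f hQ hS hf hC (by omega)
  have hq := hS.big
  have hpen : Q ≤ (pencil P).card + 1 := by
    rcases P with p | σ
    · rw [pencil_card_inl hQ (fun e => hPO (by rw [e]))]; omega
    · rw [pencil_card_inr hQ σ]
  obtain ⟨z, hz⟩ := family f hQ hS hf hC (P := P) (by simp only [slack]; omega)
  have hexc : ∀ L ∈ missing C P, ∃ a : Gad Q, a.1.1 = L ∧ P = Sum.inl a.1.2 ∧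
      z = Sum.inl (lam (kind a)) := fun L hL =>
    exception f hQ hS hf hC hz (by omega) hL (haux L hL)
  have hμ1 : (missing C P).card ≤ 1 := by
    refine card_le_one.2 fun L hL M hM => ?_
    obtain ⟨a, rfl, ha, hza⟩ := hexc L hL
    obtain ⟨b, rfl, hb, hzb⟩ := hexc M hM
    have hp : a.1.2 = b.1.2 := Sum.inl.inj (ha.symm.trans hb)
    rw [gad_eq_of_dir hQ (D.lam_inj (Sum.inl.inj (hza.symm.trans hzb))) (by rw [hp])]
  set σ := baseDir P with hσ
  set Fam := univ.filter (fun M : Option (ZMod q) × ZMod q => Thru z M) with hFamdef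
  have hsubF : Fam.image (sv f σ) ⊆ others C P :=
    image_subset_iff.2 fun M hM => hz M (mem_filter.1 hM).2
  have hFc : (Fam.image (sv f σ)).card = Fam.card := card_image_of_injective _ (sv_inj f hQ σ)
  have hFle : Fam.card ≤ (others C P).card := hFc ▸ card_le_card hsubF
  -- the classes covering an own point of a gadget line through the centre
  have hown : ∀ g : Gad Q, Thru P g.1.1 → P ≠ Sum.inl g.1.2 →
      ∃ v ∈ others C P, InC f (Sum.inr g : Point Q D) v := by
    intro g hT hne
    obtain ⟨v, hv, hgv⟩ := hC (Sum.inr g)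
    refine ⟨v, mem_sdiff.2 ⟨hv, fun h => ?_⟩, hgv⟩
    obtain ⟨M, hM, rfl⟩ := mem_image.1 h
    obtain ⟨h1, -, h3⟩ := (inC_line f).1 hgv
    refine hne (center_eq (L := M) (M := g.1.1) (fun e => h3 (by rw [e]; rfl))
      (mem_filter.1 hM).2.1 hT h1 g.2.2.2.1)
  rcases P with p | σ₀
  · have hp : p ≠ (0, 0) := fun e => hPO (by rw [e])
    rw [pencil_card_inl hQ hp] at hbudget
    have hEq : ∀ v ∈ others C (Sum.inl p), v ∈ Fam.image (sv f σ) := by
      have hge : (others C (Sum.inl p)).card ≤ Fam.card := by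
        rcases z with zz | κ
        · rw [hFamdef, card_thru_inl, ZMod.card] at hFle ⊢
          omega
        · rw [hFamdef, card_thru_inr, ZMod.card] at hFle ⊢
          rcases Nat.eq_zero_or_pos (missing C (Sum.inl p)).card with h0 | h0
          · omega
          · obtain ⟨L, hL⟩ := card_pos.1 h0
            obtain ⟨a, -, -, hza⟩ := hexc L hL
            exact absurd hza Sum.inr_ne_inl
      intro v hv
      rwa [eq_of_subset_of_card_le hsubF (by omega)]
    have hfam : ∀ g : Gad Q, Thru (Sum.inl p) g.1.1 → g.1.2 ≠ p →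
        ∃ k b, Thru z ((some k, b) : Option (ZMod q) × ZMod q) ∧
          ((D.group k = some (kind g) ∧ ∃ l : ↥D.S, p = ptOn σ (f σ l).1) ∨
          (∃ a : Gad Q, k = D.spec (kind a, kind g) ∧ On a.1.1 g.1.2 ∧ a.1.1 ≠ g.1.1 ∧
            dir a.1.2 = σ ∧ b = blk k (lam (kind a))) ∨
          ∃ a : Gad Q, k = D.spec (kind g, kind a) ∧ On g.1.1 a.1.2 ∧ g.1.1 ≠ a.1.1 ∧
            p = a.1.2 ∧ b = blk k (lam (kind a))) := by
      intro g hT hne
      have hne' : (Sum.inl p : (ZMod Q × ZMod Q) ⊕ Option (ZMod Q)) ≠ Sum.inl g.1.2 := fun e =>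
        hne (Sum.inl.inj e).symm
      obtain ⟨v, hv, hgv⟩ := hown g hT hne'
      obtain ⟨M, hM, rfl⟩ := mem_image.1 (hEq v hv)
      obtain ⟨k, b, rfl, h⟩ := fam_hit f hQ hT hne' hgv
      refine ⟨k, b, (mem_filter.1 hM).2, ?_⟩
      rcases h with ⟨h1, l, h2⟩ | h | ⟨a, h1, h2, h3, h4, h5⟩
      · exact Or.inl ⟨h1, l, Sum.inl.inj h2⟩
      · exact Or.inr (Or.inl h)
      · exact Or.inr (Or.inr ⟨a, h1, h2, h3, Sum.inl.inj h4, h5⟩)
    rcases Nat.eq_zero_or_pos (missing C (Sum.inl p)).card with h0 | h0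
    · -- every line of the pencil is present: the family is a parallel class
      have hz' : ∃ κ, z = Sum.inr κ := by
        rcases z with zz | κ
        · rw [hFamdef, card_thru_inl, ZMod.card] at hFle; omega
        · exact ⟨κ, rfl⟩
      obtain ⟨κ, rfl⟩ := hz'
      have hj : ∃ j : Fin 4, dir (ctr (Q := Q) j) ≠ dir p := by
        by_contra h
        push Not at h
        have e : dir (ctr (Q := Q) 0) = dir (ctr 1) := (h 0).trans (h 1).symm
        have e0 := ic_dir (ctr (Q := Q) 0)
        have e1 := ic_dir (ctr (Q := Q) 1)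
        rw [← e] at e1
        simp only [dir, ctr] at e0 e1
        norm_num [ic] at e0 e1
        have : ((4 : ℕ) : ZMod Q) = ((2 : ℕ) : ZMod Q) := by
          push_cast
          linear_combination e1
        have := cast_small hQ (by norm_num) (by norm_num) this
        omega
      obtain ⟨j, hj⟩ := hj
      obtain ⟨τ, hτ⟩ := line_exists (p := p) (p' := ctr j) (fun e => hj (by rw [e]))
      set L : Option (ZMod Q) × ZMod Q := (τ, ic τ p) with hLdef
      have hL2 : L.2 ≠ 0 := fun e =>
        hj ((dir_unique (ctr_ne hQ j) (show ic τ (ctr j) = 0 by rw [← hτ]; exact e)).trans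
          (dir_unique hp e).symm)
      have h5 := gad_points hQ L hL2 ⟨j, hτ.symm⟩
      have hle : ((univ.filter fun g : Gad Q => g.1.1 = L).filter fun g => g.1.2 ≠ p).card ≤ 1 := by
        refine card_le_one.2 fun g hg g' hg' => ?_
        simp only [mem_filter, mem_univ, true_and] at hg hg'
        obtain ⟨k, b, hk, h⟩ := hfam g (hg.1 ▸ rfl) hg.2
        obtain ⟨k', b', hk', h'⟩ := hfam g' (hg'.1 ▸ rfl) hg'.2
        obtain rfl : k = k' := Option.some.inj ((hk : some k = κ).trans (hk' : some k' = κ).symm)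
        have hroles : role g.1.1 = role g'.1.1 := by rw [hg.1, hg'.1]
        refine gad_eq_of_line hQ ?_ (p := g.1.2) (gad_ne_ctr hQ g) g.2.2.2.1
          (hg'.1.trans hg.1.symm ▸ g.2.2.2.1)
        rcases h with ⟨h1, -⟩ | ⟨a, h1, ha1, ha2, -, -⟩ | ⟨a, h1, ha1, ha2, -, -⟩ <;>
          rcases h' with ⟨h1', -⟩ | ⟨a', h1', ha1', ha2', -, -⟩ | ⟨a', h1', ha1', ha2', -, -⟩
        · exact Option.some.inj (h1.symm.trans h1')
        · rw [h1', D.spec_group] at h1; exact absurd h1 (by simp)
        · rw [h1', D.spec_group] at h1; exact absurd h1 (by simp)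
        · rw [h1, D.spec_group] at h1'; exact absurd h1' (by simp)
        · exact (Prod.ext_iff.1 (D.spec_inj (h1.symm.trans h1'))).2
        · have e : kind a = kind g' := (Prod.ext_iff.1 (D.spec_inj (h1.symm.trans h1'))).1
          exact absurd ((congrArg Prod.fst e).trans hroles.symm) (role_ne hQ ha1 ha2)
        · rw [h1, D.spec_group] at h1'; exact absurd h1' (by simp)
        · have e : kind g = kind a' := (Prod.ext_iff.1 (D.spec_inj (h1.symm.trans h1'))).1
          exact absurd ((congrArg Prod.fst e).symm.trans hroles) (role_ne hQ ha1' ha2')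
        · exact (Prod.ext_iff.1 (D.spec_inj (h1.symm.trans h1'))).1
      have hrest : ((univ.filter fun g : Gad Q => g.1.1 = L).filter fun g => ¬ g.1.2 ≠ p).card
          ≤ 1 := by
        refine card_le_one.2 fun g hg g' hg' => ?_
        simp only [mem_filter, mem_univ, true_and, not_not] at hg hg'
        exact gad_pos_inj hQ (hg.1.trans hg'.1.symm) (hg.2.trans hg'.2.symm)
      have := card_filter_add_card_filter_not (s := univ.filter fun g : Gad Q => g.1.1 = L)
        (fun g => g.1.2 ≠ p)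
      omega
    · -- one line is missing: the family is the pencil at the label of the centre
      obtain ⟨L, hL⟩ := card_pos.1 h0
      obtain ⟨a₀, ha0, haP, haz⟩ := hexc L hL
      have hap : p = a₀.1.2 := Sum.inl.inj haP
      have h5 := gad_points hQ a₀.1.1 a₀.2.1 a₀.2.2.1
      obtain ⟨g, hg1, hg2⟩ : ∃ g : Gad Q, g.1.1 = a₀.1.1 ∧ g ≠ a₀ := by
        by_contra h
        push Not at h
        have : (univ.filter fun g : Gad Q => g.1.1 = a₀.1.1).card ≤ 1 :=
          card_le_one.2 fun x hx y hy =>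
            (h x (mem_filter.1 hx).2).trans (h y (mem_filter.1 hy).2).symm
        omega
      have hgp : g.1.2 ≠ p := fun e => hg2 (gad_pos_inj hQ hg1 (e.trans hap))
      have hT : Thru (Sum.inl p) g.1.1 := by rw [hg1, hap]; exact a₀.2.2.2.1
      obtain ⟨k, b, hk, h⟩ := hfam g hT hgp
      subst haz
      have hzb : blk k (lam (kind a₀)) = b := hk
      rcases h with ⟨-, l, hl⟩ | ⟨a, hk', ha1, ha2, -, hb⟩ | ⟨a, hk', ha1, ha2, -, hb⟩
      · obtain ⟨n, hn⟩ := a₀.2.2.2.2
        exact inl_not_aux f hQ σ l n (hl ▸ hap ▸ hn)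
      · have e : kind a₀ = kind a := by
          have := hzb.trans hb
          rw [hk'] at this
          exact D.spec_sep _ _ _ this
        exact role_ne hQ ha1 ha2 (by rw [hg1]; exact (congrArg Prod.fst e).symm)
      · have e : kind a₀ = kind a := by
          have := hzb.trans hb
          rw [hk'] at this
          exact D.spec_sep _ _ _ this
        exact role_ne hQ ha1 ha2 (by rw [hg1]; exact congrArg Prod.fst e)
  · -- the centre is at infinity
    have hμ0 : (missing C (Sum.inr σ₀)).card = 0 := by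
      rw [card_eq_zero, eq_empty_iff_forall_notMem]
      intro L hL
      obtain ⟨a, -, h, -⟩ := hexc L hL
      exact Sum.inr_ne_inl h
    have hpc := pencil_card_inr hQ σ₀
    set Xs := others C (Sum.inr σ₀) \ Fam.image (sv f σ) with hXs
    have hX : Xs.card ≤ 1 := by
      rw [hXs, card_sdiff_of_subset hsubF, hFc]
      rcases z with zz | κ
      · rw [hFamdef, card_thru_inl, ZMod.card]; omega
      · rw [hFamdef, card_thru_inr, ZMod.card]; omega
    let J := univ.filter fun j : Fin 4 => dir (ctr (Q := Q) j) ≠ σ₀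
    have hdir : ∀ i j : Fin 4, dir (ctr (Q := Q) i) = dir (ctr j) → i = j := by
      intro i j h
      have e1 : dir (ctr (Q := Q) i) = some (((i.val + 1 : ℕ) : ZMod Q)) := by
        refine dir_unique (ctr_ne hQ i) ?_
        simp only [ic, ctr]
        push_cast
        ring
      have e2 : dir (ctr (Q := Q) j) = some (((j.val + 1 : ℕ) : ZMod Q)) := by
        refine dir_unique (ctr_ne hQ j) ?_
        simp only [ic, ctr]
        push_cast
        ring
      rw [e1, e2] at h
      have := cast_small hQ (by omega) (by omega) (Option.some.inj h)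
      exact Fin.ext (by omega)
    have hJ : 3 ≤ J.card := by
      have h1 : (univ.filter fun j : Fin 4 => ¬ dir (ctr (Q := Q) j) ≠ σ₀).card ≤ 1 :=
        card_le_one.2 fun a ha b hb => by
          simp only [mem_filter, not_not] at ha hb
          exact hdir a b (ha.2.trans hb.2.symm)
      have h2 := card_filter_add_card_filter_not (s := (univ : Finset (Fin 4)))
        (fun j => dir (ctr (Q := Q) j) ≠ σ₀)
      simp only [card_univ, Fintype.card_fin] at h2
      simp only [J]
      omega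
    have hfib : J.card ≤ 2 * (J.image fun j => ic σ₀ (ctr j)).card := by
      refine card_le_mul_card_image _ _ fun c _ => ?_
      by_contra hlt
      obtain ⟨i, j, l, hi, hj, hl, hij, hil, hjl⟩ := two_lt_card_iff.1 (not_le.1 hlt)
      simp only [mem_filter] at hi hj hl
      have e1 := hi.2.trans hj.2.symm
      have e2 := hi.2.trans hl.2.symm
      have inj : ∀ a b : Fin 4, ((a.val + 1 : ℕ) : ZMod Q) = ((b.val + 1 : ℕ) : ZMod Q) → a = b :=
        fun a b h => by
          have := cast_small hQ (by omega) (by omega) h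
          exact Fin.ext (by omega)
      rcases σ₀ with _ | s
      · simp only [ic, ctr] at e1
        exact hij (inj i j e1)
      · simp only [ic, ctr] at e1 e2
        push_cast at e1 e2
        have h1 : ((i.val : ZMod Q) - j.val) * ((i.val : ZMod Q) + j.val + 2 - s) = 0 := by
          linear_combination e1
        have h2 : ((i.val : ZMod Q) - l.val) * ((i.val : ZMod Q) + l.val + 2 - s) = 0 := by
          linear_combination e2
        rcases mul_eq_zero.1 h1 with h | h
        · exact hij (inj i j (by push_cast; linear_combination h))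
        rcases mul_eq_zero.1 h2 with h' | h'
        · exact hil (inj i l (by push_cast; linear_combination h'))
        exact hjl (inj j l (by push_cast; linear_combination h - h'))
    obtain ⟨c, hc, hcX⟩ : ∃ c ∈ J.image (fun j => ic σ₀ (ctr j)),
        (gadCls σ₀ c : Cls Q q) ∉ Xs := by
      by_contra h
      push Not at h
      have h2 : 2 ≤ (J.image fun j => ic σ₀ (ctr j)).card := by omega
      have h3 : ((J.image fun j => ic σ₀ (ctr j)).image fun c => (gadCls σ₀ c : Cls Q q)) ⊆ Xs :=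
        image_subset_iff.2 h
      have := card_le_card h3
      rw [card_image_of_injective _ fun a b e => by simpa [gadCls] using e] at this
      omega
    obtain ⟨j, hj, rfl⟩ := mem_image.1 hc
    set L : Option (ZMod Q) × ZMod Q := (σ₀, ic σ₀ (ctr j)) with hLdef
    have hL2 : L.2 ≠ 0 := fun e =>
      (mem_filter.1 hj).2 (dir_unique (ctr_ne hQ j) e)
    have h5 := gad_points hQ L hL2 ⟨j, rfl⟩
    set G := univ.filter (fun g : Gad Q => g.1.1 = L) with hG
    let G1 := G.filter fun g =>
      ∃ M, Thru z M ∧ InC f (Sum.inr g : Point Q D) (sv f σ M)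
    let G2 := G.filter fun g => ∃ v ∈ Xs, InC f (Sum.inr g : Point Q D) v
    have hsub : G ⊆ G1 ∪ G2 := by
      intro g hg
      have hgL := (mem_filter.1 hg).2
      obtain ⟨v, hv, hgv⟩ := hown g (show g.1.1.1 = σ₀ by rw [hgL]) Sum.inr_ne_inl
      by_cases h : v ∈ Fam.image (sv f σ)
      · obtain ⟨M, hM, rfl⟩ := mem_image.1 h
        exact mem_union_left _ (mem_filter.2 ⟨hg, M, (mem_filter.1 hM).2, hgv⟩)
      · exact mem_union_right _ (mem_filter.2 ⟨hg, v, mem_sdiff.2 ⟨hv, h⟩, hgv⟩)
    have hG2 : G2.card ≤ 2 := by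
      rcases Nat.eq_zero_or_pos Xs.card with h | h
      · rw [card_eq_zero] at h
        rw [show G2 = ∅ from filter_eq_empty_iff.2 fun g _ ⟨v, hv, _⟩ => by simp [h] at hv]
        simp
      obtain ⟨v, hv⟩ := card_pos.1 h
      rw [← card_image_of_injOn (f := fun g : Gad Q => g.1.2) (fun a ha b hb e =>
        gad_pos_inj hQ ((mem_filter.1 (mem_filter.1 ha).1).2.trans
          (mem_filter.1 (mem_filter.1 hb).1).2.symm) e)]
      by_cases hvl : v = lineCls L
      · rw [show G2 = ∅ from ?_]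
        · simp
        refine filter_eq_empty_iff.2 fun g hg ⟨w, hw, hgw⟩ => ?_
        obtain rfl : w = v := card_le_one.1 hX w hw v hv
        rw [hvl] at hgw
        exact ((inC_line f).1 hgw).2.2 (by simp [ownSlope, (mem_filter.1 hg).2])
      refine gad_positions f hQ (v := v) (L := L) hvl hL2 G2 ?_ ?_
      · intro g hg
        obtain ⟨hg', w, hw, hgw⟩ := mem_filter.1 hg
        obtain rfl : w = v := card_le_one.1 hX w hw v hv
        exact ⟨hgw, (mem_filter.1 hg').2 ▸ g.2.2.2.1⟩
      · intro τ c e g hg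
        obtain ⟨hg', w, hw, hgw⟩ := mem_filter.1 hg
        obtain rfl : w = v := card_le_one.1 hX w hw v hv
        subst e
        obtain ⟨g', e1, e2⟩ := inC_gad f hgw
        obtain rfl := Sum.inr.inj e1
        have hgL := (mem_filter.1 hg').2
        rw [hgL] at e2
        simp only [hLdef, Prod.mk.injEq] at e2
        obtain ⟨rfl, rfl⟩ := e2
        exact absurd hw hcX
    have hG1 : G1.card ≤ 2 := by
      by_contra hlt
      obtain ⟨g₁, g₂, g₃, h1, h2, h3, h12, h13, h23⟩ := two_lt_card_iff.1 (not_le.1 hlt)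
      have key : ∀ g ∈ G1, ∃ (a : Gad Q), On a.1.1 g.1.2 ∧ a.1.1 ≠ g.1.1 ∧ dir a.1.2 = σ₀ ∧
          Thru z ((some (D.spec (kind a, kind g)), blk (D.spec (kind a, kind g)) (lam (kind a))) :
            Option (ZMod q) × ZMod q) := by
        intro g hg
        obtain ⟨hg', M, hM, hgv⟩ := mem_filter.1 hg
        obtain ⟨k, b, rfl, h⟩ := fam_hit f hQ (P := Sum.inr σ₀)
          (show g.1.1.1 = σ₀ by rw [(mem_filter.1 hg').2]) Sum.inr_ne_inl hgv
        rcases h with ⟨-, l, hl⟩ | ⟨a, hk, ha1, ha2, ha3, hb⟩ | ⟨a, -, -, -, ha, -⟩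
        · exact absurd hl Sum.inr_ne_inl
        · subst hk hb
          exact ⟨a, ha1, ha2, ha3, hM⟩
        · exact absurd ha Sum.inr_ne_inl
      obtain ⟨a₁, p1, q1, r1, t1⟩ := key g₁ h1
      obtain ⟨a₂, p2, q2, r2, t2⟩ := key g₂ h2
      obtain ⟨a₃, p3, q3, r3, t3⟩ := key g₃ h3
      have hLg : ∀ g ∈ G1, g.1.1 = L := fun g hg => (mem_filter.1 (mem_filter.1 hg).1).2
      have hkne : ∀ g ∈ G1, ∀ g' ∈ G1, g ≠ g' → kind g ≠ kind g' := fun g hg g' hg' hne e =>
        hne (gad_eq_of_line hQ e (p := g.1.2) (gad_ne_ctr hQ g) g.2.2.2.1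
          ((hLg g' hg').trans (hLg g hg).symm ▸ g.2.2.2.1))
      rcases z with zz | κ
      · obtain ⟨e12, -⟩ := D.spec_conc (kind a₁, kind g₁) (kind a₂, kind g₂) (kind a₃, kind g₃) zz
          (fun e => hkne g₁ h1 g₂ h2 h12 (congrArg Prod.snd e))
          (fun e => hkne g₁ h1 g₃ h3 h13 (congrArg Prod.snd e))
          (fun e => hkne g₂ h2 g₃ h3 h23 (congrArg Prod.snd e)) t1 t2 t3
        have ha : a₁ = a₂ := gad_eq_of_dir hQ e12 (r1.trans r2.symm)
        subst ha
        refine h12 (gad_pos_inj hQ ((hLg g₁ h1).trans (hLg g₂ h2).symm) ?_)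
        exact point_unique (hLg g₁ h1 ▸ q1) p1 p2 (hLg g₁ h1 ▸ g₁.2.2.2.1)
          (hLg g₂ h2 ▸ g₂.2.2.2.1)
      · have e := D.spec_inj (Option.some.inj ((t1 : some _ = κ).trans (t2 : some _ = κ).symm))
        exact hkne g₁ h1 g₂ h2 h12 (congrArg Prod.snd e)
    have := (card_le_card hsub).trans (card_union_le _ _)
    omega

end Facts

end Vale.Agent.P045
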