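import Mathlib

set_option linter.unusedSectionVars false

/-! The affine plane over a finite field: lines by slope and intercept, and a stability
lemma for small families of lines that cover most of the plane. -/

namespace Vale.Agent.P045

open Finset

variable {F : Type} [Field F] [Fintype F] [DecidableEq F]

/-- The intercept of the line of slope `σ` through `p` (`none` is the vertical slope). -/
def ic : Option F → F × F → F
  | some s, p => p.2 - s * p.1
  | none, p => p.1

/-- The point with parameter `t` on the line of slope `σ` through the origin. -/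
def ptOn : Option F → F → F × F
  | some s, t => (t, s * t)
  | none, t => (0, t)

/-- The point `p` lies on the line `L = (slope, intercept)`. -/
def On (L : Option F × F) (p : F × F) : Prop := ic L.1 p = L.2

instance (L : Option F × F) (p : F × F) : Decidable (On L p) :=
  inferInstanceAs (Decidable (_ = _))

/-- The line `L` passes through a point of the projective closure. -/
def Thru : (F × F) ⊕ Option F → Option F × F → Prop
  | Sum.inl p, L => On L p
  | Sum.inr σ, L => L.1 = σ

instance (P : (F × F) ⊕ Option F) (L : Option F × F) : Decidable (Thru P L) := by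
  cases P <;> unfold Thru <;> infer_instance

lemma ic_ptOn (σ : Option F) (t : F) : ic σ (ptOn σ t) = 0 := by
  cases σ <;> simp [ic, ptOn]

lemma ptOn_injective (σ : Option F) : Function.Injective (ptOn (F := F) σ) := by
  intro a b h
  cases σ <;> simp_all [ptOn]

lemma eq_ptOn {σ : Option F} {p : F × F} (h : ic σ p = 0) : ∃ t, p = ptOn σ t := by
  obtain ⟨a, b⟩ := p
  cases σ with
  | none => exact ⟨b, by simp [ic] at h; simp [ptOn, h]⟩
  | some s => exact ⟨a, by simp [ic] at h; simp [ptOn]; linear_combination h⟩

lemma ic_origin (σ : Option F) : ic σ ((0, 0) : F × F) = 0 := by cases σ <;> simp [ic]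

lemma meet_unique {σ τ : Option F} (h : σ ≠ τ) {p p' : F × F}
    (h1 : ic σ p = ic σ p') (h2 : ic τ p = ic τ p') : p = p' := by
  obtain ⟨a, b⟩ := p
  obtain ⟨a', b'⟩ := p'
  cases σ with
  | none =>
    cases τ with
    | none => exact absurd rfl h
    | some t =>
      simp only [ic] at h1 h2
      subst h1
      have hb : b = b' := by linear_combination h2
      rw [hb]
  | some s =>
    cases τ with
    | none =>
      simp only [ic] at h1 h2
      subst h2
      have hb : b = b' := by linear_combination h1
      rw [hb]
    | some t =>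
      simp only [ic] at h1 h2
      have hst : t - s ≠ 0 := sub_ne_zero.2 fun e => h (by rw [e])
      have ha : a = a' := mul_left_cancel₀ hst (by linear_combination h1 - h2)
      subst ha
      have hb : b = b' := by linear_combination h1
      rw [hb]

lemma meet_exists {σ τ : Option F} (h : σ ≠ τ) (c d : F) :
    ∃ p, ic σ p = c ∧ ic τ p = d := by
  cases σ with
  | none =>
    cases τ with
    | none => exact absurd rfl h
    | some t => exact ⟨(c, d + t * c), by simp [ic], by simp [ic]⟩
  | some s =>
    cases τ with
    | none => exact ⟨(d, c + s * d), by simp [ic], by simp [ic]⟩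
    | some t =>
      have hst : t - s ≠ 0 := sub_ne_zero.2 fun e => h (by rw [e])
      refine ⟨((c - d) / (t - s), c + s * ((c - d) / (t - s))), by simp [ic], ?_⟩
      simp only [ic]
      field_simp
      ring

lemma line_exists {p p' : F × F} (_ : p ≠ p') : ∃ σ, ic σ p = ic σ p' := by
  obtain ⟨a, b⟩ := p
  obtain ⟨a', b'⟩ := p'
  by_cases h : a = a'
  · exact ⟨none, h⟩
  · refine ⟨some ((b - b') / (a - a')), ?_⟩
    have : a - a' ≠ 0 := sub_ne_zero.2 h
    simp only [ic]
    field_simp
    ring

lemma card_line (L : Option F × F) :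
    (univ.filter fun p => On L p).card = Fintype.card F := by
  obtain ⟨σ, c⟩ := L
  rw [← card_univ]
  cases σ with
  | none =>
    refine card_bij' (fun p _ => p.2) (fun t _ => (c, t)) (by simp)
      (fun t _ => mem_filter.2 ⟨mem_univ _, rfl⟩) ?_ (by simp)
    rintro ⟨a, b⟩ hp
    have h : a = c := (mem_filter.1 hp).2
    simp [h]
  | some s =>
    refine card_bij' (fun p _ => p.1) (fun t _ => (t, c + s * t)) (by simp)
      (fun t _ => mem_filter.2 ⟨mem_univ _, ?_⟩) ?_ (by simp)
    · show c + s * t - s * t = c
      ring
    rintro ⟨a, b⟩ hp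
    have h : b - s * a = c := (mem_filter.1 hp).2
    simp [← h]

/-- The number of lines of a family through a point of the projective closure. -/
def deg (Ls : Finset (Option F × F)) (P : (F × F) ⊕ Option F) : ℕ := (Ls.filter (Thru P)).card

/-- Total overlap of a family of lines. -/
def excess (Ls : Finset (Option F × F)) : ℕ := ∑ p : F × F, (deg Ls (Sum.inl p) - 1)

lemma excess_add (Ls : Finset (Option F × F)) :
    excess Ls + (univ.filter fun p => ∃ L ∈ Ls, On L p).card = Ls.card * Fintype.card F := by
  have h1 : ∑ p : F × F, deg Ls (Sum.inl p) = Ls.card * Fintype.card F := by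
    simp only [deg, card_filter]
    rw [sum_comm]
    rw [← sum_const_nat (s := Ls) (m := Fintype.card F)]
    intro L _
    rw [← card_filter]
    exact card_line L
  rw [← h1, excess, card_filter, ← sum_add_distrib]
  refine sum_congr rfl fun p _ => ?_
  by_cases h : ∃ L ∈ Ls, On L p
  · obtain ⟨L, hL, hp⟩ := h
    have : 0 < deg Ls (Sum.inl p) := card_pos.2 ⟨L, mem_filter.2 ⟨hL, hp⟩⟩
    rw [if_pos ⟨L, hL, hp⟩]
    omega
  · rw [if_neg h]
    have : deg Ls (Sum.inl p) = 0 := by
      simp only [deg, card_eq_zero, filter_eq_empty_iff]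
      exact fun L hL hp => h ⟨L, hL, hp⟩
    omega

lemma pair_unique {L M : Option F × F} (h : L ≠ M) :
    (univ.filter fun P => Thru P L ∧ Thru P M).card = 1 := by
  rw [card_eq_one]
  obtain ⟨σ, c⟩ := L
  obtain ⟨τ, d⟩ := M
  by_cases hs : σ = τ
  · subst hs
    refine ⟨Sum.inr σ, ?_⟩
    ext P
    rw [mem_filter, mem_singleton]
    cases P with
    | inl p =>
      simp [Thru, On]
      intro h1 h2
      exact h (by rw [← h1, ← h2])
    | inr ρ => simp [Thru, eq_comm]
  · obtain ⟨p, hp1, hp2⟩ := meet_exists hs c d
    refine ⟨Sum.inl p, ?_⟩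
    ext P
    rw [mem_filter, mem_singleton]
    cases P with
    | inl p' =>
      simp [Thru, On]
      constructor
      · rintro ⟨h1, h2⟩
        exact meet_unique hs (h1.trans hp1.symm) (h2.trans hp2.symm)
      · rintro rfl
        exact ⟨hp1, hp2⟩
    | inr ρ =>
      simp [Thru]
      rintro rfl h2
      exact hs h2.symm

lemma sum_deg (Ls : Finset (Option F × F)) :
    ∑ P : (F × F) ⊕ Option F, deg Ls P * (deg Ls P - 1) = Ls.card * (Ls.card - 1) := by
  have h : ∀ s : Finset (Option F × F), s.card * (s.card - 1) = s.offDiag.card := fun s => by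
    rw [offDiag_card, Nat.mul_sub, mul_one]
  rw [h Ls]
  have e : ∀ P, deg Ls P * (deg Ls P - 1)
      = (Ls.offDiag.filter fun z => Thru P z.1 ∧ Thru P z.2).card := by
    intro P
    rw [deg, h]
    congr 1
    ext z
    simp only [mem_offDiag, mem_filter]
    tauto
  simp only [e, card_filter]
  rw [sum_comm, card_eq_sum_ones]
  refine sum_congr rfl fun z hz => ?_
  rw [← card_filter]
  exact pair_unique (mem_offDiag.1 hz).2.2

/-- Stability: some point of the projective closure lies on many lines of the family,
and few lines avoid it. -/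
theorem stability (Ls : Finset (Option F × F)) :
    ∃ P, Ls.card * (Ls.card - 1) ≤ deg Ls P * (excess Ls + Ls.card) ∧
      (Ls.card - deg Ls P) * (deg Ls P - 1) ≤ excess Ls := by
  obtain ⟨P, -, hP⟩ := exists_max_image univ (deg Ls) univ_nonempty
  refine ⟨P, ?_, ?_⟩
  · rw [← sum_deg, Fintype.sum_sum_type, mul_add]
    refine add_le_add ?_ ?_
    · rw [excess, mul_sum]
      exact sum_le_sum fun p _ => Nat.mul_le_mul_right _ (hP _ (mem_univ _))
    · have : ∑ σ : Option F, deg Ls (Sum.inr σ) = Ls.card := by
        rw [card_eq_sum_card_fiberwise (f := fun L => L.1) (t := univ) (by simp)]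
        rfl
      rw [← this, mul_sum]
      exact sum_le_sum fun σ _ =>
        Nat.mul_le_mul (hP _ (mem_univ _)) (Nat.sub_le _ _)
  · have hoff : (Ls.filter fun L => ¬ Thru P L).card = Ls.card - deg Ls P := by
      have := card_filter_add_card_filter_not (s := Ls) (Thru P)
      simp only [deg]
      omega
    let A : Finset (F × F) :=
      univ.filter fun y => Sum.inl y ≠ P ∧ ∃ M ∈ Ls, Thru P M ∧ On M y
    have hlo : ∀ L ∈ Ls.filter (fun L => ¬ Thru P L),
        deg Ls P - 1 ≤ (A.filter fun y => On L y).card := by
      intro L hL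
      obtain ⟨hL, hLP⟩ := mem_filter.1 hL
      let B := (Ls.filter (Thru P)).filter fun M => M.1 ≠ L.1
      have hB : deg Ls P - 1 ≤ B.card := by
        have hle : ((Ls.filter (Thru P)).filter fun M => ¬ M.1 ≠ L.1).card ≤ 1 := by
          refine card_le_one.2 fun M hM M' hM' => ?_
          simp only [mem_filter, not_not] at hM hM'
          cases P with
          | inl p =>
            obtain ⟨⟨-, h1⟩, e1⟩ := hM
            obtain ⟨⟨-, h2⟩, e2⟩ := hM'
            refine Prod.ext (e1.trans e2.symm) ?_
            simp only [Thru, On] at h1 h2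
            rw [← h1, ← h2, e1, e2]
          | inr σ => exact absurd (hM.2.symm.trans hM.1.2) hLP
        have := card_filter_add_card_filter_not (s := Ls.filter (Thru P)) (fun M => M.1 ≠ L.1)
        simp only [deg, B]
        omega
      refine hB.trans ?_
      have hex : ∀ M ∈ B, ∃ y, On M y ∧ On L y := fun M hM =>
        meet_exists (mem_filter.1 hM).2 M.2 L.2
      choose! g hg using hex
      refine card_le_card_of_injOn g ?_ ?_
      · intro M hM
        obtain ⟨hy, hyL⟩ := hg M hM
        obtain ⟨hMs, hMP⟩ := mem_filter.1 (mem_filter.1 hM).1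
        refine mem_filter.2 ⟨mem_filter.2 ⟨mem_univ _, ?_, M, hMs, hMP, hy⟩, hyL⟩
        intro e
        exact hLP (e ▸ hyL)
      · intro M hM M' hM' e
        by_contra hne
        obtain ⟨hy, hyL⟩ := hg M hM
        obtain ⟨hy', -⟩ := hg M' hM'
        rw [← e] at hy'
        have hMP := (mem_filter.1 (mem_filter.1 hM).1).2
        have hMP' := (mem_filter.1 (mem_filter.1 hM').1).2
        have h1 := card_le_one.1 (pair_unique hne).le (Sum.inl (g M))
          (mem_filter.2 ⟨mem_univ _, hy, hy'⟩) P (mem_filter.2 ⟨mem_univ _, hMP, hMP'⟩)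
        exact hLP (h1 ▸ hyL)
    calc (Ls.card - deg Ls P) * (deg Ls P - 1)
        = ∑ L ∈ Ls.filter (fun L => ¬ Thru P L), (deg Ls P - 1) := by
          rw [sum_const, smul_eq_mul, hoff]
      _ ≤ ∑ L ∈ Ls.filter (fun L => ¬ Thru P L), (A.filter fun y => On L y).card := sum_le_sum hlo
      _ = ∑ y ∈ A, ((Ls.filter fun L => ¬ Thru P L).filter fun L => On L y).card := by
          simp only [card_filter]
          exact sum_comm
      _ ≤ ∑ y ∈ A, (deg Ls (Sum.inl y) - 1) := by
          refine sum_le_sum fun y hy => ?_
          obtain ⟨-, hne, M, hM, hMP, hMy⟩ := mem_filter.1 hy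
          have hsub : ((Ls.filter fun L => ¬ Thru P L).filter fun L => On L y)
              ⊆ (Ls.filter (Thru (Sum.inl y))).erase M := by
            intro L hL
            simp only [mem_filter] at hL
            refine mem_erase.2 ⟨fun e => hL.1.2 (e ▸ hMP), mem_filter.2 ⟨hL.1.1, hL.2⟩⟩
          have := card_le_card hsub
          rw [card_erase_of_mem (mem_filter.2 ⟨hM, hMy⟩)] at this
          exact this
      _ ≤ excess Ls := sum_le_sum_of_subset (subset_univ A)

lemma card_thru_inl (p : F × F) :
    (univ.filter fun L => Thru (Sum.inl p) L).card = Fintype.card F + 1 := by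
  have : (univ.filter fun L => Thru (Sum.inl p) L)
      = univ.image fun σ : Option F => (σ, ic σ p) := by
    ext ⟨σ, c⟩
    rw [mem_filter]
    simp [Thru, On]
  rw [this, card_image_of_injective _ fun a b h => (Prod.ext_iff.1 h).1]
  simp

lemma card_thru_inr (σ : Option F) :
    (univ.filter fun L : Option F × F => Thru (Sum.inr σ) L).card = Fintype.card F := by
  rw [← card_univ]
  refine card_bij' (fun L _ => L.2) (fun c _ => (σ, c)) (by simp)
    (fun c _ => mem_filter.2 ⟨mem_univ _, rfl⟩) ?_ (by simp)
  rintro ⟨τ, c⟩ h
  have h' : τ = σ := (mem_filter.1 h).2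
  simp [h']

end Vale.Agent.P045
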