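import Vale.Agent.P045.Plane

set_option linter.unusedSectionVars false

/-! The data living in the small plane `AG(2,q)`: a pseudorandom label set, the distribution
of labels to star slopes, and the special slopes. -/

namespace Vale.Agent.P045

open Finset

/-- A gadget kind: a centre (role) and an auxiliary line index. -/
abbrev Kind := Fin 4 × Fin 10

/-- The inverse density of the label set. -/
def dens : ℕ := 2 ^ 24

/-- The slack allowed in covers of the label set. -/
def slack : ℕ := 2 ^ 30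

/-- The reciprocal of the load fraction. -/
def loadInv : ℕ := 2 ^ 14

/-- The label of a gadget kind. -/
def lam {q : ℕ} (c : Kind) : ZMod q × ZMod q :=
  (((10 * c.1.val + c.2.val : ℕ) : ZMod q), (((10 * c.1.val + c.2.val) ^ 2 : ℕ) : ZMod q))

/-- The block of a label in the parallel class of slope `k`. -/
def blk {q : ℕ} [Fact q.Prime] (k : ZMod q) (l : ZMod q × ZMod q) : ZMod q := ic (some k) l

/-- All data living in the small plane. -/
structure Small (q : ℕ) [Fact q.Prime] where
  S : Finset (ZMod q × ZMod q)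
  claim : Kind → ZMod q × ZMod q → ZMod q
  group : ZMod q → Option Kind
  spec : Kind × Kind → ZMod q
  lam_not : ∀ c, lam c ∉ S
  lam_inj : Function.Injective (lam (q := q))
  lam_fst : ∀ c c', (lam (q := q) c).1 = (lam (q := q) c').1 → c = c'
  line_lo : ∀ L : Option (ZMod q) × ZMod q, q ≤ 4 * dens * (S.filter (On L)).card
  line_hi : ∀ L : Option (ZMod q) × ZMod q, dens * (S.filter (On L)).card ≤ 4 * q
  stable : ∀ (Ls : Finset (Option (ZMod q) × ZMod q)) (Pts : Finset (ZMod q × ZMod q)),
    Ls.card + Pts.card ≤ q + slack → (∀ l ∈ S, (∃ L ∈ Ls, On L l) ∨ l ∈ Pts) →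
    ∃ P, ∀ L, Thru P L → L ∈ Ls
  group_claim : ∀ c, ∀ l ∈ S, group (claim c l) = some c
  claim_inj : ∀ c, ∀ l ∈ S, ∀ l' ∈ S, claim c l = claim c l' →
    blk (claim c l) l = blk (claim c l) l' → l = l'
  claim_avoid : ∀ c c', ∀ l ∈ S, blk (claim c l) l ≠ blk (claim c l) (lam c')
  claim_load : ∀ c k, loadInv * (S.filter fun l => claim c l = k).card ≤ 2 * q
  group_sep : ∀ k c, group k = some c → ∀ c' c'', blk k (lam c') = blk k (lam c'') → c' = c''
  spec_inj : Function.Injective spec
  spec_group : ∀ t, group (spec t) = none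
  spec_sep : ∀ t c' c'', blk (spec t) (lam c') = blk (spec t) (lam c'') → c' = c''
  spec_conc : ∀ (t₁ t₂ t₃ : Kind × Kind) (z : ZMod q × ZMod q), t₁ ≠ t₂ → t₁ ≠ t₃ → t₂ ≠ t₃ →
    blk (spec t₁) z = blk (spec t₁) (lam t₁.1) → blk (spec t₂) z = blk (spec t₂) (lam t₂.1) →
    blk (spec t₃) z = blk (spec t₃) (lam t₃.1) → t₁.1 = t₂.1 ∧ t₂.1 = t₃.1

end Vale.Agent.P045
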