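import Vale.Agent.P045.Count
import Vale.Agent.P045.SmallDef

set_option linter.unusedSectionVars false

/-! Existence of the small-plane data for every sufficiently large prime. -/

namespace Vale.Agent.P045

open Finset Filter

/-! ### General counting -/

/-- Lower tail for the number of coordinates in which an event happens. -/
lemma lower_tail {ι : Type} [Fintype ι] [DecidableEq ι] {A : ι → Type} [∀ i, Fintype (A i)]
    (E : ∀ i, A i → Prop) [∀ i, DecidablePred (E i)] (p : ι → ℝ) (M : ℝ)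
    (hp : ∀ i, p i * Fintype.card (A i) ≤ ((univ.filter (E i)).card : ℝ)) :
    ((univ.filter fun ω : ∀ i, A i =>
        ((univ.filter fun i => E i (ω i)).card : ℝ) < M).card : ℝ)
      ≤ Real.exp (Real.log 2 * M - (∑ i, p i) / 2) * Fintype.card (∀ i, A i) := by
  have h := tail (fun ω : ∀ i, A i => ((univ.filter fun i => E i (ω i)).card : ℝ) < M)
    (fun i a => if E i a then (1 / 2 : ℝ) else 1) (fun i => Real.exp (-(p i) / 2))
    (Real.exp (-(Real.log 2 * M))) ?_ ?_ ?_
  · rw [← Real.exp_sum] at h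
    have e : ∑ i, -(p i) / 2 = -(∑ i, p i) / 2 := by rw [← sum_div, sum_neg_distrib]
    rw [e, ← le_div_iff₀ (Real.exp_pos _)] at h
    refine h.trans (le_of_eq ?_)
    rw [mul_div_assoc, ← Real.exp_sub, mul_comm]
    ring_nf
  · intro i a
    split_ifs <;> norm_num
  · intro i
    have e : (∑ a, if E i a then (1 / 2 : ℝ) else 1)
        = (Fintype.card (A i) : ℝ) - (univ.filter (E i)).card / 2 := by
      have : ∀ a, (if E i a then (1 / 2 : ℝ) else 1) = 1 - (if E i a then (1 : ℝ) else 0) / 2 :=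
        fun a => by split_ifs <;> norm_num
      simp only [this, sum_sub_distrib, sum_const, nsmul_eq_mul, mul_one, card_univ, ← sum_div,
        sum_boole]
    rw [e]
    calc (Fintype.card (A i) : ℝ) - (univ.filter (E i)).card / 2
        ≤ (-(p i) / 2 + 1) * Fintype.card (A i) := by linarith [hp i]
      _ ≤ _ := mul_le_mul_of_nonneg_right (Real.add_one_le_exp _) (Nat.cast_nonneg _)
  · intro ω hω
    rw [prod_ite, prod_const, prod_const_one, mul_one]
    rw [show (1 / 2 : ℝ) = Real.exp (-Real.log 2) by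
      rw [Real.exp_neg, Real.exp_log two_pos, one_div], ← Real.exp_nat_mul]
    refine Real.exp_le_exp.2 ?_
    nlinarith [Real.log_pos one_lt_two]

/-- The union bound. -/
lemma exists_avoid {Ω ι : Type} [Fintype Ω] [DecidableEq Ω] [Nonempty Ω] (I : Finset ι)
    (B : ι → Finset Ω) (δ : ι → ℝ) (h : ∀ i ∈ I, ((B i).card : ℝ) ≤ δ i * Fintype.card Ω)
    (hs : ∑ i ∈ I, δ i < 1) : ∃ ω, ∀ i ∈ I, ω ∉ B i := by
  by_contra hne
  push Not at hne
  have hsub : (univ : Finset Ω) ⊆ I.biUnion B := fun ω _ => mem_biUnion.2 (hne ω)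
  have h1 : (Fintype.card Ω : ℝ) ≤ ∑ i ∈ I, δ i * Fintype.card Ω := by
    refine le_trans ?_ (sum_le_sum h)
    rw [← card_univ]
    exact_mod_cast (card_le_card hsub).trans card_biUnion_le
  rw [← sum_mul] at h1
  have h2 : (0 : ℝ) < Fintype.card Ω := Nat.cast_pos.2 Fintype.card_pos
  nlinarith

/-- The number of small subsets of a finite type. -/
lemma card_small_subsets {α : Type} [Fintype α] [DecidableEq α] (m : ℕ) :
    (univ.filter fun s : Finset α => s.card ≤ m).card ≤ (Fintype.card α + 1) ^ m := by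
  have h : (univ.filter fun s : Finset α => s.card ≤ m)
      ⊆ univ.image (fun F : Fin m → Option α => univ.filter fun a => ∃ i, F i = some a) := by
    intro s hs
    have hs' : s.toList.length ≤ m := by rw [length_toList]; exact (mem_filter.1 hs).2
    refine mem_image.2 ⟨fun i => s.toList[i.val]?, mem_univ _, ?_⟩
    ext a
    rw [mem_filter]
    constructor
    · rintro ⟨-, i, hi⟩
      exact mem_toList.1 (List.mem_iff_getElem?.2 ⟨i.val, hi⟩)
    · intro ha
      obtain ⟨n, hn⟩ := List.mem_iff_getElem?.1 (mem_toList.2 ha)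
      have hlt : n < s.toList.length := (List.getElem?_eq_some_iff.1 hn).1
      exact ⟨mem_univ _, ⟨n, hlt.trans_le hs'⟩, hn⟩
  refine (card_le_card h).trans (card_image_le.trans (le_of_eq ?_))
  simp [Fintype.card_pi, prod_const]

/-! ### The random label set -/

lemma card_fin_zero {D : ℕ} (hD : 0 < D) :
    (univ.filter fun a : Fin D => (a : ℕ) = 0).card = 1 := by
  rw [card_eq_one]
  exact ⟨⟨0, hD⟩, by ext a; simp [Fin.ext_iff]⟩

section Random

variable {X : Type} [Fintype X] [DecidableEq X] {D : ℕ}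

lemma hit_marg (hD : 0 < D) (V : Finset X) (p : X) :
    (if p ∈ V then (1 : ℝ) / D else 0) * Fintype.card (Fin D)
      = ((univ.filter fun a : Fin D => p ∈ V ∧ (a : ℕ) = 0).card : ℝ) := by
  have hD' : (D : ℝ) ≠ 0 := (Nat.cast_pos.2 hD).ne'
  by_cases h : p ∈ V
  · simp [h, card_fin_zero hD, hD']
  · simp [h]

lemma hit_sum (V : Finset X) : ∑ p, (if p ∈ V then (1 : ℝ) / D else 0) = V.card / D := by
  rw [← sum_filter, sum_const, nsmul_eq_mul, filter_mem_eq_inter, univ_inter]
  ring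

lemma hit_count (V : Finset X) (ω : X → Fin D) :
    (univ.filter fun p => p ∈ V ∧ (ω p : ℕ) = 0).card
      = (V.filter fun p => (ω p : ℕ) = 0).card := by
  congr 1
  ext p
  simp

lemma hit_lo (hD : 0 < D) (V : Finset X) (M : ℝ) :
    ((univ.filter fun ω : X → Fin D =>
        ((V.filter fun p => (ω p : ℕ) = 0).card : ℝ) < M).card : ℝ)
      ≤ Real.exp (Real.log 2 * M - V.card / D / 2) * Fintype.card (X → Fin D) := by
  have h := lower_tail (A := fun _ => Fin D) (fun p a => p ∈ V ∧ (a : ℕ) = 0)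
    (fun p => if p ∈ V then (1 : ℝ) / D else 0) M (fun p => (hit_marg hD V p).le)
  rw [hit_sum] at h
  simpa only [hit_count] using h

lemma hit_hi (hD : 0 < D) (V : Finset X) (m : ℕ) :
    ((univ.filter fun ω : X → Fin D =>
        m ≤ (V.filter fun p => (ω p : ℕ) = 0).card).card : ℝ) * 2 ^ m
      ≤ Fintype.card (X → Fin D) * Real.exp (V.card / D) := by
  have h := upper_tail (A := fun _ => Fin D) (fun p a => p ∈ V ∧ (a : ℕ) = 0)
    (fun p => if p ∈ V then (1 : ℝ) / D else 0) 2 one_le_two m (fun p => (hit_marg hD V p).ge)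
  rw [hit_sum, show (2 : ℝ) - 1 = 1 by norm_num, one_mul] at h
  simpa only [hit_count] using h

lemma line_bad (hD : 0 < D) {q : ℕ} (V : Finset X) (hV : V.card = q) :
    ((univ.filter fun ω : X → Fin D =>
        4 * q / D + 1 ≤ (V.filter fun p => (ω p : ℕ) = 0).card ∨
        ((V.filter fun p => (ω p : ℕ) = 0).card : ℝ) < q / (4 * D) + 40).card : ℝ)
      ≤ (Real.exp (-(q : ℝ) / D) + Real.exp (40 - (q : ℝ) / (4 * D)))
        * Fintype.card (X → Fin D) := by
  have hD' : (0 : ℝ) < D := Nat.cast_pos.2 hD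
  have h1 : ((univ.filter fun ω : X → Fin D =>
      4 * q / D + 1 ≤ (V.filter fun p => (ω p : ℕ) = 0).card).card : ℝ)
      ≤ Real.exp (-(q : ℝ) / D) * Fintype.card (X → Fin D) := by
    have h := hit_hi hD V (4 * q / D + 1)
    rw [hV, ← le_div_iff₀ (by positivity)] at h
    refine h.trans ?_
    rw [div_le_iff₀ (by positivity)]
    have hm : (4 * q : ℝ) / D ≤ ((4 * q / D + 1 : ℕ) : ℝ) := by
      rw [div_le_iff₀ hD']
      have := Nat.lt_div_mul_add (a := 4 * q) hD
      have h' : 4 * q ≤ (4 * q / D + 1) * D := by rw [add_mul, one_mul]; omega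
      exact_mod_cast h'
    have h2 : Real.exp (2 * q / D) ≤ (2 : ℝ) ^ (4 * q / D + 1) := by
      rw [← Real.exp_log (two_pos (α := ℝ)), ← Real.exp_nat_mul, Real.exp_log two_pos]
      refine Real.exp_le_exp.2 ?_
      have := Real.log_two_gt_d9
      calc (2 * q : ℝ) / D = 1 / 2 * (4 * q / D) := by ring
        _ ≤ Real.log 2 * ((4 * q / D + 1 : ℕ) : ℝ) :=
          mul_le_mul (by linarith) hm (by positivity) (Real.log_nonneg one_le_two)
        _ = _ := mul_comm _ _
    calc (Fintype.card (X → Fin D) : ℝ) * Real.exp (q / D)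
        = Real.exp (-(q : ℝ) / D) * Fintype.card (X → Fin D) * Real.exp (2 * q / D) := by
          rw [mul_right_comm, ← Real.exp_add]; ring_nf
      _ ≤ _ := mul_le_mul_of_nonneg_left h2 (by positivity)
  have h2 : ((univ.filter fun ω : X → Fin D =>
      ((V.filter fun p => (ω p : ℕ) = 0).card : ℝ) < q / (4 * D) + 40).card : ℝ)
      ≤ Real.exp (40 - (q : ℝ) / (4 * D)) * Fintype.card (X → Fin D) := by
    refine (hit_lo hD V _).trans ?_
    refine mul_le_mul_of_nonneg_right (Real.exp_le_exp.2 ?_) (Nat.cast_nonneg _)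
    rw [hV]
    have hlog : Real.log 2 ≤ 1 := by have := Real.log_two_lt_d9; linarith
    have h0 : (0 : ℝ) ≤ q / (4 * D) + 40 := by positivity
    have := mul_le_mul_of_nonneg_right hlog h0
    have e : (q : ℝ) / D / 2 = 2 * (q / (4 * D)) := by ring
    linarith
  rw [filter_or, add_mul]
  refine le_trans ?_ (add_le_add h1 h2)
  exact_mod_cast card_union_le _ _

lemma fam_bad (hD : 0 < D) (V : Finset X) (A : ℕ) :
    ((univ.filter fun ω : X → Fin D =>
        ((V.filter fun p => (ω p : ℕ) = 0).card : ℝ) < V.card / (4 * D) - A).card : ℝ)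
      ≤ ((2 : ℝ) ^ A)⁻¹ * Fintype.card (X → Fin D) := by
  refine (hit_lo hD V _).trans (mul_le_mul_of_nonneg_right ?_ (Nat.cast_nonneg _))
  rw [← Real.exp_log (show (0 : ℝ) < ((2 : ℝ) ^ A)⁻¹ by positivity), Real.log_inv, Real.log_pow]
  refine Real.exp_le_exp.2 ?_
  have hlog : Real.log 2 ≤ 1 := by have := Real.log_two_lt_d9; linarith
  have h0 : (0 : ℝ) ≤ V.card / (4 * D) := by positivity
  have := mul_le_mul_of_nonneg_right hlog h0
  have e : (V.card : ℝ) / D / 2 = 2 * (V.card / (4 * D)) := by ring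
  rw [mul_sub]
  linarith

end Random

lemma family_count {q : ℕ} [Fact q.Prime] (LG : ℕ) (hLG : q + 1 ≤ 2 ^ LG) :
    ((univ.filter fun Ls : Finset (Option (ZMod q) × ZMod q) => Ls.card ≤ 2 * q).card : ℝ)
      * ((2 : ℝ) ^ (12 * q * LG))⁻¹ ≤ 1 / 2 := by
  have hq0 : 0 < q := (Fact.out : q.Prime).pos
  have hLG1 : 1 ≤ LG := by
    rcases Nat.eq_zero_or_pos LG with h | h
    · subst h; simp at hLG; omega
    · exact h
  rw [mul_inv_le_iff₀ (by positivity)]
  have hn : (univ.filter fun Ls : Finset (Option (ZMod q) × ZMod q) => Ls.card ≤ 2 * q).card * 2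
      ≤ 2 ^ (12 * q * LG) := by
    calc _ ≤ (Fintype.card (Option (ZMod q) × ZMod q) + 1) ^ (2 * q) * 2 :=
          Nat.mul_le_mul_right _ (card_small_subsets _)
      _ ≤ ((2 ^ LG) ^ 2) ^ (2 * q) * 2 := by
          refine Nat.mul_le_mul_right _ (Nat.pow_le_pow_left ?_ _)
          refine le_trans ?_ (Nat.pow_le_pow_left hLG 2)
          rw [Fintype.card_prod, Fintype.card_option, ZMod.card]
          nlinarith
      _ = 2 ^ (LG * 2 * (2 * q) + 1) := by rw [← pow_mul, ← pow_mul, pow_succ, mul_assoc]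
      _ ≤ 2 ^ (12 * q * LG) := Nat.pow_le_pow_right two_pos (by nlinarith)
  have : ((univ.filter fun Ls : Finset (Option (ZMod q) × ZMod q) => Ls.card ≤ 2 * q).card : ℝ)
      * 2 ≤ (2 : ℝ) ^ (12 * q * LG) := by exact_mod_cast hn
  linarith

/-- A random set of density `1/D` has the expected line counts and is nowhere sparse off
small families of lines. -/
lemma exists_set {q : ℕ} [Fact q.Prime] (D : ℕ) (hD : 0 < D) (LG : ℕ) (hLG : q + 1 ≤ 2 ^ LG)
    (hq : 2 * (q : ℝ) ^ 2 *
      (Real.exp (-(q : ℝ) / D) + Real.exp (40 - (q : ℝ) / (4 * D))) < 1 / 2) :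
    ∃ Z : Finset (ZMod q × ZMod q),
      (∀ L : Option (ZMod q) × ZMod q, D * (Z.filter (On L)).card ≤ 4 * q ∧
        q + 4 * D * 40 ≤ 4 * D * (Z.filter (On L)).card) ∧
      ∀ Ls : Finset (Option (ZMod q) × ZMod q), Ls.card ≤ 2 * q →
        (univ.filter fun p => ¬ ∃ L ∈ Ls, On L p).card
          ≤ 4 * D * ((Z.filter fun p => ¬ ∃ L ∈ Ls, On L p).card + 12 * q * LG) := by
  have : Nonempty (ZMod q × ZMod q → Fin D) := ⟨fun _ => ⟨0, hD⟩⟩
  let lineV : Option (ZMod q) × ZMod q → Finset (ZMod q × ZMod q) := fun L => univ.filter (On L)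
  let famV : Finset (Option (ZMod q) × ZMod q) → Finset (ZMod q × ZMod q) :=
    fun Ls => univ.filter fun p => ¬ ∃ L ∈ Ls, On L p
  let B : (Option (ZMod q) × ZMod q) ⊕ Finset (Option (ZMod q) × ZMod q) →
      Finset (ZMod q × ZMod q → Fin D) :=
    Sum.elim
      (fun L => univ.filter fun ω : ZMod q × ZMod q → Fin D =>
        4 * q / D + 1 ≤ ((lineV L).filter fun p => (ω p : ℕ) = 0).card ∨
        (((lineV L).filter fun p => (ω p : ℕ) = 0).card : ℝ) < q / (4 * D) + 40)
      (fun Ls => univ.filter fun ω : ZMod q × ZMod q → Fin D =>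
        (((famV Ls).filter fun p => (ω p : ℕ) = 0).card : ℝ)
          < (famV Ls).card / (4 * D) - ((12 * q * LG : ℕ) : ℝ))
  let δ : (Option (ZMod q) × ZMod q) ⊕ Finset (Option (ZMod q) × ZMod q) → ℝ :=
    Sum.elim
      (fun _ => Real.exp (-(q : ℝ) / D) + Real.exp (40 - (q : ℝ) / (4 * D)))
      (fun _ => ((2 : ℝ) ^ (12 * q * LG))⁻¹)
  let I : Finset ((Option (ZMod q) × ZMod q) ⊕ Finset (Option (ZMod q) × ZMod q)) :=
    (univ : Finset (Option (ZMod q) × ZMod q)).disjSum
      (univ.filter fun Ls : Finset (Option (ZMod q) × ZMod q) => Ls.card ≤ 2 * q)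
  have hB : ∀ i ∈ I, ((B i).card : ℝ) ≤ δ i * Fintype.card (ZMod q × ZMod q → Fin D) := by
    rintro (L | Ls) -
    · exact line_bad hD (lineV L) ((card_line L).trans (ZMod.card q))
    · exact fam_bad hD (famV Ls) (12 * q * LG)
  have hs : ∑ i ∈ I, δ i < 1 := by
    simp only [I, δ, sum_disjSum, Sum.elim_inl, Sum.elim_inr, sum_const, nsmul_eq_mul]
    have h1 : ((univ : Finset (Option (ZMod q) × ZMod q)).card : ℝ) ≤ 2 * (q : ℝ) ^ 2 := by
      have : (univ : Finset (Option (ZMod q) × ZMod q)).card ≤ 2 * q ^ 2 := by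
        rw [card_univ, Fintype.card_prod, Fintype.card_option, ZMod.card]
        nlinarith [(Fact.out : q.Prime).pos]
      exact_mod_cast this
    have h2 := family_count (q := q) LG hLG
    have h3 := mul_le_mul_of_nonneg_right h1
      (show 0 ≤ Real.exp (-(q : ℝ) / D) + Real.exp (40 - (q : ℝ) / (4 * D)) by positivity)
    linarith
  obtain ⟨ω, hω⟩ := exists_avoid I B δ hB hs
  refine ⟨univ.filter fun p => (ω p : ℕ) = 0, fun L => ?_, fun Ls hLs => ?_⟩
  · have h := hω (Sum.inl L) (inl_mem_disjSum.2 (mem_univ L))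
    simp only [B, Sum.elim_inl, mem_filter, mem_univ, true_and, not_or, not_le, not_lt] at h
    obtain ⟨h1, h2⟩ := h
    rw [filter_comm]
    constructor
    · calc D * ((lineV L).filter fun p => (ω p : ℕ) = 0).card ≤ D * (4 * q / D) :=
            Nat.mul_le_mul_left _ (Nat.lt_succ_iff.1 h1)
        _ ≤ 4 * q := Nat.mul_div_le _ _
    · have h2' : ((q + 4 * D * 40 : ℕ) : ℝ)
          ≤ ((4 * D * ((lineV L).filter fun p => (ω p : ℕ) = 0).card : ℕ) : ℝ) := by
        push_cast
        have := mul_le_mul_of_nonneg_left h2 (show (0 : ℝ) ≤ 4 * D by positivity)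
        rw [mul_add, mul_div_cancel₀ _ (by positivity)] at this
        exact this
      exact_mod_cast h2'
  · have h := hω (Sum.inr Ls) (inr_mem_disjSum.2 (mem_filter.2 ⟨mem_univ _, hLs⟩))
    simp only [B, Sum.elim_inr, mem_filter, mem_univ, true_and, not_lt] at h
    rw [sub_le_iff_le_add, div_le_iff₀ (by positivity)] at h
    have h' : ((famV Ls).card : ℝ)
        ≤ ((4 * D * (((famV Ls).filter fun p => (ω p : ℕ) = 0).card + 12 * q * LG) : ℕ) : ℝ) := by
      push_cast at h ⊢
      linarith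
    rw [filter_comm]
    exact_mod_cast h'

/-! ### Bad slopes -/

/-- The number of a gadget kind. -/
def code (c : Kind) : ℕ := 10 * c.1.val + c.2.val

lemma code_lt (c : Kind) : code c < 40 := by
  have := c.1.isLt
  have := c.2.isLt
  simp only [code]
  omega

lemma code_inj : Function.Injective code := by
  intro a b h
  have := a.2.isLt
  have := b.2.isLt
  simp only [code] at h
  exact Prod.ext (Fin.ext (by omega)) (Fin.ext (by omega))

lemma cast_inj_small {q a b : ℕ} [Fact q.Prime] (ha : a < q) (hb : b < q)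
    (h : (a : ZMod q) = (b : ZMod q)) : a = b := by
  rw [← ZMod.val_cast_of_lt ha, ← ZMod.val_cast_of_lt hb, h]

lemma lam_code {q : ℕ} (c : Kind) :
    lam (q := q) c = ((code c : ZMod q), ((code c ^ 2 : ℕ) : ZMod q)) := rfl

/-- Slopes under which two labels share a block. -/
def badSlopes (q : ℕ) : Finset (ZMod q) := (range 80).image fun n : ℕ => (n : ZMod q)

lemma sep_of_not_bad {q : ℕ} [Fact q.Prime] (hq : 40 ≤ q) {k : ZMod q} (hk : k ∉ badSlopes q)
    (c c' : Kind) (h : blk k (lam c) = blk k (lam c')) : c = c' := by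
  by_contra hne
  refine hk (mem_image.2 ⟨code c + code c', mem_range.2 ?_, ?_⟩)
  · have := code_lt c
    have := code_lt c'
    omega
  · have hd : (code c : ZMod q) - code c' ≠ 0 := sub_ne_zero.2 fun e =>
      hne (code_inj (cast_inj_small ((code_lt c).trans_le hq) ((code_lt c').trans_le hq) e))
    simp only [blk, ic, lam_code, Nat.cast_pow] at h
    refine mul_left_cancel₀ hd ?_
    push_cast
    linear_combination h

/-! ### Special slopes -/

/-- The requirement on the special slopes of a set of pairs of kinds. -/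
structure SpecOn {q : ℕ} [Fact q.Prime] (T : Finset (Kind × Kind)) (f : Kind × Kind → ZMod q) :
    Prop where
  avoid : ∀ t ∈ T, f t ∉ badSlopes q
  inj : Set.InjOn f (T : Set (Kind × Kind))
  conc : ∀ t₁ ∈ T, ∀ t₂ ∈ T, ∀ t₃ ∈ T, ∀ z : ZMod q × ZMod q, t₁ ≠ t₂ → t₁ ≠ t₃ → t₂ ≠ t₃ →
    blk (f t₁) z = blk (f t₁) (lam t₁.1) → blk (f t₂) z = blk (f t₂) (lam t₂.1) →
    blk (f t₃) z = blk (f t₃) (lam t₃.1) → t₁.1 = t₂.1 ∧ t₂.1 = t₃.1

lemma spec_exists {q : ℕ} [Fact q.Prime] (hq : 80 + 1600 + 1600 * 1600 < q)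
    (T : Finset (Kind × Kind)) : ∃ f : Kind × Kind → ZMod q, SpecOn T f := by
  induction T using Finset.induction_on with
  | empty => exact ⟨fun _ => 0, by simp, by simp, by simp⟩
  | @insert t T ht ih =>
    obtain ⟨f, hav, hinj, hconc⟩ := ih
    have hz : ∀ x : (Kind × Kind) × (Kind × Kind), ∃ z : ZMod q × ZMod q, f x.1 ≠ f x.2 →
        ic (some (f x.1)) z = blk (f x.1) (lam x.1.1) ∧
          ic (some (f x.2)) z = blk (f x.2) (lam x.2.1) := by
      intro x
      by_cases h : f x.1 = f x.2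
      · exact ⟨0, fun h' => absurd h h'⟩
      · obtain ⟨z, hz⟩ := meet_exists (σ := some (f x.1)) (τ := some (f x.2))
          (fun e => h (Option.some.inj e)) (blk (f x.1) (lam x.1.1)) (blk (f x.2) (lam x.2.1))
        exact ⟨z, fun _ => hz⟩
    choose zz hzz using hz
    let sl : (Kind × Kind) × (Kind × Kind) → ZMod q := fun x =>
      ((zz x).2 - (lam t.1).2) / ((zz x).1 - (lam t.1).1)
    obtain ⟨σ, hσ⟩ : ∃ σ, σ ∉ badSlopes q ∪ T.image f ∪ (T ×ˢ T).image sl := by
      by_contra hne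
      push Not at hne
      have h1 : q ≤ (badSlopes q ∪ T.image f ∪ (T ×ˢ T).image sl).card := by
        rw [eq_univ_iff_forall.2 hne, card_univ, ZMod.card]
      have h2 : (badSlopes q).card ≤ 80 := card_image_le.trans (card_range 80).le
      have hT : T.card ≤ 1600 := (card_le_univ T).trans (by simp [Kind])
      have h4 : ((T ×ˢ T).image sl).card ≤ 1600 * 1600 :=
        card_image_le.trans ((card_product T T).le.trans (Nat.mul_le_mul hT hT))
      have h3 : (T.image f).card ≤ 1600 := card_image_le.trans hT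
      have := card_union_le (badSlopes q ∪ T.image f) ((T ×ˢ T).image sl)
      have := card_union_le (badSlopes q) (T.image f)
      omega
    simp only [mem_union, not_or] at hσ
    obtain ⟨⟨hσb, hσf⟩, hσs⟩ := hσ
    let f' := Function.update f t σ
    have hft : f' t = σ := Function.update_self ..
    have hfo : ∀ x ∈ T, f' x = f x :=
      fun x hx => Function.update_of_ne (fun e : x = t => ht (e ▸ hx)) σ f
    have hav' : ∀ x ∈ insert t T, f' x ∉ badSlopes q := by
      intro x hx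
      rcases mem_insert.1 hx with rfl | hx
      · rw [hft]; exact hσb
      · rw [hfo x hx]; exact hav x hx
    have key : ∀ t₂ ∈ T, ∀ t₃ ∈ T, ∀ z : ZMod q × ZMod q, t₂ ≠ t₃ →
        blk (f' t) z = blk (f' t) (lam t.1) → blk (f' t₂) z = blk (f' t₂) (lam t₂.1) →
        blk (f' t₃) z = blk (f' t₃) (lam t₃.1) → t.1 = t₂.1 ∧ t.1 = t₃.1 := by
      intro t₂ h₂ t₃ h₃ z hne e₁ e₂ e₃
      rw [hft] at e₁
      rw [hfo t₂ h₂] at e₂
      rw [hfo t₃ h₃] at e₃
      have hne' : f t₂ ≠ f t₃ := fun e => hne (hinj h₂ h₃ e)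
      obtain ⟨u₂, u₃⟩ := hzz (t₂, t₃) hne'
      have hzeq : z = zz (t₂, t₃) :=
        meet_unique (fun e => hne' (Option.some.inj e)) (e₂.trans u₂.symm) (e₃.trans u₃.symm)
      simp only [blk, ic] at e₁
      by_cases hcol : z.1 = (lam t.1).1
      · have hzl : z = lam t.1 := Prod.ext hcol (by rw [hcol] at e₁; linear_combination e₁)
        have hq40 : 40 ≤ q := by omega
        exact ⟨sep_of_not_bad hq40 (hav t₂ h₂) _ _ (hzl ▸ e₂),
          sep_of_not_bad hq40 (hav t₃ h₃) _ _ (hzl ▸ e₃)⟩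
      · refine absurd (mem_image.2 ⟨(t₂, t₃), mem_product.2 ⟨h₂, h₃⟩, ?_⟩) hσs
        simp only [sl, ← hzeq]
        rw [div_eq_iff (sub_ne_zero.2 hcol)]
        linear_combination e₁
    refine ⟨f', hav', ?_, ?_⟩
    · rw [coe_insert, Set.injOn_insert (by simpa using ht)]
      refine ⟨fun a ha b hb e => hinj ha hb ?_, ?_⟩
      · rwa [hfo a ha, hfo b hb] at e
      · rintro ⟨x, hx, e⟩
        rw [hft, hfo x hx] at e
        exact hσf (mem_image.2 ⟨x, hx, e⟩)
    · intro t₁ h₁ t₂ h₂ t₃ h₃ z n₁₂ n₁₃ n₂₃ e₁ e₂ e₃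
      rw [mem_insert] at h₁ h₂ h₃
      rcases h₁ with rfl | h₁
      · obtain ⟨a, b⟩ := key t₂ (h₂.resolve_left n₁₂.symm) t₃ (h₃.resolve_left n₁₃.symm) z n₂₃
          e₁ e₂ e₃
        exact ⟨a, a.symm.trans b⟩
      rcases h₂ with rfl | h₂
      · obtain ⟨a, b⟩ := key t₁ h₁ t₃ (h₃.resolve_left n₂₃.symm) z n₁₃ e₂ e₁ e₃
        exact ⟨a.symm, b⟩
      rcases h₃ with rfl | h₃
      · obtain ⟨a, b⟩ := key t₁ h₁ t₂ h₂ z n₁₂ e₃ e₁ e₂
        exact ⟨a.symm.trans b, b.symm⟩
      rw [hfo t₁ h₁] at e₁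
      rw [hfo t₂ h₂] at e₂
      rw [hfo t₃ h₃] at e₃
      exact hconc t₁ h₁ t₂ h₂ t₃ h₃ z n₁₂ n₁₃ n₂₃ e₁ e₂ e₃

/-! ### Claims -/

lemma card_shift {q : ℕ} [Fact q.Prime] (b : ZMod q) {h : ℕ} (hh : h ≤ q) :
    (univ.filter fun a : ZMod q => (b + a).val < h).card = h := by
  rw [← card_range h]
  refine card_bij' (fun a _ => (b + a).val) (fun n _ => (n : ZMod q) - b) ?_ ?_ ?_ ?_
  · intro a ha
    simpa using ha
  · intro n hn
    have hn' : n < h := mem_range.1 hn
    simp [ZMod.val_cast_of_lt (hn'.trans_le hh), hn']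
  · intro a _
    simp
  · intro n hn
    simp [ZMod.val_cast_of_lt ((mem_range.1 hn).trans_le hh)]

lemma shift_exists {q g : ℕ} [Fact q.Prime] (kx : Fin g → ZMod q) {h : ℕ} (hh : h ≤ q) (M : ℝ)
    (hM : (q : ℝ) ^ 2 * Real.exp (M - (g : ℝ) * h / q / 2) < 1) (hM0 : 0 ≤ M) :
    ∃ s : Fin g → ZMod q, ∀ l : ZMod q × ZMod q,
      M ≤ ((univ.filter fun i => (blk (kx i) l + s i).val < h).card : ℝ) := by
  have hq : (0 : ℝ) < q := Nat.cast_pos.2 (Fact.out : q.Prime).pos
  have hB : ∀ l ∈ (univ : Finset (ZMod q × ZMod q)),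
      ((univ.filter fun s : Fin g → ZMod q =>
        ((univ.filter fun i => (blk (kx i) l + s i).val < h).card : ℝ) < M).card : ℝ)
      ≤ Real.exp (M - (g : ℝ) * h / q / 2) * Fintype.card (Fin g → ZMod q) := by
    intro l _
    refine (lower_tail (A := fun _ => ZMod q) (fun i a => (blk (kx i) l + a).val < h)
      (fun _ => (h : ℝ) / q) M ?_).trans ?_
    · intro i
      rw [card_shift _ hh, ZMod.card, div_mul_cancel₀ _ hq.ne']
    · refine mul_le_mul_of_nonneg_right (Real.exp_le_exp.2 ?_) (Nat.cast_nonneg _)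
      rw [sum_const, card_univ, Fintype.card_fin, nsmul_eq_mul]
      have hlog : Real.log 2 ≤ 1 := by have := Real.log_two_lt_d9; linarith
      have := mul_le_mul_of_nonneg_right hlog hM0
      rw [← mul_div_assoc]
      linarith
  have hs : ∑ _l ∈ (univ : Finset (ZMod q × ZMod q)),
      Real.exp (M - (g : ℝ) * h / q / 2) < 1 := by
    rw [sum_const, nsmul_eq_mul, card_univ, Fintype.card_prod, ZMod.card, Nat.cast_mul, ← sq]
    exact hM
  obtain ⟨s, hs⟩ := exists_avoid (univ : Finset (ZMod q × ZMod q))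
    (fun l => univ.filter fun s : Fin g → ZMod q =>
      ((univ.filter fun i => (blk (kx i) l + s i).val < h).card : ℝ) < M) _ hB hs
  refine ⟨s, fun l => ?_⟩
  have := hs l (mem_univ _)
  simpa using this

lemma hall_regular {α β : Type} [Fintype α] [DecidableEq β] (t : α → Finset β) {R : ℕ}
    (hR : 0 < R) (hl : ∀ x, R ≤ (t x).card)
    (hr : ∀ y, (univ.filter fun x => y ∈ t x).card ≤ R) :
    ∃ φ : α → β, Function.Injective φ ∧ ∀ x, φ x ∈ t x := by
  refine (all_card_le_biUnion_card_iff_exists_injective t).1 fun s => ?_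
  refine Nat.le_of_mul_le_mul_right (c := R) ?_ hR
  refine card_mul_le_card_mul (fun x y => y ∈ t x) (fun x hx => ?_) (fun y _ => ?_)
  · refine (hl x).trans (card_le_card fun y hy => ?_)
    exact (mem_bipartiteAbove _).2 ⟨mem_biUnion.2 ⟨x, hx, hy⟩, hy⟩
  · refine le_trans (card_le_card fun x hx => ?_) (hr y)
    exact mem_filter.2 ⟨mem_univ _, ((mem_bipartiteBelow _).1 hx).2⟩

/-- One kind's distribution of labels to its group of slopes. -/
lemma claim_exists {q g : ℕ} [Fact q.Prime] (S : Finset (ZMod q × ZMod q))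
    (hlam : ∀ c, lam c ∉ S) (R : ℕ) (hR : 0 < R)
    (hline : ∀ k b : ZMod q, (S.filter fun l => blk k l = b).card ≤ R)
    (kx : Fin g → ZMod q) (hkx : Function.Injective kx) {h : ℕ} (hh : h ≤ q) (M : ℝ)
    (hRM : ((R + 40 : ℕ) : ℝ) ≤ M)
    (hM : (q : ℝ) ^ 2 * Real.exp (M - (g : ℝ) * h / q / 2) < 1) :
    ∃ cl : ZMod q × ZMod q → ZMod q,
      (∀ l ∈ S, ∃ i, kx i = cl l) ∧
      (∀ l ∈ S, ∀ l' ∈ S, cl l = cl l' → blk (cl l) l = blk (cl l) l' → l = l') ∧
      (∀ c', ∀ l ∈ S, blk (cl l) l ≠ blk (cl l) (lam c')) ∧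
      ∀ k, (S.filter fun l => cl l = k).card ≤ h := by
  obtain ⟨s, hs⟩ := shift_exists kx hh M hM ((Nat.cast_nonneg _).trans hRM)
  let Al : ZMod q × ZMod q → Finset (Fin g) := fun l => univ.filter fun i =>
    (blk (kx i) l + s i).val < h ∧ ∀ c', blk (kx i) l ≠ blk (kx i) (lam c')
  let t : S → Finset (Fin g × ZMod q) := fun l =>
    (Al l.1).image fun i => (i, blk (kx i) l.1)
  have hexcl : ∀ l ∈ S, ∀ c' : Kind,
      (univ.filter fun i => blk (kx i) l = blk (kx i) (lam c')).card ≤ 1 := by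
    intro l hl c'
    refine card_le_one.2 fun i hi j hj => ?_
    have hi' := (mem_filter.1 hi).2
    have hj' := (mem_filter.1 hj).2
    simp only [blk, ic] at hi' hj'
    by_cases hcol : l.1 = (lam c').1
    · refine absurd ?_ (hlam c')
      have e : l = lam c' := Prod.ext hcol (by rw [hcol] at hi'; linear_combination hi')
      rwa [← e]
    · refine hkx (mul_right_cancel₀ (sub_ne_zero.2 hcol) ?_)
      linear_combination hj' - hi'
  have hl : ∀ x : S, R ≤ (t x).card := by
    intro x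
    rw [card_image_of_injective _ fun a b e => (Prod.ext_iff.1 e).1]
    have hsub : (univ.filter fun i => (blk (kx i) x.1 + s i).val < h) ⊆ Al x.1 ∪
        (univ : Finset Kind).biUnion
          (fun c' => univ.filter fun i => blk (kx i) x.1 = blk (kx i) (lam c')) := by
      intro i hi
      simp only [mem_union, mem_biUnion, mem_univ, true_and, Al, mem_filter] at hi ⊢
      by_cases hc : ∀ c', blk (kx i) x.1 ≠ blk (kx i) (lam c')
      · exact Or.inl ⟨hi, hc⟩
      · push Not at hc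
        exact Or.inr hc
    have h1 := (card_le_card hsub).trans (card_union_le _ _)
    have h2 : ((univ : Finset Kind).biUnion
        (fun c' => univ.filter fun i => blk (kx i) x.1 = blk (kx i) (lam c'))).card ≤ 40 := by
      refine card_biUnion_le.trans ((sum_le_sum fun c' _ => hexcl x.1 x.2 c').trans ?_)
      simp [Kind]
    have h3 : R + 40 ≤ (univ.filter fun i => (blk (kx i) x.1 + s i).val < h).card := by
      exact_mod_cast hRM.trans (hs x.1)
    omega
  have hr : ∀ y, ((univ : Finset S).filter fun x => y ∈ t x).card ≤ R := by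
    intro y
    refine le_trans ?_ (hline (kx y.1) y.2)
    rw [← card_map ⟨Subtype.val, Subtype.val_injective⟩]
    refine card_le_card fun l hl => ?_
    obtain ⟨x, hx, rfl⟩ := mem_map.1 hl
    obtain ⟨i, -, rfl⟩ := mem_image.1 (mem_filter.1 hx).2
    exact mem_filter.2 ⟨x.2, rfl⟩
  obtain ⟨φ, hφ, hφt⟩ := hall_regular t hR hl hr
  let cl : ZMod q × ZMod q → ZMod q := fun l => if hS : l ∈ S then kx (φ ⟨l, hS⟩).1 else 0
  have hcl : ∀ l (hS : l ∈ S), cl l = kx (φ ⟨l, hS⟩).1 ∧
      (φ ⟨l, hS⟩).2 = blk (cl l) l ∧ (φ ⟨l, hS⟩).1 ∈ Al l := by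
    intro l hS
    obtain ⟨i, hi, e⟩ := mem_image.1 (hφt ⟨l, hS⟩)
    have ec : cl l = kx (φ ⟨l, hS⟩).1 := by simp only [cl, dif_pos hS]
    rw [ec, ← e]
    exact ⟨rfl, rfl, hi⟩
  refine ⟨cl, fun l hS => ⟨_, (hcl l hS).1.symm⟩, ?_, ?_, ?_⟩
  · intro l hS l' hS' e eb
    obtain ⟨a1, a2, -⟩ := hcl l hS
    obtain ⟨b1, b2, -⟩ := hcl l' hS'
    have : φ ⟨l, hS⟩ = φ ⟨l', hS'⟩ :=
      Prod.ext (hkx (a1.symm.trans (e.trans b1))) (by rw [a2, b2, eb, e])
    exact congrArg Subtype.val (hφ this)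
  · intro c' l hS
    obtain ⟨a1, -, a3⟩ := hcl l hS
    rw [a1]
    exact (mem_filter.1 a3).2.2 c'
  · intro k
    rcases (S.filter fun l => cl l = k).eq_empty_or_nonempty with he | ⟨l₀, hl₀⟩
    · simp [he]
    obtain ⟨h₀, e₀⟩ := mem_filter.1 hl₀
    have hk : k = kx (φ ⟨l₀, h₀⟩).1 := e₀.symm.trans (hcl l₀ h₀).1
    refine le_trans ?_ (card_shift (s (φ ⟨l₀, h₀⟩).1) hh).le
    refine card_le_card_of_injOn (fun l => blk k l) ?_ ?_
    · intro l hl
      obtain ⟨hS, el⟩ := mem_filter.1 hl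
      obtain ⟨a1, -, a3⟩ := hcl l hS
      have ei : (φ ⟨l, hS⟩).1 = (φ ⟨l₀, h₀⟩).1 := hkx (a1.symm.trans (el.trans hk))
      have h' := (mem_filter.1 a3).2.1
      rw [← a1, el, ei] at h'
      refine mem_filter.2 ⟨mem_univ _, ?_⟩
      rwa [add_comm]
    · intro l hl l' hl' e
      obtain ⟨hS, el⟩ := mem_filter.1 hl
      obtain ⟨hS', el'⟩ := mem_filter.1 hl'
      obtain ⟨a1, a2, -⟩ := hcl l hS
      obtain ⟨b1, b2, -⟩ := hcl l' hS'
      have : φ ⟨l, hS⟩ = φ ⟨l', hS'⟩ :=
        Prod.ext (hkx (a1.symm.trans ((el.trans el'.symm).trans b1)))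
          (by rw [a2, b2, el, el']; exact e)
      exact congrArg Subtype.val (hφ this)

/-! ### Stability of the label set -/

lemma stable_core {q : ℕ} [Fact q.Prime] (D LG K : ℕ)
    (hK : slack + 40 + 4 * D * 16 ≤ K) (hLG : 1 ≤ LG)
    (hbig : 4 * D * (35 * K ^ 2 * LG ^ 2) + 64 * K * LG + slack + 40 < q)
    (Z S : Finset (ZMod q × ZMod q))
    (hS : ∀ z ∈ Z, z ∉ S → z ∈ (univ : Finset Kind).image lam)
    (hlo : ∀ L : Option (ZMod q) × ZMod q, q ≤ 4 * D * (S.filter (On L)).card)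
    (hZ : ∀ Ls : Finset (Option (ZMod q) × ZMod q), Ls.card ≤ 2 * q →
      (univ.filter fun p => ¬ ∃ L ∈ Ls, On L p).card
        ≤ 4 * D * ((Z.filter fun p => ¬ ∃ L ∈ Ls, On L p).card + 12 * q * LG))
    (Ls : Finset (Option (ZMod q) × ZMod q)) (Pts : Finset (ZMod q × ZMod q))
    (hcard : Ls.card + Pts.card ≤ q + slack)
    (hcov : ∀ l ∈ S, (∃ L ∈ Ls, On L l) ∨ l ∈ Pts) :
    ∃ P, ∀ L, Thru P L → L ∈ Ls := by
  have hl2 : Ls.card ≤ 2 * q := by omega
  have hZc : (Z.filter fun p => ¬ ∃ L ∈ Ls, On L p).card ≤ Pts.card + 40 := by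
    refine (card_le_card (t := Pts ∪ (univ : Finset Kind).image lam) fun z hz => ?_).trans
      ((card_union_le _ _).trans (Nat.add_le_add_left (card_image_le.trans (by simp [Kind])) _))
    obtain ⟨hzZ, hzc⟩ := mem_filter.1 hz
    by_cases hzS : z ∈ S
    · exact mem_union_left _ ((hcov z hzS).resolve_left hzc)
    · exact mem_union_right _ (hS z hzZ hzS)
  have hU := hZ Ls hl2
  have hX := excess_add Ls
  have hsplit := card_filter_add_card_filter_not (s := (univ : Finset (ZMod q × ZMod q)))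
    (fun p => ∃ L ∈ Ls, On L p)
  rw [card_univ, Fintype.card_prod, ZMod.card] at hsplit
  rw [ZMod.card] at hX
  generalize (univ.filter fun p : ZMod q × ZMod q => ¬ ∃ L ∈ Ls, On L p).card = U at hU hsplit
  generalize (univ.filter fun p : ZMod q × ZMod q => ∃ L ∈ Ls, On L p).card = Cv at hX hsplit
  generalize (Z.filter fun p => ¬ ∃ L ∈ Ls, On L p).card = Zc at hU hZc
  have hqLG : q ≤ q * LG := Nat.le_mul_of_pos_right q hLG
  have hKLG : K ≤ K * LG := Nat.le_mul_of_pos_right K hLG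
  have hKq : 64 * (K * LG) + slack + 40 < q := by rw [← mul_assoc]; omega
  have hUb : U ≤ 4 * D * 16 * (q * LG) := by
    refine hU.trans ?_
    rw [mul_assoc (4 * D) 16]
    exact Nat.mul_le_mul_left _ (by rw [mul_assoc 12]; omega)
  have hUK : U + slack * q ≤ K * LG * q := by
    have : slack * q ≤ slack * (q * LG) := Nat.mul_le_mul_left _ hqLG
    calc U + slack * q ≤ (4 * D * 16 + slack) * (q * LG) := by rw [add_mul]; omega
      _ ≤ K * (q * LG) := Nat.mul_le_mul_right _ (by omega)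
      _ = K * LG * q := by ring
  have hq0 : 0 < q := (Fact.out : q.Prime).pos
  have hl_lo : q ≤ Ls.card + K * LG := by
    refine Nat.le_of_mul_le_mul_right (a := q) ?_ hq0
    rw [add_mul]
    omega
  have hXb : excess Ls ≤ K * LG * q := by
    have : Ls.card * q ≤ q * q + slack * q := by
      rw [← add_mul]; exact Nat.mul_le_mul_right _ (by omega)
    omega
  obtain ⟨P, hP1, hP2⟩ := stability Ls
  have hn : Ls.card - deg Ls P ≤ 32 * K ^ 2 * LG ^ 2 := by
    set d := deg Ls P
    have h8 : q * q ≤ 8 * (Ls.card * (Ls.card - 1)) := by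
      have h1 : q ≤ 2 * Ls.card := by omega
      have h2 : q ≤ 4 * (Ls.card - 1) := by omega
      calc q * q ≤ (2 * Ls.card) * (4 * (Ls.card - 1)) := Nat.mul_le_mul h1 h2
        _ = _ := by ring
    have hd : q ≤ 16 * K * LG * d := by
      refine Nat.le_of_mul_le_mul_right (a := q) ?_ hq0
      calc q * q ≤ 8 * (d * (excess Ls + Ls.card)) := h8.trans (Nat.mul_le_mul_left _ hP1)
        _ ≤ 8 * (d * (K * LG * q + K * LG * q)) := by
          refine Nat.mul_le_mul_left _ (Nat.mul_le_mul_left _ (add_le_add hXb ?_))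
          exact hl2.trans (Nat.mul_le_mul_right _ (by omega))
        _ = _ := by ring
    have hd2 : 2 ≤ d := by
      by_contra hd2
      have : 16 * K * LG * d ≤ 16 * K * LG * 1 := Nat.mul_le_mul_left _ (by omega)
      have : 16 * K * LG * 1 = 16 * (K * LG) := by ring
      omega
    have h1 : (Ls.card - d) * d ≤ 32 * K ^ 2 * LG ^ 2 * d := by
      calc (Ls.card - d) * d ≤ (Ls.card - d) * (2 * (d - 1)) :=
            Nat.mul_le_mul_left _ (by omega)
        _ = 2 * ((Ls.card - d) * (d - 1)) := by ring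
        _ ≤ 2 * (K * LG * (16 * K * LG * d)) :=
            Nat.mul_le_mul_left _ ((hP2.trans hXb).trans (Nat.mul_le_mul_left _ hd))
        _ = _ := by ring
    exact Nat.le_of_mul_le_mul_right h1 (by omega)
  refine ⟨P, fun L hL => ?_⟩
  by_contra hLn
  let A := Ls.filter fun M => ¬ Thru P M
  let PP : Finset (ZMod q × ZMod q) := univ.filter fun p => Sum.inl p = P
  have hPP : PP.card ≤ 1 := card_le_one.2 fun a ha b hb =>
    Sum.inl_injective ((mem_filter.1 ha).2.trans (mem_filter.1 hb).2.symm)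
  have hA : A.card ≤ Ls.card - deg Ls P := by
    have := card_filter_add_card_filter_not (s := Ls) (Thru P)
    simp only [A, deg]
    omega
  have hone : ∀ M ∈ Ls, (univ.filter fun p => On L p ∧ On M p).card ≤ 1 := by
    intro M hM
    refine card_le_one.2 fun a ha b hb => Sum.inl_injective (β := Option (ZMod q)) ?_
    have hne : L ≠ M := fun e => hLn (e ▸ hM)
    exact card_le_one.1 (pair_unique hne).le (Sum.inl a)
      (mem_filter.2 ⟨mem_univ _, (mem_filter.1 ha).2⟩) (Sum.inl b)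
      (mem_filter.2 ⟨mem_univ _, (mem_filter.1 hb).2⟩)
  have hsub : S.filter (On L)
      ⊆ PP ∪ Pts ∪ A.biUnion fun M => univ.filter fun p => On L p ∧ On M p := by
    intro l hl
    obtain ⟨hlS, hlL⟩ := mem_filter.1 hl
    rcases hcov l hlS with ⟨M, hM, hlM⟩ | hlP
    · by_cases hMP : Thru P M
      · have hne : L ≠ M := fun e => hLn (e ▸ hM)
        have := card_le_one.1 (pair_unique hne).le (Sum.inl l)
          (mem_filter.2 ⟨mem_univ _, hlL, hlM⟩) P (mem_filter.2 ⟨mem_univ _, hL, hMP⟩)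
        exact mem_union_left _ (mem_union_left _ (mem_filter.2 ⟨mem_univ _, this⟩))
      · exact mem_union_right _ (mem_biUnion.2
          ⟨M, mem_filter.2 ⟨hM, hMP⟩, mem_filter.2 ⟨mem_univ _, hlL, hlM⟩⟩)
    · exact mem_union_left _ (mem_union_right _ hlP)
  have hb : (S.filter (On L)).card ≤ 35 * K ^ 2 * LG ^ 2 := by
    have h1 := (card_le_card hsub).trans (card_union_le _ _)
    have h2 := card_union_le PP Pts
    have h3 : (A.biUnion fun M => univ.filter fun p => On L p ∧ On M p).card ≤ A.card :=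
      card_biUnion_le.trans ((sum_le_sum fun M hM => hone M (mem_filter.1 hM).1).trans (le_of_eq (by simp [A])))
    have h4 : K * LG ≤ K ^ 2 * LG ^ 2 := by rw [← mul_pow]; exact Nat.le_self_pow two_ne_zero _
    rw [mul_assoc] at hn ⊢
    omega
  have := (hlo L).trans (Nat.mul_le_mul_left (4 * D) hb)
  omega

/-! ### Assembly -/

lemma ev_exp (c C : ℝ) (hc : 0 < c) :
    ∀ᶠ q : ℕ in atTop, C * (q : ℝ) ^ 2 * Real.exp (-c * q) < 1 / 4 := by
  have h := (tendsto_pow_const_mul_const_pow_of_lt_one 2 (Real.exp_pos (-c)).le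
    (Real.exp_lt_one_iff.2 (by linarith))).const_mul C
  rw [mul_zero] at h
  filter_upwards [h.eventually_lt_const (show (0 : ℝ) < 1 / 4 by norm_num)] with q hq
  rw [show -c * (q : ℝ) = (q : ℝ) * -c by ring, Real.exp_nat_mul, mul_assoc]
  exact hq

lemma ev_log (C : ℕ) : ∀ᶠ q : ℕ in atTop, C * (Nat.log 2 q + 1) ^ 2 < q := by
  have h : ∀ᶠ n : ℕ in atTop, C * (n + 1) ^ 2 < 2 ^ n := by
    have h := (tendsto_pow_const_div_const_pow_of_one_lt 2 (one_lt_two (α := ℝ))).const_mul
      (4 * (C : ℝ))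
    rw [mul_zero] at h
    filter_upwards [h.eventually_lt_const one_pos, eventually_ge_atTop 1] with n hn h1
    rw [← mul_div_assoc, div_lt_one (by positivity)] at hn
    have h' : 4 * C * n ^ 2 < 2 ^ n := by exact_mod_cast hn
    have : C * (n + 1) ^ 2 ≤ 4 * C * n ^ 2 := by
      calc C * (n + 1) ^ 2 ≤ C * (2 * n) ^ 2 :=
            Nat.mul_le_mul_left _ (Nat.pow_le_pow_left (by omega) 2)
        _ = _ := by ring
    omega
  obtain ⟨N, hN⟩ := eventually_atTop.1 h
  filter_upwards [eventually_ge_atTop (2 ^ N)] with q hq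
  have hq0 : q ≠ 0 := by have := Nat.two_pow_pos N; omega
  exact (hN _ (Nat.le_log_of_pow_le one_lt_two hq)).trans_le (Nat.pow_log_le_self 2 hq0)

lemma small_of_conds (q : ℕ) [Fact q.Prime] (D : ℕ) (hDdef : D = dens)
    (hbig : 2 ^ 45 ≤ q)
    (hlog : (4 * D * (35 * (2 ^ 32) ^ 2) + 64 * 2 ^ 32 + slack + 40) * (Nat.log 2 q + 1) ^ 2 < q)
    (he1 : 2 * (q : ℝ) ^ 2 * Real.exp (-(1 / D) * q) < 1 / 4)
    (he2 : 2 * Real.exp 40 * (q : ℝ) ^ 2 * Real.exp (-(1 / (4 * D)) * q) < 1 / 4)
    (he3 : Real.exp 40 * (q : ℝ) ^ 2 * Real.exp (-(3 / 4 / 2 ^ 22) * q) < 1 / 4) :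
    Nonempty (Small q) := by
  have hDv : D = 2 ^ 24 := hDdef
  have hD : 0 < D := by rw [hDv]; positivity
  set LG := Nat.log 2 q + 1 with hLGdef
  have hLG1 : 1 ≤ LG := Nat.le_add_left ..
  have hLGq : q + 1 ≤ 2 ^ LG := Nat.lt_pow_succ_log_self one_lt_two q
  obtain ⟨Z, hZline, hZfam⟩ := exists_set (q := q) D hD LG hLGq (by
    rw [mul_add]
    refine lt_of_le_of_lt (le_of_eq ?_) (show (1 : ℝ) / 2 = 1 / 4 + 1 / 4 by norm_num ▸
      add_lt_add he1 he2)
    rw [sub_eq_add_neg (40 : ℝ), Real.exp_add]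
    ring_nf)
  let S := Z \ (univ : Finset Kind).image lam
  have hlam : ∀ c, lam c ∉ S := fun c h =>
    (mem_sdiff.1 h).2 (mem_image_of_mem _ (mem_univ c))
  have hlo : ∀ L : Option (ZMod q) × ZMod q, q ≤ 4 * D * (S.filter (On L)).card := by
    intro L
    have h1 : (Z.filter (On L)).card ≤ (S.filter (On L)).card + 40 := by
      refine (card_le_card (t := S.filter (On L) ∪ (univ : Finset Kind).image lam)
        fun z hz => ?_).trans
        ((card_union_le _ _).trans (Nat.add_le_add_left (card_image_le.trans (by simp [Kind])) _))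
      obtain ⟨hzZ, hzL⟩ := mem_filter.1 hz
      by_cases hzi : z ∈ (univ : Finset Kind).image lam
      · exact mem_union_right _ hzi
      · exact mem_union_left _ (mem_filter.2 ⟨mem_sdiff.2 ⟨hzZ, hzi⟩, hzL⟩)
    have h2 := (hZline L).2.trans (Nat.mul_le_mul_left (4 * D) h1)
    rw [mul_add] at h2
    omega
  have hhi : ∀ L : Option (ZMod q) × ZMod q, D * (S.filter (On L)).card ≤ 4 * q := fun L =>
    le_trans (Nat.mul_le_mul_left _ (card_le_card (filter_subset_filter _ sdiff_subset)))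
      (hZline L).1
  have hbig' : 4 * D * (35 * (2 ^ 32) ^ 2 * LG ^ 2) + 64 * 2 ^ 32 * LG + slack + 40 < q := by
    refine lt_of_le_of_lt ?_ hlog
    have h1 : LG ≤ LG ^ 2 := Nat.le_self_pow two_ne_zero _
    have h2 : 64 * 2 ^ 32 * LG ≤ 64 * 2 ^ 32 * LG ^ 2 := Nat.mul_le_mul_left _ h1
    have h3 : slack + 40 ≤ (slack + 40) * LG ^ 2 :=
      Nat.le_mul_of_pos_right _ (by positivity)
    have e : (4 * D * (35 * (2 ^ 32) ^ 2) + 64 * 2 ^ 32 + slack + 40) * LG ^ 2
        = 4 * D * (35 * (2 ^ 32) ^ 2 * LG ^ 2) + 64 * 2 ^ 32 * LG ^ 2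
          + (slack + 40) * LG ^ 2 := by ring
    rw [e]
    omega
  have hstab := stable_core (q := q) D LG (2 ^ 32)
    (by rw [hDv]; norm_num [slack]) hLG1 hbig' Z S
    (fun z hz hzS => by
      by_contra hn
      exact hzS (mem_sdiff.2 ⟨hz, hn⟩))
    hlo hZfam
  obtain ⟨spec, hspec⟩ := spec_exists (q := q) (lt_of_lt_of_le (by norm_num) hbig) univ
  have hspec_inj : Function.Injective spec :=
    fun a b e => hspec.inj (mem_univ a) (mem_univ b) e
  obtain ⟨e, he⟩ : ∃ e : Kind × Fin (q / 64) → ZMod q, Function.Injective e ∧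
      ∀ x, e x ∉ badSlopes q ∪ univ.image spec := by
    have hc : Fintype.card (Kind × Fin (q / 64))
        ≤ Fintype.card {k : ZMod q // k ∉ badSlopes q ∪ univ.image spec} := by
      rw [Fintype.card_subtype_compl, Fintype.card_coe, ZMod.card]
      have h1 : (badSlopes q).card ≤ 80 := card_image_le.trans (card_range 80).le
      have h2 : (univ.image spec).card ≤ 1600 := card_image_le.trans (by simp [Kind])
      have := card_union_le (badSlopes q) (univ.image spec)
      simp only [Kind, Fintype.card_prod, Fintype.card_fin]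
      omega
    obtain ⟨e⟩ := Function.Embedding.nonempty_of_card_le hc
    exact ⟨fun x => (e x).1, fun a b h => e.injective (Subtype.ext h), fun x => (e x).2⟩
  obtain ⟨he_inj, he_av⟩ := he
  simp only [mem_union, not_or] at he_av
  set h := q / 2 ^ 14 with hhdef
  set R := 4 * q / D with hRdef
  have hR : 0 < R := Nat.div_pos (by rw [hDv]; omega) hD
  have hRreal : ((R + 40 : ℕ) : ℝ) ≤ (q : ℝ) / 2 ^ 22 + 40 := by
    push_cast
    refine add_le_add ?_ le_rfl
    refine (Nat.cast_div_le (α := ℝ)).trans (le_of_eq ?_)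
    rw [hDv]
    push_cast
    ring
  have hexp : (q : ℝ) ^ 2
      * Real.exp ((q : ℝ) / 2 ^ 22 + 40 - ((q / 64 : ℕ) : ℝ) * h / q / 2) < 1 := by
    have hq' : (0 : ℝ) < q := Nat.cast_pos.2 (Fact.out : q.Prime).pos
    have hqb : (2 : ℝ) ^ 45 ≤ q := by exact_mod_cast hbig
    have hg : (15 / 16 : ℝ) * (q / 64) ≤ ((q / 64 : ℕ) : ℝ) := by
      have : q ≤ 64 * (q / 64) + 64 := by omega
      have : (q : ℝ) ≤ 64 * ((q / 64 : ℕ) : ℝ) + 64 := by exact_mod_cast this
      linarith
    have hh : (15 / 16 : ℝ) * (q / 2 ^ 14) ≤ (h : ℝ) := by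
      have : q ≤ 16384 * h + 16384 := by rw [hhdef]; omega
      have : (q : ℝ) ≤ 16384 * (h : ℝ) + 16384 := by exact_mod_cast this
      linarith
    have hm : (7 / 4 : ℝ) * (q / 2 ^ 22) ≤ ((q / 64 : ℕ) : ℝ) * h / q / 2 := by
      rw [div_div, le_div_iff₀ (by positivity)]
      refine le_trans ?_ (mul_le_mul hg hh (by positivity) (Nat.cast_nonneg _))
      nlinarith
    refine lt_of_le_of_lt (le_of_le_of_eq
      (mul_le_mul_of_nonneg_left (Real.exp_le_exp.2 (?_ : _ ≤ (40 + -(3 / 4 / 2 ^ 22) * q : ℝ)))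
        (by positivity)) ?_) (he3.trans (by norm_num))
    · linarith
    · rw [Real.exp_add]; ring
  have hclaim : ∀ c : Kind, _ := fun c => claim_exists S hlam R hR
    (fun k b => (Nat.le_div_iff_mul_le hD).2 (by rw [mul_comm]; exact hhi (some k, b)))
    (fun i => e (c, i)) (fun a b h => (Prod.ext_iff.1 (he_inj h)).2)
    (h := h) (Nat.div_le_self _ _) _ hRreal hexp
  choose cl hcl_mem hcl_inj hcl_av hcl_load using hclaim
  let group : ZMod q → Option Kind := fun k => (Function.partialInv e k).map Prod.fst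
  have hgroup : ∀ k c, group k = some c → ∃ i, e (c, i) = k := by
    intro k c hk
    obtain ⟨x, hx, rfl⟩ := Option.map_eq_some_iff.1 hk
    exact ⟨x.2, (he_inj.isPartialInv x k).1 hx⟩
  have h40 : 40 ≤ q := le_trans (by norm_num) hbig
  refine ⟨{
    S := S
    claim := cl
    group := group
    spec := spec
    lam_not := hlam
    lam_inj := fun c c' h => code_inj
      (cast_inj_small ((code_lt c).trans_le h40) ((code_lt c').trans_le h40) (Prod.ext_iff.1 h).1)
    lam_fst := fun c c' h => code_inj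
      (cast_inj_small ((code_lt c).trans_le h40) ((code_lt c').trans_le h40) h)
    line_lo := fun L => hDdef ▸ hlo L
    line_hi := fun L => hDdef ▸ hhi L
    stable := hstab
    group_claim := ?_
    claim_inj := fun c => hcl_inj c
    claim_avoid := fun c c' => hcl_av c c'
    claim_load := ?_
    group_sep := ?_
    spec_inj := hspec_inj
    spec_group := ?_
    spec_sep := fun t => sep_of_not_bad h40 (hspec.avoid t (mem_univ t))
    spec_conc := fun t₁ t₂ t₃ z => hspec.conc t₁ (mem_univ _) t₂ (mem_univ _) t₃ (mem_univ _) z }⟩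
  · intro c l hl
    obtain ⟨i, hi⟩ := hcl_mem c l hl
    simp [group, ← hi, Function.partialInv_left he_inj]
  · intro c k
    refine (Nat.mul_le_mul_left _ (hcl_load c k)).trans ?_
    have : loadInv * h ≤ q := Nat.mul_div_le q (2 ^ 14)
    omega
  · intro k c hk
    obtain ⟨i, rfl⟩ := hgroup k c hk
    exact sep_of_not_bad h40 (he_av (c, i)).1
  · intro t
    cases hk : group (spec t) with
    | none => rfl
    | some c =>
      obtain ⟨i, hi⟩ := hgroup _ c hk
      exact absurd (mem_image.2 ⟨t, mem_univ t, hi.symm⟩) (he_av (c, i)).2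

/-- The small-plane data exist for every sufficiently large prime. -/
theorem small_exists : ∃ q₀, ∀ (q : ℕ) [Fact q.Prime], q₀ ≤ q → Nonempty (Small q) := by
  have key : ∀ D : ℕ, D = dens → ∀ᶠ q : ℕ in atTop, ∀ [Fact q.Prime], Nonempty (Small q) := by
    intro D hD
    have hD0 : (0 : ℝ) < D := by rw [hD, dens]; positivity
    filter_upwards [eventually_ge_atTop (2 ^ 45),
      ev_log (4 * D * (35 * (2 ^ 32) ^ 2) + 64 * 2 ^ 32 + slack + 40),
      ev_exp (1 / D) 2 (by positivity),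
      ev_exp (1 / (4 * D)) (2 * Real.exp 40) (by positivity),
      ev_exp (3 / 4 / 2 ^ 22) (Real.exp 40) (by norm_num)] with q h1 h2 h3 h4 h5
    exact small_of_conds q D hD h1 h2 h3 h4 h5
  obtain ⟨q₀, hq₀⟩ := eventually_atTop.1 (key dens rfl)
  exact ⟨q₀, fun q _ hq => hq₀ q hq⟩

end Vale.Agent.P045
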